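import Vale.Agent.P087.AbstractTrace

/-!
P087, abstract layer, part 2: the Schwinger-Dyson relation makes `S` a free semicircular family,
free from `X`.
-/

namespace Vale.Agent.P087

open scoped InnerProductSpace

section SD

variable {ι : Type*} [DecidableEq ι] {H : Type*} [NormedAddCommGroup H] [InnerProductSpace ℂ H]

/-- The vector state. -/
noncomputable def mom (Ω : H) (T : H →L[ℂ] H) : ℂ := ⟪Ω, T Ω⟫_ℂ

variable {Ω : H} {X S : ι → H →L[ℂ] H}

lemma mom_add (A B : H →L[ℂ] H) : mom Ω (A + B) = mom Ω A + mom Ω B := by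
  simp [mom]

lemma mom_smul (c : ℂ) (A : H →L[ℂ] H) : mom Ω (c • A) = c * mom Ω A := by
  simp [mom]

lemma mom_sub (A B : H →L[ℂ] H) : mom Ω (A - B) = mom Ω A - mom Ω B := by
  simp [mom]

lemma mom_one (hn : ‖Ω‖ = 1) : mom Ω (1 : H →L[ℂ] H) = 1 := by
  simp [mom, inner_self_eq_norm_sq_to_K, hn]

variable (Ω X S) in
/-- `e` lists the terms of the derivative of `R` with respect to `S j`. -/
def Rel (j : ι) (R : H →L[ℂ] H) (e : List ((H →L[ℂ] H) × (H →L[ℂ] H))) : Prop :=
  ∀ u : List (ι ⊕ ι), mom Ω (S j * (opWord (Sum.elim X S) u * R)) =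
    (∑ p ∈ Finset.range u.length, if u[p]? = some (Sum.inr j) then
      law Ω (Sum.elim X S) (u.take p) * mom Ω (opWord (Sum.elim X S) (u.drop (p + 1)) * R) else 0) +
    (e.map fun q => mom Ω (opWord (Sum.elim X S) u * q.1) * mom Ω q.2).sum

lemma rel_one (hSD : ∀ (j : ι) (u : List (ι ⊕ ι)), law Ω (Sum.elim X S) (Sum.inr j :: u) =
      diffQuot (law Ω (Sum.elim X S)) (Sum.inr j) u) (j : ι) : Rel Ω X S j 1 [] := by
  intro u
  simp only [mul_one, List.map_nil, List.sum_nil, add_zero]
  have h := hSD j u
  rw [law, opWord_cons] at h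
  exact h

lemma rel_letter {j : ι} {R : H →L[ℂ] H} {e : List ((H →L[ℂ] H) × (H →L[ℂ] H))}
    (h : Rel Ω X S j R e) (k : ι ⊕ ι) :
    Rel Ω X S j (Sum.elim X S k * R) (e.map (fun q => (Sum.elim X S k * q.1, q.2)) ++
      if k = Sum.inr j then [(1, R)] else []) := by
  intro u
  have e1 : ∀ T, opWord (Sum.elim X S) u * (Sum.elim X S k * T) =
      opWord (Sum.elim X S) (u ++ [k]) * T := fun T => by
    rw [opWord_append, opWord_cons, opWord_nil, mul_one, mul_assoc]
  rw [e1, h (u ++ [k]), List.length_append, List.length_singleton, Finset.sum_range_succ,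
    List.map_append, List.sum_append, List.map_map]
  have hmain : (∑ p ∈ Finset.range u.length, if (u ++ [k])[p]? = some (Sum.inr j) then
      law Ω (Sum.elim X S) ((u ++ [k]).take p) *
        mom Ω (opWord (Sum.elim X S) ((u ++ [k]).drop (p + 1)) * R) else 0) =
      ∑ p ∈ Finset.range u.length, if u[p]? = some (Sum.inr j) then
        law Ω (Sum.elim X S) (u.take p) *
          mom Ω (opWord (Sum.elim X S) (u.drop (p + 1)) * (Sum.elim X S k * R)) else 0 := by
    refine Finset.sum_congr rfl fun p hp => ?_
    have hp : p < u.length := Finset.mem_range.mp hp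
    rw [List.getElem?_append_left hp, List.take_append_of_le_length hp.le,
      List.drop_append_of_le_length hp, opWord_append, opWord_cons, opWord_nil, mul_one, mul_assoc]
  rw [hmain, List.getElem?_append_right le_rfl, Nat.sub_self, List.getElem?_cons_zero,
    List.take_left, show (u ++ [k]).drop (u.length + 1) = [] by simp, opWord_nil, one_mul]
  simp only [Option.some.injEq, Function.comp_def, e1]
  split_ifs <;> simp [law, mom]
  ring

lemma rel_pow {j : ι} (i : ι) {R : H →L[ℂ] H} {e : List ((H →L[ℂ] H) × (H →L[ℂ] H))}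
    (h : Rel Ω X S j R e) : ∀ k : ℕ, Rel Ω X S j (S i ^ k * R)
      (e.map (fun q => (S i ^ k * q.1, q.2)) ++
        if i = j then (List.range k).map (fun a => (S i ^ a, S i ^ (k - 1 - a) * R)) else []) := by
  intro k
  induction k with
  | zero => simpa using h
  | succ k ih =>
    have h2 := rel_letter ih (Sum.inr i)
    intro u
    have h3 := h2 u
    simp only [Sum.elim_inr, ← mul_assoc (S i), ← pow_succ'] at h3
    rw [h3]
    congr 1
    by_cases hij : i = j
    · subst hij
      simp only [if_true, List.map_append, List.map_map, List.sum_append, List.range_succ_eq_map,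
        List.map_cons, List.sum_cons, List.map_nil, List.sum_nil, Function.comp_def]
      simp only [Nat.succ_eq_add_one, Nat.add_sub_cancel, Nat.sub_zero, pow_zero,
        ← mul_assoc, ← pow_succ']
      ring_nf
      simp only [Nat.sub_sub]
      ring
    · simp only [hij, if_false, Sum.inr.injEq, List.append_nil, List.map_map, Function.comp_def,
        ← mul_assoc, ← pow_succ']

lemma rel_adjoin {j : ι} {A : H →L[ℂ] H} (hA : A ∈ Algebra.adjoin ℂ (Set.range X)) :
    ∀ {R : H →L[ℂ] H} {e : List ((H →L[ℂ] H) × (H →L[ℂ] H))}, Rel Ω X S j R e →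
      Rel Ω X S j (A * R) (e.map fun q => (A * q.1, q.2)) := by
  induction hA using Algebra.adjoin_induction with
  | mem x hx =>
    obtain ⟨i, rfl⟩ := hx
    intro R e h
    simpa using rel_letter h (Sum.inl i)
  | algebraMap c =>
    intro R e h u
    simp only [← Algebra.smul_def, mul_smul_comm, mom_smul, h u, List.map_map, Function.comp_def,
      mul_add, Finset.mul_sum, ← List.sum_map_mul_left]
    congr 1
    · exact Finset.sum_congr rfl fun p _ => by split_ifs <;> ring
    · exact congrArg List.sum (List.map_congr_left fun q _ => by ring)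
  | add x y _ _ hx hy =>
    intro R e h u
    have a := hx h u
    have b := hy h u
    simp only [List.map_map, Function.comp_def] at a b ⊢
    simp only [add_mul, mul_add, mom_add, a, b, List.sum_map_add]
    rw [add_add_add_comm, ← Finset.sum_add_distrib]
    congr 1
    exact Finset.sum_congr rfl fun p _ => by split_ifs <;> simp
  | mul x y _ _ hx hy =>
    intro R e h
    simpa [List.map_map, Function.comp_def, mul_assoc] using hx (hy h)

/-- A block: a centred element of the algebra of `X`, or a centred power of some `S i`. -/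
abbrev Blk (Ω : H) (X : ι → H →L[ℂ] H) :=
  {A : H →L[ℂ] H // A ∈ Algebra.adjoin ℂ (Set.range X) ∧ mom Ω A = 0} ⊕ (ι × ℕ)

/-- The colour of a block. -/
def Blk.col : Blk Ω X → Option ι
  | Sum.inl _ => none
  | Sum.inr q => some q.1

/-- The weight of a block. -/
def Blk.wt : Blk Ω X → ℕ
  | Sum.inl _ => 1
  | Sum.inr q => q.2 + 1

variable (S) in
/-- The operator of a block. -/
noncomputable def Blk.op : Blk Ω X → (H →L[ℂ] H)
  | Sum.inl A => A.1
  | Sum.inr q => S q.1 ^ (q.2 + 1) - mom Ω (S q.1 ^ (q.2 + 1)) • 1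

variable (S) in
/-- The product of a list of blocks. -/
noncomputable def prodB (l : List (Blk Ω X)) : H →L[ℂ] H := (l.map (Blk.op S)).prod

/-- Total weight. -/
def wtB (l : List (Blk Ω X)) : ℕ := (l.map Blk.wt).sum

/-- The colours. -/
def colB (l : List (Blk Ω X)) : List (Option ι) := l.map Blk.col

omit [DecidableEq ι] in
lemma pow_succ_split (i : ι) (k : ℕ) :
    S i ^ (k + 1) = Blk.op S (Ω := Ω) (X := X) (Sum.inr (i, k)) + mom Ω (S i ^ (k + 1)) • 1 := by
  simp [Blk.op]

lemma exists_rel (hSD : ∀ (j : ι) (u : List (ι ⊕ ι)), law Ω (Sum.elim X S) (Sum.inr j :: u) =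
      diffQuot (law Ω (Sum.elim X S)) (Sum.inr j) u) (j : ι) : ∀ l : List (Blk Ω X),
    ∃ e, Rel Ω X S j (prodB S l) e ∧ ∀ q ∈ e, ∃ (pre post : List (Blk Ω X)) (l' m : ℕ),
      l = pre ++ (Sum.inr (j, l') : Blk Ω X) :: post ∧ m ≤ l' ∧ q.1 = prodB S pre * S j ^ m := by
  intro l
  induction l with
  | nil => exact ⟨[], rel_one hSD j, fun q hq => absurd hq List.not_mem_nil⟩
  | cons B l ih =>
    obtain ⟨e, he, hq⟩ := ih
    have step : ∀ {q : (H →L[ℂ] H) × (H →L[ℂ] H)}, q ∈ e →
        ∃ (pre post : List (Blk Ω X)) (l' m : ℕ), B :: l = pre ++ (Sum.inr (j, l') : Blk Ω X) :: post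
          ∧ m ≤ l' ∧ Blk.op S B * q.1 = prodB S pre * S j ^ m := by
      intro q hqe
      obtain ⟨pre, post, l', m, hl, hm, e1⟩ := hq q hqe
      exact ⟨B :: pre, post, l', m, by rw [hl]; rfl, hm, by
        rw [e1, prodB, prodB, List.map_cons, List.prod_cons, mul_assoc]⟩
    rcases B with A | ⟨i, k⟩
    · refine ⟨_, rel_adjoin A.2.1 he, fun q hq' => ?_⟩
      obtain ⟨q0, hq0, rfl⟩ := List.mem_map.mp hq'
      exact step hq0
    · refine ⟨(e.map fun q => (Blk.op S (Ω := Ω) (X := X) (Sum.inr (i, k)) * q.1, q.2)) ++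
        if i = j then (List.range (k + 1)).map
          (fun a => (S i ^ a, S i ^ (k + 1 - 1 - a) * prodB S l)) else [], fun u => ?_, ?_⟩
      · have h1 := rel_pow i he (k + 1) u
        have h0 := he u
        simp only [prodB, List.map_cons, List.prod_cons, Blk.op, sub_mul, smul_mul_assoc, one_mul,
          mul_sub, mul_smul_comm, mom_sub, mom_smul, List.map_append, List.sum_append, List.map_map,
          Function.comp_def] at h0 h1 ⊢
        rw [h1, h0, mul_add, Finset.mul_sum, ← List.sum_map_mul_left]
        have es : ∀ (L : List ((H →L[ℂ] H) × (H →L[ℂ] H))) (f g : (H →L[ℂ] H) × (H →L[ℂ] H) → ℂ),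
            (L.map fun q => f q - g q).sum = (L.map f).sum - (L.map g).sum := fun L f g => by
          induction L with
          | nil => simp
          | cons x L ih => simp only [List.map_cons, List.sum_cons, ih]; ring
        simp only [es]
        have hite : ∀ (p : Prop) [Decidable p] (A B C : ℂ),
            (if p then A - B * (mom Ω (S i ^ (k + 1)) * C) else 0) =
              (if p then A else 0) - mom Ω (S i ^ (k + 1)) * (if p then B * C else 0) :=
          fun p _ A B C => by split_ifs <;> ring
        simp only [hite, Finset.sum_sub_distrib, mul_assoc]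
        ring
      · intro q hq'
        rcases List.mem_append.mp hq' with h2 | h2
        · obtain ⟨q0, hq0, rfl⟩ := List.mem_map.mp h2
          exact step hq0
        · split_ifs at h2 with hij
          · subst hij
            obtain ⟨a, ha, rfl⟩ := List.mem_map.mp h2
            exact ⟨[], l, k, a, rfl, Nat.lt_succ_iff.mp (List.mem_range.mp ha), by simp [prodB]⟩
          · exact absurd h2 List.not_mem_nil

variable (Ω X S) in
/-- Alternating products of weight at most `n` are centred. -/
def Centred (n : ℕ) : Prop :=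
  ∀ l : List (Blk Ω X), l ≠ [] → (colB l).IsChain (· ≠ ·) → wtB l ≤ n → mom Ω (prodB S l) = 0

omit [DecidableEq ι] in
lemma centred_left {n : ℕ} (Q : Centred Ω X S n) (i : ι) (k : ℕ)
    {l : List (Blk Ω X)} (hl : l ≠ []) (hc : (some i :: colB l).IsChain (· ≠ ·))
    (hw : k + wtB l ≤ n) : mom Ω (S i ^ k * prodB S l) = 0 := by
  cases k with
  | zero => simpa using Q l hl hc.tail (by omega)
  | succ k =>
    rw [pow_succ_split (X := X) i k, add_mul, smul_mul_assoc, one_mul, mom_add, mom_smul,
      Q l hl hc.tail (by omega), mul_zero, add_zero]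
    have := Q ((Sum.inr (i, k) : Blk Ω X) :: l) (List.cons_ne_nil _ _) hc
      (by simp [wtB, Blk.wt] at *; omega)
    simpa [prodB] using this

omit [DecidableEq ι] in
lemma centred_right {n : ℕ} (Q : Centred Ω X S n) (i : ι) (k : ℕ)
    {l : List (Blk Ω X)} (hl : l ≠ []) (hc : (colB l ++ [some i]).IsChain (· ≠ ·))
    (hw : wtB l + k ≤ n) : mom Ω (prodB S l * S i ^ k) = 0 := by
  cases k with
  | zero => simpa using Q l hl hc.left_of_append (by omega)
  | succ k =>
    rw [pow_succ_split (X := X) i k, mul_add, mul_smul_comm, mul_one, mom_add, mom_smul,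
      Q l hl hc.left_of_append (by omega), mul_zero, add_zero]
    have := Q (l ++ [(Sum.inr (i, k) : Blk Ω X)]) (by simp) (by simpa [colB, Blk.col] using hc)
      (by simp [wtB, Blk.wt] at *; omega)
    simpa [prodB] using this

omit [DecidableEq ι] in
lemma centred_both {n : ℕ} (Q : Centred Ω X S n) (i : ι) (k m : ℕ)
    {l : List (Blk Ω X)} (hl : l ≠ []) (hc : (some i :: (colB l ++ [some i])).IsChain (· ≠ ·))
    (hw : k + wtB l + m ≤ n) : mom Ω (S i ^ k * (prodB S l * S i ^ m)) = 0 := by
  cases k with
  | zero => simpa using centred_right Q i m hl hc.tail (by omega)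
  | succ k =>
    rw [pow_succ_split (X := X) i k, add_mul, smul_mul_assoc, one_mul, mom_add, mom_smul,
      centred_right Q i m hl hc.tail (by omega), mul_zero, add_zero]
    have := centred_right Q i m (List.cons_ne_nil (Sum.inr (i, k) : Blk Ω X) l)
      (by simpa [colB, Blk.col] using hc) (by simp [wtB, Blk.wt] at *; omega)
    simpa [prodB, mul_assoc] using this

lemma centred_first (hn : ‖Ω‖ = 1)
    (hSD : ∀ (j : ι) (u : List (ι ⊕ ι)), law Ω (Sum.elim X S) (Sum.inr j :: u) =
      diffQuot (law Ω (Sum.elim X S)) (Sum.inr j) u)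
    {n : ℕ} (Q : Centred Ω X S n) (j : ι) (k : ℕ) (rest : List (Blk Ω X))
    (hc : (some j :: colB rest).IsChain (· ≠ ·)) (hw : k + 1 + wtB rest ≤ n + 1) :
    mom Ω (prodB S ((Sum.inr (j, k) : Blk Ω X) :: rest)) = 0 := by
  rcases eq_or_ne rest [] with rfl | hne
  · simp [prodB, Blk.op, mom_sub, mom_smul, mom_one hn]
  have h0 : mom Ω (prodB S rest) = 0 := Q rest hne hc.tail (by omega)
  have : prodB S ((Sum.inr (j, k) : Blk Ω X) :: rest) =
      S j * (opWord (Sum.elim X S) [] * (S j ^ k * prodB S rest)) -
        mom Ω (S j ^ (k + 1)) • prodB S rest := by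
    simp [prodB, Blk.op, sub_mul, opWord_nil, pow_succ', mul_assoc]
  rw [this, mom_sub, mom_smul, h0, mul_zero, sub_zero]
  obtain ⟨e, he, hq⟩ := exists_rel hSD j rest
  rw [rel_pow j he k []]
  simp only [List.length_nil, Finset.range_zero, Finset.sum_empty, zero_add, opWord_nil, one_mul,
    if_true, List.map_append, List.map_map, List.sum_append]
  have z : ∀ (L : List ℂ), (∀ x ∈ L, x = 0) → L.sum = 0 := fun L h => List.sum_eq_zero h
  rw [z _ fun x hx => ?_, z _ fun x hx => ?_, add_zero]
  · obtain ⟨a, ha, rfl⟩ := List.mem_map.mp hx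
    simp only [Function.comp_apply]
    rw [centred_left Q j _ hne hc (by have := List.mem_range.mp ha; omega), mul_zero]
  · obtain ⟨q, hqe, rfl⟩ := List.mem_map.mp hx
    obtain ⟨pre, post, l', m, rfl, hm, e1⟩ := hq q hqe
    simp only [Function.comp_apply]
    have hpre : pre ≠ [] := by
      rintro rfl
      simp [colB, Blk.col] at hc
    have hc' : (some j :: (colB pre ++ [some j])).IsChain (· ≠ ·) := by
      have : (some j :: colB (pre ++ (Sum.inr (j, l') : Blk Ω X) :: post)) =
          (some j :: (colB pre ++ [some j])) ++ colB post := by simp [colB, Blk.col]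
      rw [this] at hc
      exact hc.left_of_append
    rw [e1, centred_both Q j k m hpre hc' (by simp [wtB, Blk.wt] at *; omega), zero_mul]

variable [CompleteSpace H] in
theorem centred_all (M : VonNeumannAlgebra H) (ht : IsTracialVector M Ω) (hX : ∀ j, X j ∈ M)
    (hS : ∀ j, S j ∈ M)
    (hSD : ∀ (j : ι) (u : List (ι ⊕ ι)), law Ω (Sum.elim X S) (Sum.inr j :: u) =
      diffQuot (law Ω (Sum.elim X S)) (Sum.inr j) u) : ∀ n, Centred Ω X S n := by
  set Mg := M.toStarSubalgebra.toSubalgebra
  have hXg : Algebra.adjoin ℂ (Set.range X) ≤ Mg :=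
    Algebra.adjoin_le (by rintro _ ⟨j, rfl⟩; exact hX j)
  have hop : ∀ b : Blk Ω X, Blk.op S b ∈ Mg := by
    rintro (A | ⟨i, k⟩)
    · exact hXg A.2.1
    · exact Mg.sub_mem (Mg.pow_mem (hS i) _) (Mg.smul_mem Mg.one_mem _)
  have hprod : ∀ l : List (Blk Ω X), prodB S l ∈ Mg := fun l => Mg.list_prod_mem fun x hx => by
    obtain ⟨b, -, rfl⟩ := List.mem_map.mp hx
    exact hop b
  have htr : ∀ A ∈ Mg, ∀ B ∈ Mg, mom Ω (A * B) = mom Ω (B * A) := fun A hA B hB =>
    ht.2.1 A hA B hB
  intro n
  induction n with
  | zero =>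
    intro l hl _ hw
    obtain ⟨b, l, rfl⟩ := List.exists_cons_of_ne_nil hl
    rcases b with A | q <;> simp [wtB, Blk.wt] at hw
  | succ n Q =>
    intro l hl hc hw
    obtain ⟨b, t, rfl⟩ := List.exists_cons_of_ne_nil hl
    rcases b with A | ⟨j, k⟩
    swap
    · exact centred_first ht.1 hSD Q j k t (by simpa [colB, Blk.col] using hc)
        (by simp [wtB, Blk.wt] at *; omega)
    rcases List.eq_nil_or_concat t with rfl | ⟨mid, c, rfl⟩
    · simpa [prodB, Blk.op] using A.2.2
    rw [List.concat_eq_append] at *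
    rcases c with B | ⟨j, k⟩
    swap
    · have hrot : mom Ω (prodB S ((Sum.inl A : Blk Ω X) :: (mid ++ [(Sum.inr (j, k) : Blk Ω X)]))) =
          mom Ω (prodB S ((Sum.inr (j, k) : Blk Ω X) :: (Sum.inl A : Blk Ω X) :: mid)) := by
        have h := htr (prodB S ((Sum.inl A : Blk Ω X) :: mid)) (hprod _) _
          (hop (Sum.inr (j, k) : Blk Ω X))
        simpa [prodB, mul_assoc] using h
      rw [hrot]
      refine centred_first ht.1 hSD Q j k _ ?_ (by simp [wtB, Blk.wt] at *; omega)
      have h' : (colB ((Sum.inl A : Blk Ω X) :: mid) ++ [some j]).IsChain (· ≠ ·) := by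
        simpa [colB, Blk.col] using hc
      rw [List.isChain_cons]
      exact ⟨fun y hy => by simp [colB, Blk.col] at hy; subst hy; simp, h'.left_of_append⟩
    · have hmid : mid ≠ [] := by rintro rfl; simp [colB, Blk.col] at hc
      have hm : (colB mid).IsChain (· ≠ ·) := by
        have : (colB mid ++ [none]).IsChain (· ≠ ·) := by
          have := hc.tail; simpa [colB, Blk.col] using this
        exact this.left_of_append
      have hhead : (none :: colB mid).IsChain (· ≠ ·) := by
        have : ((none :: colB mid) ++ [none]).IsChain (· ≠ ·) := by simpa [colB, Blk.col] using hc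
        exact this.left_of_append
      set C := B.1 * A.1 - mom Ω (B.1 * A.1) • (1 : H →L[ℂ] H) with hC
      have hCm : C ∈ Algebra.adjoin ℂ (Set.range X) ∧ mom Ω C = 0 :=
        ⟨Subalgebra.sub_mem _ (Subalgebra.mul_mem _ B.2.1 A.2.1)
          (Subalgebra.smul_mem _ (Subalgebra.one_mem _) _),
          by rw [hC, mom_sub, mom_smul, mom_one ht.1, mul_one, sub_self]⟩
      have hnew := Q ((Sum.inl ⟨C, hCm⟩ : Blk Ω X) :: mid) (List.cons_ne_nil _ _)
        (by simpa [colB, Blk.col] using hhead) (by simp [wtB, Blk.wt] at *; omega)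
      have hold := Q mid hmid hm (by simp [wtB, Blk.wt] at *; omega)
      have h := htr (A.1 * prodB S mid) (Mg.mul_mem (hXg A.2.1) (hprod _)) B.1 (hXg B.2.1)
      have e : prodB S ((Sum.inl A : Blk Ω X) :: (mid ++ [(Sum.inl B : Blk Ω X)])) =
          A.1 * prodB S mid * B.1 := by simp [prodB, Blk.op, mul_assoc]
      rw [e, h, ← mul_assoc, show B.1 * A.1 = C + mom Ω (B.1 * A.1) • (1 : H →L[ℂ] H) by simp [hC],
        add_mul, smul_mul_assoc, one_mul, mom_add, mom_smul, hold, mul_zero, add_zero]
      simpa [prodB, Blk.op] using hnew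

variable [CompleteSpace H] in
/-- The Schwinger-Dyson relation gives a free semicircular family, free from `X`. -/
theorem free_of_SD (M : VonNeumannAlgebra H) (ht : IsTracialVector M Ω) (hX : ∀ j, X j ∈ M)
    (hS : ∀ j, S j ∈ M)
    (hSD : ∀ (j : ι) (u : List (ι ⊕ ι)), law Ω (Sum.elim X S) (Sum.inr j :: u) =
      diffQuot (law Ω (Sum.elim X S)) (Sum.inr j) u) :
    FreeSemicircularFrom Ω X S := by
  have hn := ht.1
  constructor
  · intro j
    have hrec : ∀ k, mom Ω (S j ^ (k + 1)) =
        ∑ a ∈ Finset.range k, mom Ω (S j ^ a) * mom Ω (S j ^ (k - 1 - a)) := fun k => by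
      have h := rel_pow j (rel_one hSD j) k []
      simp [opWord_nil, ← pow_succ', Function.comp_def] at h
      rw [h]
      rfl
    have hboth : ∀ q, (∀ p, 2 * p = q → mom Ω (S j ^ q) = (catalan p : ℂ)) ∧
        (Odd q → mom Ω (S j ^ q) = 0) := by
      intro q
      induction q using Nat.strong_induction_on with
      | _ q ih =>
        rcases q with _ | k
        · exact ⟨fun p hp => by
            obtain rfl : p = 0 := by omega
            simp [mom_one hn], fun h => absurd h (by simp)⟩
        constructor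
        · intro p hp
          obtain ⟨p', rfl⟩ : ∃ p', p = p' + 1 := ⟨p - 1, by omega⟩
          obtain rfl : k = 2 * p' + 1 := by omega
          rw [hrec, catalan_succ, Nat.cast_sum,
            ← Finset.sum_filter_add_sum_filter_not (Finset.range (2 * p' + 1)) Even]
          rw [Finset.sum_eq_zero (s := (Finset.range (2 * p' + 1)).filter fun a => ¬Even a)
            fun a ha => ?_, add_zero]
          swap
          · obtain ⟨h1, h2⟩ := Finset.mem_filter.mp ha
            rw [(ih a (by have := Finset.mem_range.mp h1; omega)).2 (Nat.not_even_iff_odd.mp h2),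
              zero_mul]
          refine (Finset.sum_bij (fun (i : Fin (p' + 1)) _ => 2 * (i : ℕ)) ?_ ?_ ?_ ?_).symm
          · intro i _
            simp only [Finset.mem_filter, Finset.mem_range, even_two_mul, and_true]
            omega
          · intro a _ b _ h
            ext; omega
          · intro b hb
            obtain ⟨h1, i, rfl⟩ := Finset.mem_filter.mp hb |>.imp_right (·)
            exact ⟨⟨i, by have := Finset.mem_range.mp h1; omega⟩, Finset.mem_univ _,
              by show 2 * i = i + i; omega⟩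
          · intro i _
            have := i.isLt
            rw [(ih (2 * i) (by omega)).1 i rfl,
              (ih (2 * p' + 1 - 1 - 2 * i) (by omega)).1 (p' - i) (by omega), Nat.cast_mul]
        · intro hodd
          rw [hrec]
          refine Finset.sum_eq_zero fun a ha => ?_
          have := Finset.mem_range.mp ha
          rw [Nat.odd_add_one, Nat.not_odd_iff_even] at hodd
          rcases Nat.even_or_odd a with hae | hao
          · rw [(ih (k - 1 - a) (by omega)).2 (by
              obtain ⟨c, rfl⟩ := hae; obtain ⟨d, rfl⟩ := hodd; exact ⟨d - c - 1, by omega⟩),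
              mul_zero]
          · rw [(ih a (by omega)).2 hao, zero_mul]
    exact ⟨fun p => (hboth _).1 p rfl, fun p => (hboth _).2 ⟨p, rfl⟩⟩
  · intro l hl hc hmem
    suffices h : ∀ (pre : List (Blk Ω X)) (rest : List (Option ι × (H →L[ℂ] H))),
        pre ≠ [] ∨ rest ≠ [] → (colB pre ++ rest.map Prod.fst).IsChain (· ≠ ·) →
        (∀ p ∈ rest, p.2 ∈ Algebra.adjoin ℂ (blockGen X S p.1) ∧ ⟪Ω, p.2 Ω⟫_ℂ = 0) →
        mom Ω (prodB S pre * (rest.map Prod.snd).prod) = 0 by
      have := h [] l (Or.inr hl) (by simpa [colB] using (List.isChain_map Prod.fst).mpr hc) hmem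
      simpa [prodB, mom] using this
    intro pre rest
    induction rest generalizing pre with
    | nil =>
      intro hne hch _
      simpa using centred_all M ht hX hS hSD _ pre (by simpa using hne) (by simpa using hch) le_rfl
    | cons p rest ih =>
      intro _ hch hmem
      obtain ⟨c, A⟩ := p
      obtain ⟨hA, hA0⟩ := hmem _ List.mem_cons_self
      have hrest := fun q hq => hmem q (List.mem_cons_of_mem _ hq)
      rcases c with _ | j
      · have := ih (pre ++ [(Sum.inl ⟨A, hA, hA0⟩ : Blk Ω X)]) (Or.inl (by simp))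
          (by simpa [colB, Blk.col] using hch) hrest
        simpa [prodB, Blk.op, mul_assoc] using this
      · have hA' : A ∈ Algebra.adjoin ℂ {S j} := hA
        rw [Algebra.adjoin_singleton_eq_range_aeval] at hA'
        obtain ⟨P, rfl⟩ := (AlgHom.mem_range _).mp hA'
        set T := (rest.map Prod.snd).prod
        have hF : ∀ k, mom Ω (prodB S pre * (S j ^ k * T)) =
            mom Ω (S j ^ k) * mom Ω (prodB S pre * T) := by
          intro k
          cases k with
          | zero => simp [mom_one hn]
          | succ k =>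
            have := ih (pre ++ [(Sum.inr (j, k) : Blk Ω X)]) (Or.inl (by simp))
              (by simpa [colB, Blk.col] using hch) hrest
            simp only [prodB, List.map_append, List.map_cons, List.map_nil, List.prod_append,
              List.prod_cons, List.prod_nil, mul_one, Blk.op, mul_assoc, sub_mul, mul_sub,
              smul_mul_assoc, mul_smul_comm, mom_sub, mom_smul] at this
            exact sub_eq_zero.mp this
        have hsum : ∀ (B C : H →L[ℂ] H), mom Ω (B * (Polynomial.aeval (S j) P * C)) =
            ∑ k ∈ Finset.range (P.natDegree + 1), P.coeff k * mom Ω (B * (S j ^ k * C)) := by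
          intro B C
          rw [Polynomial.aeval_eq_sum_range, Finset.sum_mul, Finset.mul_sum]
          simp [mom, sum_apply]
        simp only [List.map_cons, List.prod_cons]
        rw [hsum]
        refine (Finset.sum_congr rfl fun k _ => congrArg (P.coeff k * ·) (hF k)).trans ?_
        simp only [← mul_assoc, ← Finset.sum_mul]
        have h1 := hsum 1 1
        simp only [one_mul, mul_one] at h1
        have hA00 : mom Ω (Polynomial.aeval (S j) P) = 0 := hA0
        rw [← h1, hA00, zero_mul]

variable [CompleteSpace H] in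
/-- The setting from a commuting right copy of a family `a` of generators whose span contains
`X` and `S`. -/
theorem exists_setting {κ : Type*} {a a' : κ → H →L[ℂ] H} (ha : ∀ k, IsSelfAdjoint (a k))
    (ha' : ∀ k, IsSelfAdjoint (a' k)) (hcomm : ∀ k l, Commute (a k) (a' l))
    (hvac : ∀ k, a k Ω = a' k Ω) (hn : ‖Ω‖ = 1)
    (hcyc : (Submodule.span ℂ (Set.range fun w : List κ => opWord a' w Ω)).topologicalClosure = ⊤)
    (hX : ∀ j, X j ∈ Submodule.span ℂ (Set.range a))
    (hS : ∀ j, S j ∈ Submodule.span ℂ (Set.range a))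
    (hSD : ∀ (j : ι) (u : List (ι ⊕ ι)), law Ω (Sum.elim X S) (Sum.inr j :: u) =
      diffQuot (law Ω (Sum.elim X S)) (Sum.inr j) u) :
    ∃ M : VonNeumannAlgebra H, IsTracialVector M Ω ∧ (∀ j, X j ∈ M) ∧ (∀ j, S j ∈ M) ∧
      FreeSemicircularFrom Ω X S := by
  obtain ⟨M, haM, ht⟩ := exists_tracial_vonNeumann ha ha' hcomm hvac hn hcyc
  have hle : Submodule.span ℂ (Set.range a) ≤
      Subalgebra.toSubmodule M.toStarSubalgebra.toSubalgebra :=
    Submodule.span_le.mpr (by rintro _ ⟨k, rfl⟩; exact haM k)
  exact ⟨M, ht, fun j => hle (hX j), fun j => hle (hS j),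
    free_of_SD M ht (fun j => hle (hX j)) (fun j => hle (hS j)) hSD⟩

end SD

end Vale.Agent.P087
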