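import Vale.Agent.P087.Defs

/-!
P087, abstract layer, part 1: a tracial vector state with a faithful von Neumann algebra from a
commuting right copy.
-/

namespace Vale.Agent.P087

open scoped InnerProductSpace

variable {H : Type*} [NormedAddCommGroup H] [InnerProductSpace ℂ H]

lemma opWord_nil {κ : Type*} (a : κ → H →L[ℂ] H) : opWord a [] = 1 := rfl

lemma opWord_cons {κ : Type*} (a : κ → H →L[ℂ] H) (k : κ) (w : List κ) :
    opWord a (k :: w) = a k * opWord a w := by
  rw [opWord, List.map_cons, List.prod_cons]; rfl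

lemma opWord_append {κ : Type*} (a : κ → H →L[ℂ] H) (u v : List κ) :
    opWord a (u ++ v) = opWord a u * opWord a v := by
  rw [opWord, List.map_append, List.prod_append]; rfl

variable [CompleteSpace H]

lemma star_opWord {κ : Type*} {a : κ → H →L[ℂ] H} (ha : ∀ k, IsSelfAdjoint (a k)) :
    ∀ w : List κ, star (opWord a w) = opWord a w.reverse
  | [] => by rw [List.reverse_nil, opWord_nil, star_one]
  | k :: w => by
    rw [opWord_cons, star_mul, star_opWord ha w, (ha k).star_eq, List.reverse_cons, opWord_append,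
      opWord_cons, opWord_nil, mul_one]

lemma inner_star_left (x : H →L[ℂ] H) (u v : H) : ⟪star x u, v⟫_ℂ = ⟪u, x v⟫_ℂ := by
  rw [ContinuousLinearMap.star_eq_adjoint, ContinuousLinearMap.adjoint_inner_left]

lemma inner_opWord {κ : Type*} {a : κ → H →L[ℂ] H} (ha : ∀ k, IsSelfAdjoint (a k)) (Ω : H)
    (x y : List κ) : ⟪opWord a x Ω, opWord a y Ω⟫_ℂ = law Ω a (x.reverse ++ y) := by
  have h := inner_star_left (opWord a x.reverse) Ω (opWord a y Ω)
  rw [star_opWord ha, List.reverse_reverse] at h
  rw [h, law, opWord_append, mul_apply_eq_comp]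

section Tracial

variable {κ : Type*} {a a' : κ → H →L[ℂ] H} {Ω : H} (ha : ∀ k, IsSelfAdjoint (a k))
  (ha' : ∀ k, IsSelfAdjoint (a' k)) (hcomm : ∀ k l, Commute (a k) (a' l))
  (hvac : ∀ k, a k Ω = a' k Ω)

include hcomm hvac in
omit [CompleteSpace H] in
lemma opWord_swap : ∀ w : List κ, opWord a' w Ω = opWord a w.reverse Ω
  | [] => rfl
  | k :: w => by
    have hk : Commute (a' k) (opWord a w.reverse) :=
      (Commute.list_prod_left _ _ fun x hx => by
        obtain ⟨l, -, rfl⟩ := List.mem_map.mp hx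
        exact hcomm l k).symm
    rw [opWord_cons, mul_apply_eq_comp, opWord_swap w, ← mul_apply_eq_comp,
      hk.eq, mul_apply_eq_comp, ← hvac k, List.reverse_cons, opWord_append,
      opWord_cons, opWord_nil, mul_one, mul_apply_eq_comp]

include ha ha' hcomm hvac in
lemma law_cyclic (u v : List κ) : law Ω a (u ++ v) = law Ω a (v ++ u) := by
  have hk : Commute (opWord a u) (opWord a' v.reverse) :=
    Commute.list_prod_left _ _ fun x hx => by
      obtain ⟨l, -, rfl⟩ := List.mem_map.mp hx
      exact Commute.list_prod_right _ _ fun y hy => by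
        obtain ⟨m, -, rfl⟩ := List.mem_map.mp hy
        exact hcomm l m
  calc law Ω a (u ++ v) = ⟪Ω, opWord a u (opWord a' v.reverse Ω)⟫_ℂ := by
        rw [law, opWord_append, mul_apply_eq_comp,
          opWord_swap hcomm hvac, List.reverse_reverse]
    _ = ⟪Ω, opWord a' v.reverse (opWord a u Ω)⟫_ℂ := by
        rw [← mul_apply_eq_comp, hk.eq, mul_apply_eq_comp]
    _ = ⟪opWord a v.reverse Ω, opWord a u Ω⟫_ℂ := by
        rw [← inner_star_left, star_opWord ha', List.reverse_reverse, opWord_swap hcomm hvac]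
    _ = law Ω a (v ++ u) := by
        rw [inner_opWord ha, List.reverse_reverse]

include ha ha' hcomm hvac in
/-- The vector state is tracial and faithful on the commutant of the right copy, which contains the
left operators. -/
theorem exists_tracial_vonNeumann (hn : ‖Ω‖ = 1)
    (hcyc : (Submodule.span ℂ (Set.range fun w : List κ => opWord a' w Ω)).topologicalClosure = ⊤) :
    ∃ M : VonNeumannAlgebra H, (∀ k, a k ∈ M) ∧ IsTracialVector M Ω := by
  have hR : (Set.range a' ∪ star (Set.range a')) = Set.range a' := by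
    refine Set.union_eq_left.mpr fun x hx => ?_
    obtain ⟨k, hk⟩ := Set.mem_star.mp hx
    exact ⟨k, by rw [← star_star x, ← hk, (ha' k).star_eq]⟩
  let M : VonNeumannAlgebra H :=
    ⟨StarSubalgebra.centralizer ℂ (Set.range a'), by
      show Set.centralizer (Set.centralizer
        (StarSubalgebra.centralizer ℂ (Set.range a') : Set (H →L[ℂ] H))) = _
      rw [StarSubalgebra.coe_centralizer, Set.centralizer_centralizer_centralizer]
      rfl⟩
  have hmem : ∀ x, x ∈ M ↔ ∀ k, a' k * x = x * a' k := fun x => by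
    show x ∈ (StarSubalgebra.centralizer ℂ (Set.range a') : Set (H →L[ℂ] H)) ↔ _
    rw [StarSubalgebra.coe_centralizer, hR, Set.mem_centralizer_iff]
    simp
  refine ⟨M, fun k => (hmem _).mpr fun l => (hcomm k l).eq.symm, hn, ?_, ?_⟩
  swap
  · intro x hx h0
    refine ContinuousLinearMap.ext fun v => ?_
    have hle : (Submodule.span ℂ (Set.range fun w : List κ => opWord a' w Ω)) ≤
        LinearMap.ker (x : H →ₗ[ℂ] H) := by
      rw [Submodule.span_le]
      rintro _ ⟨w, rfl⟩
      have hk : Commute x (opWord a' w) := Commute.list_prod_right _ _ fun y hy => by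
        obtain ⟨m, -, rfl⟩ := List.mem_map.mp hy
        exact ((hmem x).mp hx m).symm
      show x (opWord a' w Ω) = 0
      rw [← mul_apply_eq_comp, hk.eq, mul_apply_eq_comp, h0, map_zero]
    have hv : v ∈ LinearMap.ker (x : H →ₗ[ℂ] H) :=
      Submodule.topologicalClosure_minimal _ hle x.isClosed_ker (hcyc ▸ Submodule.mem_top)
    simpa using hv
  -- the adjoint is isometric on vectors `u Ω`
  have hle : ∀ u ∈ M, ‖star u Ω‖ ≤ ‖u Ω‖ := by
    intro u hu
    have hclosed : IsClosed {ψ : H | ‖⟪star u Ω, ψ⟫_ℂ‖ ≤ ‖u Ω‖ * ‖ψ‖} :=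
      isClosed_le (by fun_prop) (by fun_prop)
    have hsub : ((Submodule.span ℂ (Set.range fun w : List κ => opWord a' w Ω)) : Set H) ⊆
        {ψ : H | ‖⟪star u Ω, ψ⟫_ℂ‖ ≤ ‖u Ω‖ * ‖ψ‖} := by
      intro ψ hψ
      obtain ⟨c, rfl⟩ := Finsupp.mem_span_range_iff_exists_finsupp.mp hψ
      set φ := c.sum fun w z => (starRingEnd ℂ z) • opWord a w Ω
      have h1 : ∀ w, ⟪star u Ω, opWord a' w Ω⟫_ℂ = ⟪opWord a w Ω, u Ω⟫_ℂ := by
        intro w
        have hk : Commute u (opWord a' w) := Commute.list_prod_right _ _ fun y hy => by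
          obtain ⟨m, -, rfl⟩ := List.mem_map.mp hy
          exact ((hmem u).mp hu m).symm
        rw [inner_star_left, ← mul_apply_eq_comp, hk.eq,
          mul_apply_eq_comp, ← inner_star_left, star_opWord ha',
          opWord_swap hcomm hvac, List.reverse_reverse]
      have h2 : ∀ v w, ⟪opWord a' v Ω, opWord a' w Ω⟫_ℂ = ⟪opWord a w Ω, opWord a v Ω⟫_ℂ := by
        intro v w
        rw [opWord_swap hcomm hvac, opWord_swap hcomm hvac, inner_opWord ha, inner_opWord ha,
          List.reverse_reverse, law_cyclic ha ha' hcomm hvac]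
      have hinner : ⟪star u Ω, c.sum fun w z => z • opWord a' w Ω⟫_ℂ = ⟪φ, u Ω⟫_ℂ := by
        simp only [φ, Finsupp.sum, inner_sum, sum_inner, inner_smul_right, inner_smul_left,
          Complex.conj_conj, h1]
      have hnorm : ‖φ‖ = ‖c.sum fun w z => z • opWord a' w Ω‖ := by
        have : ⟪φ, φ⟫_ℂ = ⟪c.sum fun w z => z • opWord a' w Ω,
            c.sum fun w z => z • opWord a' w Ω⟫_ℂ := by
          simp only [φ, Finsupp.sum, inner_sum, sum_inner, inner_smul_right, inner_smul_left,
            Complex.conj_conj, h2]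
          simp only [Finset.mul_sum]
          rw [Finset.sum_comm]
          exact Finset.sum_congr rfl fun v _ => Finset.sum_congr rfl fun w _ => by ring
        rw [inner_self_eq_norm_sq_to_K, inner_self_eq_norm_sq_to_K] at this
        exact (pow_left_inj₀ (norm_nonneg _) (norm_nonneg _) two_ne_zero).mp (by exact_mod_cast this)
      show ‖⟪star u Ω, c.sum fun w z => z • opWord a' w Ω⟫_ℂ‖ ≤ _
      rw [hinner, mul_comm, ← hnorm]
      exact norm_inner_le_norm φ (u Ω)
    have hall : star u Ω ∈ {ψ : H | ‖⟪star u Ω, ψ⟫_ℂ‖ ≤ ‖u Ω‖ * ‖ψ‖} := by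
      refine closure_minimal hsub hclosed ?_
      rw [← Submodule.topologicalClosure_coe, hcyc]
      exact trivial
    simp only [Set.mem_ofPred_eq, inner_self_eq_norm_sq_to_K] at hall
    rw [norm_pow, RCLike.norm_ofReal, abs_norm, sq] at hall
    rcases (norm_nonneg (star u Ω)).eq_or_lt with h | h
    · rw [← h]; exact norm_nonneg _
    · exact le_of_mul_le_mul_right hall h
  have hiso : ∀ u ∈ M, ‖star u Ω‖ = ‖u Ω‖ := fun u hu =>
    le_antisymm (hle u hu) (by simpa using hle (star u) (star_mem hu))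
  have hpol : ∀ x ∈ M, ∀ y ∈ M, ⟪star x Ω, star y Ω⟫_ℂ = ⟪y Ω, x Ω⟫_ℂ := by
    intro x hx y hy
    have hre : ∀ z ∈ M, (⟪star x Ω, star z Ω⟫_ℂ).re = (⟪x Ω, z Ω⟫_ℂ).re := by
      intro z hz
      have h := congrArg (fun r => r ^ 2) (hiso (x + z) (add_mem hx hz))
      simp only [star_add, add_apply, norm_add_sq (𝕜 := ℂ), hiso x hx,
        hiso z hz] at h
      simpa using h
    have hI : Complex.I • y ∈ M := by
      rw [hmem]
      intro k
      rw [mul_smul_comm, smul_mul_assoc, (hmem y).mp hy k]
    have h2 := hre _ hI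
    simp only [star_smul, smul_apply, inner_smul_right] at h2
    rw [← inner_conj_symm (y Ω) (x Ω)]
    apply Complex.ext
    · rw [Complex.conj_re]; exact hre y hy
    · rw [Complex.conj_im]
      simp at h2
      linarith
  intro x hx y hy
  rw [mul_apply_eq_comp, mul_apply_eq_comp, ← inner_star_left x Ω (y Ω), ← inner_star_left y Ω (x Ω)]
  simpa using hpol x hx (star y) (star_mem hy)

end Tracial

end Vale.Agent.P087
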