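import Vale.Agent.P087.ChiStarBound

/-!
# P087: `χ*` of the example is finite
-/

namespace Vale.Agent.P087

open scoped InnerProductSpace ENNReal
open MeasureTheory ContinuousLinearMap Set

variable {m : ℕ}

/-- A constant dominating the variances of the `X_j`. -/
noncomputable def varBound (m : ℕ) : ℝ := 1 + ∑ j, (‖zOp m j (omega m)‖ ^ 2 + noiseVar m j)

theorem one_le_varBound (m : ℕ) : 1 ≤ varBound m :=
  le_add_of_nonneg_right (Finset.sum_nonneg fun j _ => by
    have := noiseVar_pos m j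
    positivity)

theorem norm_perturb_omega_sq_le (hm : ModelFacts m) {t : ℝ} (ht : 0 ≤ t) (j : Idx m) :
    ‖perturb (xOp m) (sOp m) t j (omega m)‖ ^ 2 ≤ varBound m + t := by
  have hvac : (mixCre m t j).adjoint (omega m) = 0 := by
    have := hm.concat_vac t ht j []
    rwa [opWord_nil_apply] at this
  have hort : ⟪zOp m j (omega m), mixCre m t j (omega m)⟫_ℂ = 0 := by
    have := vac_zWord_cre hm ht j [] [j] (omega m)
    rwa [opWord_cons_apply, opWord_nil_apply, opWord_nil_apply] at this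
  have hs : (0 : ℝ) ≤ noiseVar m j + t := by linarith [noiseVar_pos m j]
  have heq : ‖perturb (xOp m) (sOp m) t j (omega m)‖ ^ 2 =
      ‖zOp m j (omega m)‖ ^ 2 + (noiseVar m j + t) := by
    rw [hm.perturb_eq t ht j]
    simp only [add_apply, smul_apply, hvac, smul_add, smul_zero, add_zero]
    rw [@norm_add_sq ℂ, inner_smul_right, hort, norm_smul, norm_mixCre_omega hm ht]
    simp [Real.sq_sqrt hs]
  have hle := Finset.single_le_sum (f := fun j => ‖zOp m j (omega m)‖ ^ 2 + noiseVar m j)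
    (fun i _ => by have := noiseVar_pos m i; positivity) (Finset.mem_univ j)
  rw [heq, varBound]
  linarith

theorem diffQuot_single (hm : ModelFacts m) (t : ℝ) (j : Idx m) :
    diffQuot (law (omega m) (perturb (xOp m) (sOp m) t)) j [j] = 1 := by
  simp [diffQuot, law, opWord_nil_apply, norm_omega hm]

theorem le_fisherAt (hm : ModelFacts m) {t : ℝ} (ht : 0 ≤ t) (j : Idx m) :
    ENNReal.ofReal (1 / (varBound m + t)) ≤ fisherAt (omega m) (perturb (xOp m) (sOp m) t) j := by
  refine le_iInf₂ fun η hη => ENNReal.ofReal_le_ofReal ?_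
  have h := hη.2 [j]
  rw [diffQuot_single hm, opWord_cons_apply, opWord_nil_apply] at h
  have h1 : 1 ≤ ‖η‖ * ‖perturb (xOp m) (sOp m) t j (omega m)‖ := by
    have := norm_inner_le_norm (𝕜 := ℂ) η (perturb (xOp m) (sOp m) t j (omega m))
    rw [h] at this
    simpa using this
  have h2 := norm_perturb_omega_sq_le hm ht j
  have h3 : 0 < varBound m + t := by linarith [one_le_varBound m]
  rw [div_le_iff₀ h3]
  calc (1 : ℝ) ≤ (‖η‖ * ‖perturb (xOp m) (sOp m) t j (omega m)‖) ^ 2 := one_le_pow₀ h1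
    _ ≤ ‖η‖ ^ 2 * (varBound m + t) := by rw [mul_pow]; gcongr

theorem chiStar_lt_top (hm : ModelFacts m) :
    chiStar (omega m) (xOp m) (sOp m) < ⊤ := by
  set C := varBound m with hC
  have hC1 : 1 ≤ C := one_le_varBound m
  have hP : ∫⁻ t in Ioi (0 : ℝ), (ENNReal.ofReal ((Fintype.card (Idx m) : ℝ) / (1 + t)) -
      fisher (omega m) (perturb (xOp m) (sOp m) t)) < ⊤ := by
    have hpos : ∀ t ∈ Ioi (0 : ℝ), ENNReal.ofReal ((Fintype.card (Idx m) : ℝ) / (1 + t)) -
        fisher (omega m) (perturb (xOp m) (sOp m) t) ≤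
        ENNReal.ofReal ((Fintype.card (Idx m) : ℝ) * C) * ENNReal.ofReal ((1 + t) ^ 2)⁻¹ := by
      intro t (ht : 0 < t)
      have hlow : ENNReal.ofReal ((Fintype.card (Idx m) : ℝ) / (C + t)) ≤
          fisher (omega m) (perturb (xOp m) (sOp m) t) := by
        refine le_trans ?_ (Finset.card_nsmul_le_sum _ _ _ fun j _ => le_fisherAt hm ht.le j)
        rw [Finset.card_univ, ← hC, nsmul_eq_mul, ← ENNReal.ofReal_natCast,
          ← ENNReal.ofReal_mul (Nat.cast_nonneg _), mul_one_div]
      refine le_trans (tsub_le_tsub_left hlow _) ?_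
      rw [← ENNReal.ofReal_sub _ (by positivity), ← ENNReal.ofReal_mul (by positivity)]
      refine ENNReal.ofReal_le_ofReal ?_
      rw [← div_eq_mul_inv, div_sub_div _ _ (by positivity) (by positivity),
        div_le_div_iff₀ (by positivity) (by positivity)]
      have hN : (0 : ℝ) ≤ (Fintype.card (Idx m) : ℝ) := Nat.cast_nonneg _
      have key : (Fintype.card (Idx m) : ℝ) * (C - 1) * (1 + t) ≤
          (Fintype.card (Idx m) : ℝ) * C * (C + t) := by gcongr <;> linarith
      nlinarith [mul_le_mul_of_nonneg_right key (show (0 : ℝ) ≤ 1 + t by linarith)]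
    refine lt_of_le_of_lt (setLIntegral_mono (by fun_prop) hpos) ?_
    rw [lintegral_const_mul _ (by fun_prop),
      setLIntegral_congr (MeasureTheory.Ioi_ae_eq_Ici (a := (0 : ℝ)))]
    refine ENNReal.mul_lt_top ENNReal.ofReal_lt_top ?_
    rw [lintegral_tail le_rfl]
    exact ENNReal.ofReal_lt_top
  unfold chiStar
  set P := ∫⁻ t in Ioi (0 : ℝ), (ENNReal.ofReal ((Fintype.card (Idx m) : ℝ) / (1 + t)) -
    fisher (omega m) (perturb (xOp m) (sOp m) t))
  lift P to NNReal using hP.ne with p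
  refine EReal.add_lt_top (ne_of_lt ?_) (EReal.coe_ne_top _)
  generalize (∫⁻ t in Ioi (0 : ℝ), (fisher (omega m) (perturb (xOp m) (sOp m) t) -
    ENNReal.ofReal ((Fintype.card (Idx m) : ℝ) / (1 + t)))) = N
  induction N using ENNReal.recTopCoe with
  | top => simp [EReal.coe_mul_bot_of_pos]
  | coe n =>
    exact lt_of_eq_of_lt (b := (((2 : ℝ)⁻¹ * ((p : ℝ) - n) : ℝ) : EReal)) rfl (EReal.coe_lt_top _)

end Vale.Agent.P087
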