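import Vale.Agent.P087.ChiStarBound
import Vale.Agent.P087.ChiStarFinite

/-!
# P087: assembly of the counterexample
-/

namespace Vale.Agent.P087

/-- The upper bound on `χ` (proof section 5). -/
noncomputable def chiUpper (m : ℕ) : ℝ :=
  (Fintype.card (Idx m) : ℝ) / 2 * Real.log (2 * Real.pi * Real.exp 1) +
    ((m : ℝ) + 1) / 2 * Real.log 3 + 3

theorem threshold_hundred_le : threshold 100 ≤ 2 ^ 63 := by
  have h1 : Real.sqrt ((100 : ℕ) : ℝ) ≤ 10 := by
    rw [Real.sqrt_le_iff]
    norm_num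
  have h2 : ((2 : ℝ) ^ 100 + 1) ^ ((4 : ℝ)⁻¹) ≤ 2 ^ 26 := by
    rw [Real.rpow_inv_le_iff_of_pos (by positivity) (by positivity) (by norm_num)]
    rw [show (4 : ℝ) = ((4 : ℕ) : ℝ) by norm_num, Real.rpow_natCast]
    norm_num
  have h3 : momentBound 100 ≤ 2 ^ 28 := by
    unfold momentBound
    have : (10 : ℝ) + 3 * 2 ^ 26 ≤ 2 ^ 28 := by norm_num
    linarith
  have h4 := momentBound_pos 100
  unfold threshold
  calc 100 * momentBound 100 ^ 2 ≤ 100 * (2 ^ 28) ^ 2 := by gcongr
    _ ≤ 2 ^ 63 := by norm_num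

theorem log_three_le : Real.log 3 ≤ 2 := by
  rw [Real.log_le_iff_le_exp (by norm_num)]
  have : Real.exp 2 = Real.exp 1 * Real.exp 1 := by
    rw [← Real.exp_add]
    norm_num
  rw [this]
  nlinarith [Real.exp_one_gt_d9]

theorem gain_beats : chiUpper 100 <
    (Fintype.card (Idx 100) : ℝ) / 2 * Real.log (2 * Real.pi * Real.exp 1) + gain 100 - loss 100 := by
  have hgain : (2 : ℝ) ^ 34 ≤ gain 100 := by
    have h := threshold_hundred_le
    have h' := threshold_pos 100
    unfold gain
    rw [le_div_iff₀ (by positivity)]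
    calc (2 : ℝ) ^ 34 * (4 * (1 + threshold 100)) ≤ 2 ^ 34 * (4 * (1 + 2 ^ 63)) := by gcongr
      _ ≤ 2 ^ 100 := by norm_num
  have hloss : loss 100 ≤ 30000 := by
    unfold loss smallVar
    rw [Real.log_inv, neg_neg, ← pow_mul, Real.log_pow]
    have := Real.log_two_lt_d9
    push_cast
    nlinarith
  have := log_three_le
  unfold chiUpper
  push_cast
  linarith

/-- The disproof, from the module endpoints. -/
theorem counterexample_of (hm : ModelFacts 100) (hB : MomentBound 100) (hS : SeriesWitness)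
    (hup : chi (law (omega 100) (xOp 100)) ≤ (chiUpper 100 : EReal))
    (hlow : ⊥ < chi (law (omega 100) (xOp 100))) : Counterexample := by
  obtain ⟨M, hM, hX, hSM, hfree⟩ := hm.setting
  exact ⟨Space 100, inferInstance, inferInstance, inferInstance, Idx 100, inferInstance,
    inferInstance, M, omega 100, xOp 100, sOp 100, ⟨Sum.inl (Sum.inr ())⟩, hM, hX, hSM, hfree,
    hlow, lt_of_le_of_lt hup (lt_of_lt_of_le (EReal.coe_lt_coe_iff.2 gain_beats)
      (chiStar_ge hm hB hS)), chiStar_lt_top hm⟩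

end Vale.Agent.P087
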