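import Vale.Agent.P087.Defs
import Mathlib.Probability.Distributions.Gaussian.Real

/-!
A lower bound on the microstates entropy from probability measures with bounded density.
-/

namespace Vale.Agent.P087

open MeasureTheory ProbabilityTheory Filter
open scoped ENNReal

lemma gaussianReal_le_volume :
    gaussianReal 0 1 ≤ ENNReal.ofReal (Real.sqrt (2 * Real.pi))⁻¹ • (volume : Measure ℝ) := by
  rw [gaussianReal_of_var_ne_zero 0 one_ne_zero, ← withDensity_const]
  refine withDensity_mono (Eventually.of_forall fun x => ENNReal.ofReal_le_ofReal ?_)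
  simp only [gaussianPDFReal, NNReal.coe_one, mul_one]
  refine mul_le_of_le_one_right (by positivity) (Real.exp_le_one_iff.2 ?_)
  exact div_nonpos_of_nonpos_of_nonneg (neg_nonpos.2 (sq_nonneg _)) (by norm_num)

lemma sigmaFinite_smul' {β : Type*} [MeasurableSpace β] (μ : Measure β) [SigmaFinite μ] {c : ℝ≥0∞}
    (hc : c ≠ ⊤) : SigmaFinite (c • μ) := by
  lift c to NNReal using hc
  exact SMul.sigmaFinite c

/-- Bounded densities multiply. -/
lemma pi_le_smul_pi {α : Type*} [Fintype α] {β : α → Type*} [∀ a, MeasurableSpace (β a)]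
    {μ ν : ∀ a, Measure (β a)} [∀ a, SigmaFinite (μ a)] [∀ a, SigmaFinite (ν a)] {c : ℝ≥0∞}
    (hc : c ≠ ⊤) (h : ∀ a, ν a ≤ c • μ a) :
    Measure.pi ν ≤ c ^ Fintype.card α • Measure.pi μ := by
  have : ∀ a, SigmaFinite (c • μ a) := fun a => sigmaFinite_smul' (μ a) hc
  have e : Measure.pi (fun a => c • μ a) = c ^ Fintype.card α • Measure.pi μ :=
    Measure.pi_eq fun s _ => by
      simp [Measure.pi_pi, Finset.prod_mul_distrib]
  rw [← e]
  refine Measure.le_iff.2 fun s hs => ?_
  have h1 : (Measure.pi ν).toOuterMeasure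
      ≤ OuterMeasure.pi fun a => (c • μ a).toOuterMeasure := by
    refine OuterMeasure.le_pi.2 fun t _ => ?_
    show Measure.pi ν _ ≤ _
    rw [Measure.pi_pi]
    exact Finset.prod_le_prod' fun a _ => h a (t a)
  refine (h1 s).trans (le_of_eq ?_)
  rw [Measure.pi_def, toMeasure_apply _ _ hs]

section Gaussian

variable {k : ℕ} {ι : Type*} [Fintype ι]

/-- The standard Gaussian on tuples of coordinates. -/
noncomputable def stdTuple (ι : Type*) [Fintype ι] (k : ℕ) :
    Measure (ι → EuclideanSpace ℝ (Fin k × Fin k)) :=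
  Measure.pi fun _ => (Measure.pi fun _ => gaussianReal 0 1).map (WithLp.toLp 2)

lemma stdTuple_le : stdTuple ι k
    ≤ ENNReal.ofReal (Real.sqrt (2 * Real.pi))⁻¹ ^ (Fintype.card ι * (k * k)) • volume := by
  set c := ENNReal.ofReal (Real.sqrt (2 * Real.pi))⁻¹
  have h1 : (Measure.pi fun _ : Fin k × Fin k => gaussianReal 0 1).map (WithLp.toLp 2)
      ≤ c ^ (k * k) • (volume : Measure (EuclideanSpace ℝ (Fin k × Fin k))) := by
    have := Measure.map_mono (pi_le_smul_pi (ν := fun _ : Fin k × Fin k => gaussianReal 0 1)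
      (μ := fun _ => volume) ENNReal.ofReal_ne_top fun _ => gaussianReal_le_volume)
      (f := WithLp.toLp 2) (by fun_prop)
    rw [Measure.map_smul, ← volume_pi, (PiLp.volume_preserving_toLp (Fin k × Fin k)).map_eq,
      Fintype.card_prod, Fintype.card_fin] at this
    exact this
  have : ∀ _ : ι, IsProbabilityMeasure
      ((Measure.pi fun _ : Fin k × Fin k => gaussianReal 0 1).map (WithLp.toLp 2)) := fun _ =>
    Measure.isProbabilityMeasure_map (by fun_prop)
  refine (pi_le_smul_pi (μ := fun _ => volume) (ENNReal.pow_ne_top ENNReal.ofReal_ne_top)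
    fun _ => h1).trans (le_of_eq ?_)
  rw [← pow_mul, mul_comm (k * k), ← volume_pi]

/-- Scaling the coordinates and shifting by an independent variable keeps the density bounded. -/
lemma map_shift_scale_le {Ω : Type*} [MeasurableSpace Ω] (ρ : Measure Ω) [IsProbabilityMeasure ρ]
    {f : Ω → ι → EuclideanSpace ℝ (Fin k × Fin k)} (hf : Measurable f)
    {s : ι → ℝ} (hs : ∀ j, 0 < s j) :
    (ρ.prod (stdTuple ι k)).map (fun p => fun j => f p.1 j + s j • p.2 j) ≤
      (ENNReal.ofReal (Real.sqrt (2 * Real.pi))⁻¹ ^ (Fintype.card ι * (k * k)) *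
        ∏ j, ENNReal.ofReal ((s j ^ (k * k))⁻¹)) • volume := by
  have hm : Measurable fun p : Ω × (ι → EuclideanSpace ℝ (Fin k × Fin k)) =>
      fun j => f p.1 j + s j • p.2 j := by fun_prop
  have : IsProbabilityMeasure (stdTuple ι k) := by
    have : ∀ _ : ι, IsProbabilityMeasure
        ((Measure.pi fun _ : Fin k × Fin k => gaussianReal 0 1).map (WithLp.toLp 2)) := fun _ =>
      Measure.isProbabilityMeasure_map (by fun_prop)
    unfold stdTuple
    infer_instance
  refine Measure.le_iff.2 fun A hA => ?_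
  rw [Measure.map_apply hm hA, Measure.prod_apply (hm hA)]
  refine le_trans (lintegral_mono fun ω => ?_) (by rw [lintegral_const, measure_univ, mul_one])
  refine (stdTuple_le _).trans ?_
  rw [Measure.smul_apply, Measure.smul_apply, smul_eq_mul, smul_eq_mul, mul_assoc]
  refine mul_le_mul_right (le_of_eq ?_) _
  -- the Jacobian of the scaling
  have e : Prod.mk ω ⁻¹' ((fun p : Ω × (ι → EuclideanSpace ℝ (Fin k × Fin k)) =>
      fun j => f p.1 j + s j • p.2 j) ⁻¹' A)
      = (fun x j => s j • x j) ⁻¹' ((fun y => f ω + y) ⁻¹' A) := rfl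
  have hmap : (volume : Measure (ι → EuclideanSpace ℝ (Fin k × Fin k))).map (fun x j => s j • x j)
      = (∏ j, ENNReal.ofReal ((s j ^ (k * k))⁻¹)) • volume := by
    have h1 : ∀ j, (volume : Measure (EuclideanSpace ℝ (Fin k × Fin k))).map (fun x => s j • x)
        = ENNReal.ofReal ((s j ^ (k * k))⁻¹) • volume := fun j => by
      rw [Measure.map_addHaar_smul _ (hs j).ne', abs_of_nonneg (by have := hs j; positivity)]
      simp
    have : ∀ j, SigmaFinite ((volume : Measure (EuclideanSpace ℝ (Fin k × Fin k))).map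
        (fun x => s j • x)) := fun j => by rw [h1]; exact sigmaFinite_smul' _ ENNReal.ofReal_ne_top
    rw [volume_pi, Measure.pi_map_pi fun j => (measurable_const_smul (s j)).aemeasurable]
    have : ∀ j, SigmaFinite (ENNReal.ofReal ((s j ^ (k * k))⁻¹)
        • (volume : Measure (EuclideanSpace ℝ (Fin k × Fin k)))) := fun j =>
      sigmaFinite_smul' _ ENNReal.ofReal_ne_top
    simp only [h1]
    refine Measure.pi_eq fun t _ => ?_
    simp [Measure.pi_pi, Finset.prod_mul_distrib]
  rw [e, ← Measure.map_apply (by fun_prop) ((measurable_const_add (f ω)) hA), hmap,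
    Measure.smul_apply, smul_eq_mul, measure_preimage_add]

end Gaussian

/-- Microstates of probability at least `1/2` under measures with density of the Gaussian size give
finite entropy. -/
theorem bot_lt_chi_of_measures {ι : Type*} [Fintype ι] (τ : List ι → ℂ) {R : ℝ} (hR : 0 < R)
    {σ : ι → ℝ} (hσ : ∀ j, 0 < σ j)
    (h : ∀ (m : ℕ) (ε : ℝ), 0 < ε → ∃ᶠ k : ℕ in atTop,
      ∃ ν : Measure (ι → EuclideanSpace ℝ (Fin k × Fin k)),
        2⁻¹ ≤ ν (microstates τ R m k ε) ∧
        ν ≤ ENNReal.ofReal (∏ j, ((k : ℝ) / (2 * Real.pi * σ j)) ^ ((k : ℝ) ^ 2 / 2)) • volume) :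
    ⊥ < chi τ := by
  have key : (((∑ j, Real.log (2 * Real.pi * σ j) / 2) - Real.log 2 : ℝ) : EReal) ≤ chiR τ R := by
    refine le_iInf fun m => le_iInf fun ε => le_iInf fun hε => ?_
    refine le_limsup_of_frequently_le (((h m ε hε).and_eventually (eventually_ge_atTop 1)).mono ?_)
    rintro k ⟨⟨ν, hν, hνv⟩, hk⟩
    have hk0 : (0 : ℝ) < k := by exact_mod_cast hk
    set P := ∏ j, ((k : ℝ) / (2 * Real.pi * σ j)) ^ ((k : ℝ) ^ 2 / 2) with hP
    have hP0 : 0 < P := Finset.prod_pos fun j _ => by
      have := hσ j; positivity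
    have hvol : ENNReal.ofReal (2⁻¹ / P) ≤ volume (microstates τ R m k ε) := by
      rw [ENNReal.ofReal_div_of_pos hP0]
      refine ENNReal.div_le_of_le_mul ?_
      rw [ENNReal.ofReal_inv_of_pos two_pos, ENNReal.ofReal_ofNat, mul_comm]
      exact hν.trans (hνv _)
    have hlog := ENNReal.log_monotone hvol
    rw [ENNReal.log_ofReal_of_pos (by positivity)] at hlog
    refine le_trans ?_ (add_le_add (mul_le_mul_of_nonneg_left hlog
      (EReal.coe_nonneg.2 (by positivity))) le_rfl)
    rw [← EReal.coe_mul, ← EReal.coe_add, EReal.coe_le_coe_iff, Real.log_div (by norm_num) hP0.ne',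
      Real.log_inv, hP, Real.log_prod fun j _ => by have := hσ j; positivity]
    have e : ∀ j, Real.log (((k : ℝ) / (2 * Real.pi * σ j)) ^ ((k : ℝ) ^ 2 / 2))
        = (k : ℝ) ^ 2 * (Real.log k / 2 - Real.log (2 * Real.pi * σ j) / 2) := fun j => by
      have := hσ j
      rw [Real.log_rpow (by positivity), Real.log_div hk0.ne' (by positivity)]
      ring
    simp only [e, ← Finset.mul_sum, Finset.sum_sub_distrib, Finset.sum_const, Finset.card_univ,
      nsmul_eq_mul]
    field_simp
    have h2 : 0 ≤ Real.log 2 := Real.log_nonneg one_le_two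
    have h1 : (1 : ℝ) ≤ (k : ℝ) ^ 2 := one_le_pow₀ (by exact_mod_cast hk)
    nlinarith [mul_le_mul_of_nonneg_right h1 h2]
  exact lt_of_lt_of_le (EReal.bot_lt_coe _) (key.trans (le_iSup₂ (f := fun R _ => chiR τ R) R hR))

end Vale.Agent.P087
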