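import Vale.Agent.P087.FisherBound

/-!
# P087: `χ*` from the pointwise Fisher bound
-/

namespace Vale.Agent.P087

open scoped ENNReal
open MeasureTheory Set Filter Topology

theorem antideriv_div {b x : ℝ} (hb : 0 < b) (hx : 0 ≤ x) :
    HasDerivAt (fun t : ℝ => Real.log (b + t) - Real.log (1 + t)) (1 / (b + x) - 1 / (1 + x)) x := by
  have h1 : HasDerivAt (fun t : ℝ => Real.log (b + t)) (1 / (b + x)) x :=
    ((hasDerivAt_id' x).const_add b).log (by positivity)
  have h2 : HasDerivAt (fun t : ℝ => Real.log (1 + t)) (1 / (1 + x)) x :=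
    ((hasDerivAt_id' x).const_add (1 : ℝ)).log (by positivity)
  exact h1.sub h2

theorem tendsto_log_sub {b : ℝ} (hb : 0 < b) :
    Tendsto (fun t : ℝ => Real.log (b + t) - Real.log (1 + t)) atTop (𝓝 0) := by
  have h : Tendsto (fun t : ℝ => (b + t) / (1 + t)) atTop (𝓝 1) := by
    have h2 : Tendsto (fun t : ℝ => (b - 1) / (1 + t)) atTop (𝓝 0) :=
      tendsto_const_nhds.div_atTop (tendsto_atTop_add_const_left _ _ tendsto_id)
    have := h2.const_add 1
    rw [add_zero] at this
    refine this.congr' ?_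
    filter_upwards [eventually_ge_atTop (0 : ℝ)] with t ht
    field_simp
    ring
  have := (Real.continuousAt_log one_ne_zero).tendsto.comp h
  rw [Real.log_one] at this
  refine this.congr' ?_
  filter_upwards [eventually_ge_atTop (0 : ℝ)] with t ht
  rw [Function.comp_apply, Real.log_div (by positivity) (by positivity)]

theorem lintegral_small {b : ℝ} (hb : 0 < b) (hb1 : b ≤ 1) :
    ∫⁻ t in Ioi (0 : ℝ), ENNReal.ofReal (1 / (b + t) - 1 / (1 + t)) =
      ENNReal.ofReal (-Real.log b) := by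
  have hpos : ∀ x ∈ Ioi (0 : ℝ), 0 ≤ 1 / (b + x) - 1 / (1 + x) := by
    intro x (hx : 0 < x)
    have : 1 / (1 + x) ≤ 1 / (b + x) := by
      apply one_div_le_one_div_of_le <;> linarith
    linarith
  have hd : ∀ x ∈ Ici (0 : ℝ), HasDerivAt (fun t : ℝ => Real.log (b + t) - Real.log (1 + t))
      (1 / (b + x) - 1 / (1 + x)) x := fun x hx => antideriv_div hb hx
  rw [← ofReal_integral_eq_lintegral_ofReal
      (integrableOn_Ioi_deriv_of_nonneg' hd hpos (tendsto_log_sub hb))
      ((ae_restrict_iff' measurableSet_Ioi).2 (Eventually.of_forall hpos)),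
    integral_Ioi_of_hasDerivAt_of_nonneg' hd hpos (tendsto_log_sub hb)]
  simp

theorem lintegral_tail {T : ℝ} (hT : 0 ≤ T) :
    ∫⁻ t in Ici T, ENNReal.ofReal ((1 + t) ^ 2)⁻¹ = ENNReal.ofReal (1 / (1 + T)) := by
  have hd : ∀ x ∈ Ici T, HasDerivAt (fun t : ℝ => -(1 + t)⁻¹) ((1 + x) ^ 2)⁻¹ x := by
    intro x (hx : T ≤ x)
    have h1x : (1 : ℝ) + x ≠ 0 := (by linarith : (0 : ℝ) < 1 + x).ne'
    have : HasDerivAt (fun t : ℝ => -(1 + t)⁻¹) (-(-1 / (1 + x) ^ 2)) x :=
      (((hasDerivAt_id' x).const_add (1 : ℝ)).inv h1x).neg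
    convert this using 1
    ring
  have hlim : Tendsto (fun t : ℝ => -(1 + t)⁻¹) atTop (𝓝 0) := by
    simpa using (tendsto_inv_atTop_zero.comp
      (tendsto_atTop_add_const_left atTop (1 : ℝ) tendsto_id)).neg
  have hpos : ∀ x ∈ Ioi T, (0 : ℝ) ≤ ((1 + x) ^ 2)⁻¹ := fun x _ => by positivity
  rw [setLIntegral_congr (MeasureTheory.Ioi_ae_eq_Ici).symm,
    ← ofReal_integral_eq_lintegral_ofReal (integrableOn_Ioi_deriv_of_nonneg' hd hpos hlim)
      ((ae_restrict_iff' measurableSet_Ioi).2 (Eventually.of_forall hpos)),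
    integral_Ioi_of_hasDerivAt_of_nonneg' hd hpos hlim]
  simp

/-- The guaranteed gain. -/
noncomputable def gain (m : ℕ) : ℝ := (2 : ℝ) ^ m / (4 * (1 + threshold m))

/-- The guaranteed loss. -/
noncomputable def loss (m : ℕ) : ℝ := ((m : ℝ) + 1) / 2 * -Real.log (smallVar m)

variable {m : ℕ}

theorem card_idx (m : ℕ) : (Fintype.card (Idx m) : ℝ) = (m + 1) + (2 : ℝ) ^ m := by
  simp [Idx, Cube]

theorem chiStar_ge (hm : ModelFacts m) (hB : MomentBound m) (hS : SeriesWitness) :
    (((Fintype.card (Idx m) : ℝ) / 2 * Real.log (2 * Real.pi * Real.exp 1) + gain m - loss m : ℝ)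
        : EReal) ≤ chiStar (omega m) (xOp m) (sOp m) := by
  have hb := smallVar_pos m
  have hb1 := smallVar_le_one m
  have hT := threshold_pos m
  unfold chiStar
  set Φ := fun t : ℝ => fisher (omega m) (perturb (xOp m) (sOp m) t) with hΦ
  set G := fun t : ℝ => ENNReal.ofReal ((Fintype.card (Idx m) : ℝ) / (1 + t)) with hG
  set P := ∫⁻ t in Ioi (0 : ℝ), (G t - Φ t) with hP
  set N := ∫⁻ t in Ioi (0 : ℝ), (Φ t - G t) with hN
  set U : ℝ → ℝ≥0∞ := fun t => ENNReal.ofReal (((m : ℝ) + 1) * (1 / (smallVar m + t) - 1 / (1 + t)))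
    with hU
  set V : ℝ → ℝ≥0∞ := (Ici (threshold m)).indicator
    fun t => ENNReal.ofReal ((2 : ℝ) ^ m / 2 * ((1 + t) ^ 2)⁻¹) with hV
  have hUm : Measurable U := by
    rw [hU]
    fun_prop
  have hVm : Measurable V := Measurable.indicator (by fun_prop) measurableSet_Ici
  have hpt : ∀ t ∈ Ioi (0 : ℝ), Φ t + V t ≤ G t + U t := by
    intro t (ht : 0 < t)
    have h1t : (0 : ℝ) < 1 + t := by linarith
    have hUnn : (0 : ℝ) ≤ ((m : ℝ) + 1) * (1 / (smallVar m + t) - 1 / (1 + t)) := by
      refine mul_nonneg (by positivity) (sub_nonneg.2 ?_)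
      exact one_div_le_one_div_of_le (by linarith) (by linarith)
    refine le_trans (add_le_add (fisher_le hm hB hS ht) le_rfl) ?_
    rw [hG, hU, ← ENNReal.ofReal_add (by positivity) hUnn]
    have hfu : 0 ≤ fisherUpper m t := by
      unfold fisherUpper
      have : (if threshold m ≤ t then (1 / 2 : ℝ) / (1 + t) ^ 2 else 0) ≤ 1 / (1 + t) := by
        split_ifs with h
        · rw [div_le_div_iff₀ (by positivity) h1t]
          nlinarith
        · positivity
      have := sub_nonneg.2 this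
      positivity
    by_cases h : threshold m ≤ t
    · rw [hV, indicator_of_mem (mem_Ici.2 h), ← ENNReal.ofReal_add hfu (by positivity)]
      refine ENNReal.ofReal_le_ofReal (le_of_eq ?_)
      rw [fisherUpper, if_pos h, card_idx]
      field_simp
      ring
    · rw [hV, indicator_of_notMem (by simpa using h), add_zero]
      refine ENNReal.ofReal_le_ofReal (le_of_eq ?_)
      rw [fisherUpper, if_neg h, card_idx]
      field_simp
      ring
  have hUint : ∫⁻ t in Ioi (0 : ℝ), U t = ENNReal.ofReal (2 * loss m) := by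
    simp only [hU, ENNReal.ofReal_mul (show (0 : ℝ) ≤ (m : ℝ) + 1 by positivity)]
    rw [lintegral_const_mul _ (by fun_prop), lintegral_small hb hb1,
      ← ENNReal.ofReal_mul (by positivity), loss]
    congr 1
    ring
  have hVint : ∫⁻ t in Ioi (0 : ℝ), V t = ENNReal.ofReal (2 * gain m) := by
    rw [hV, setLIntegral_indicator measurableSet_Ici,
      show Ici (threshold m) ∩ Ioi 0 = Ici (threshold m) from
        inter_eq_left.2 fun x (hx : threshold m ≤ x) => lt_of_lt_of_le hT hx]
    simp only [ENNReal.ofReal_mul (show (0 : ℝ) ≤ (2 : ℝ) ^ m / 2 by positivity)]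
    rw [lintegral_const_mul _ (by fun_prop), lintegral_tail hT.le,
      ← ENNReal.ofReal_mul (by positivity), gain]
    congr 1
    field_simp
    ring
  have hNle : N ≤ ENNReal.ofReal (2 * loss m) := by
    rw [hN, ← hUint]
    refine setLIntegral_mono hUm fun t ht => ?_
    rw [tsub_le_iff_left]
    exact le_trans le_self_add (hpt t ht)
  have hmain : N + ENNReal.ofReal (2 * gain m) ≤ P + ENNReal.ofReal (2 * loss m) := by
    rw [hP, hN, ← hUint, ← hVint, ← lintegral_add_right _ hVm, ← lintegral_add_right _ hUm]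
    refine setLIntegral_mono' measurableSet_Ioi fun t ht => ?_
    have h := hpt t ht
    rcases le_total (G t) (Φ t) with hle | hle
    · rw [tsub_eq_zero_of_le hle, zero_add]
      have hGt : G t ≠ ⊤ := ENNReal.ofReal_ne_top
      refine (ENNReal.add_le_add_iff_left hGt).1 ?_
      rw [← add_assoc, add_tsub_cancel_of_le hle]
      exact h
    · rw [tsub_eq_zero_of_le hle, zero_add]
      have hΦt : Φ t ≠ ⊤ := ne_top_of_le_ne_top ENNReal.ofReal_ne_top hle
      refine (ENNReal.add_le_add_iff_left hΦt).1 ?_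
      rw [← add_assoc, add_tsub_cancel_of_le hle]
      exact h
  have hgain : 0 ≤ gain m := by
    unfold gain
    positivity
  have hloss : 0 ≤ loss m := by
    unfold loss
    exact mul_nonneg (by positivity) (neg_nonneg.2 (Real.log_nonpos hb.le hb1))
  have hNtop : N ≠ ⊤ := ne_top_of_le_ne_top ENNReal.ofReal_ne_top hNle
  rcases eq_or_ne P ⊤ with hPtop | hPtop
  · rw [hPtop]
    lift N to NNReal using hNtop with n
    rw [EReal.coe_ennreal_top, EReal.top_sub (by simp), EReal.coe_mul_top_of_pos (by norm_num),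
      EReal.top_add_coe]
    exact le_top
  · obtain ⟨p, hp⟩ : ∃ p : NNReal, (p : ℝ≥0∞) = P := ⟨P.toNNReal, ENNReal.coe_toNNReal hPtop⟩
    obtain ⟨n, hn⟩ : ∃ n : NNReal, (n : ℝ≥0∞) = N := ⟨N.toNNReal, ENNReal.coe_toNNReal hNtop⟩
    rw [← hp, ← hn] at hmain ⊢
    have hr : (n : ℝ) + 2 * gain m ≤ p + 2 * loss m := by
      have := ENNReal.toReal_mono (ENNReal.add_ne_top.2 ⟨ENNReal.coe_ne_top, ENNReal.ofReal_ne_top⟩) hmain
      rw [ENNReal.toReal_add ENNReal.coe_ne_top ENNReal.ofReal_ne_top,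
        ENNReal.toReal_add ENNReal.coe_ne_top ENNReal.ofReal_ne_top,
        ENNReal.toReal_ofReal (by positivity), ENNReal.toReal_ofReal (by positivity)] at this
      simpa using this
    have : ((p : ℝ≥0∞) : EReal) - ((n : ℝ≥0∞) : EReal) = (((p : ℝ) - n : ℝ) : EReal) := by
      rfl
    rw [this, ← EReal.coe_mul, ← EReal.coe_add, EReal.coe_le_coe_iff]
    linarith

end Vale.Agent.P087
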