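import Mathlib.Analysis.SpecialFunctions.Gaussian.FourierTransform
import Mathlib.MeasureTheory.Constructions.Pi

/-!
Volume bounds: balls in Euclidean spaces, triangular sets, and sets of large probability for a bounded
density.
-/

namespace Vale.Agent.P087

open MeasureTheory
open scoped ENNReal

section Ball

variable {V : Type*} [NormedAddCommGroup V] [InnerProductSpace ℝ V] [FiniteDimensional ℝ V]
  [MeasurableSpace V] [BorelSpace V]

/-- A ball is no larger than the Gaussian bound. -/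
theorem volume_sqBall_le {r : ℝ} (hr : 0 < r) (hV : 0 < Module.finrank ℝ V) (c : V) :
    volume {x : V | ‖x - c‖ ^ 2 ≤ r} ≤ ENNReal.ofReal
      ((2 * Real.pi * Real.exp 1 * r / Module.finrank ℝ V) ^ ((Module.finrank ℝ V : ℝ) / 2)) := by
  set D := (Module.finrank ℝ V : ℝ) with hD
  have hD0 : 0 < D := by rw [hD]; exact_mod_cast hV
  have hb : 0 < D / (2 * r) := by positivity
  have hint : Integrable fun x : V => Real.exp (-(D / (2 * r)) * ‖x‖ ^ 2) := by
    by_contra h
    have h1 := GaussianFourier.integral_rexp_neg_mul_sq_norm (V := V) hb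
    rw [integral_undef h] at h1
    exact (Real.rpow_pos_of_pos (div_pos Real.pi_pos hb) _).ne h1
  have hs : MeasurableSet {x : V | ‖x‖ ^ 2 ≤ r} :=
    measurableSet_le (by fun_prop) measurable_const
  have e : {x : V | ‖x - c‖ ^ 2 ≤ r} = (fun x => x + -c) ⁻¹' {x : V | ‖x‖ ^ 2 ≤ r} := by
    simp [sub_eq_add_neg]
  rw [e, measure_preimage_add_right]
  calc volume {x : V | ‖x‖ ^ 2 ≤ r}
      = ∫⁻ x in {x : V | ‖x‖ ^ 2 ≤ r}, 1 := by simp
    _ ≤ ∫⁻ x in {x : V | ‖x‖ ^ 2 ≤ r},
          ENNReal.ofReal (Real.exp (D / 2) * Real.exp (-(D / (2 * r)) * ‖x‖ ^ 2)) := by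
        refine setLIntegral_mono' hs fun x hx => ?_
        rw [← ENNReal.ofReal_one, ← Real.exp_add]
        refine ENNReal.ofReal_le_ofReal (Real.one_le_exp ?_)
        have h1 : D / (2 * r) * ‖x‖ ^ 2 ≤ D / (2 * r) * r :=
          mul_le_mul_of_nonneg_left hx hb.le
        have h2 : D / (2 * r) * r = D / 2 := by field_simp
        linarith
    _ ≤ ∫⁻ x, ENNReal.ofReal (Real.exp (D / 2) * Real.exp (-(D / (2 * r)) * ‖x‖ ^ 2)) :=
        setLIntegral_le_lintegral _ _
    _ = ENNReal.ofReal (∫ x, Real.exp (D / 2) * Real.exp (-(D / (2 * r)) * ‖x‖ ^ 2)) :=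
        (ofReal_integral_eq_lintegral_ofReal (hint.const_mul _)
          (Filter.Eventually.of_forall fun x => by positivity)).symm
    _ = _ := by
        rw [integral_const_mul, GaussianFourier.integral_rexp_neg_mul_sq_norm hb, ← hD,
          ← Real.exp_one_rpow (D / 2), ← Real.mul_rpow (Real.exp_pos 1).le (by positivity)]
        congr 2
        field_simp

end Ball

section Triangular

variable {α : Type*} [MeasurableSpace α] {σ : Type*} [Fintype σ] {β : σ → Type*}
  [∀ s, MeasureSpace (β s)]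

/-- A triangular set: the last coordinates lie in small sets depending on the first ones. -/
theorem measure_triangular_le (μ : Measure α) [SFinite μ]
    [∀ s, SigmaFinite (volume : Measure (β s))] {W : Set α} (hW : MeasurableSet W)
    {T : ∀ s, α → Set (β s)} (hT : ∀ s, MeasurableSet {p : α × β s | p.2 ∈ T s p.1})
    {r : σ → ℝ≥0∞} (hr : ∀ s, ∀ a ∈ W, volume (T s a) ≤ r s) :
    μ.prod (Measure.pi fun s => (volume : Measure (β s)))
      {p : α × (∀ s, β s) | p.1 ∈ W ∧ ∀ s, p.2 s ∈ T s p.1} ≤ μ W * ∏ s, r s := by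
  have hm : MeasurableSet {p : α × (∀ s, β s) | p.1 ∈ W ∧ ∀ s, p.2 s ∈ T s p.1} := by
    have e : {p : α × (∀ s, β s) | p.1 ∈ W ∧ ∀ s, p.2 s ∈ T s p.1}
        = Prod.fst ⁻¹' W ∩ ⋂ s, (fun p : α × (∀ s, β s) => (p.1, p.2 s)) ⁻¹'
            {p : α × β s | p.2 ∈ T s p.1} := by
      ext p; simp
    rw [e]
    exact (measurable_fst hW).inter (MeasurableSet.iInter fun s =>
      (measurable_fst.prodMk ((measurable_pi_apply s).comp measurable_snd)) (hT s))
  rw [Measure.prod_apply hm]
  calc ∫⁻ a, Measure.pi (fun s => (volume : Measure (β s)))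
        (Prod.mk a ⁻¹' {p : α × (∀ s, β s) | p.1 ∈ W ∧ ∀ s, p.2 s ∈ T s p.1}) ∂μ
      ≤ ∫⁻ a, W.indicator (fun _ => ∏ s, r s) a ∂μ := lintegral_mono fun a => ?_
    _ = μ W * ∏ s, r s := by rw [lintegral_indicator_const hW, mul_comm]
  by_cases ha : a ∈ W
  · have e : Prod.mk a ⁻¹' {p : α × (∀ s, β s) | p.1 ∈ W ∧ ∀ s, p.2 s ∈ T s p.1}
        = Set.pi Set.univ fun s => T s a := by
      ext b; simp [ha]
    rw [e, Measure.pi_pi, Set.indicator_of_mem ha]
    exact Finset.prod_le_prod' fun s _ => hr s a ha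
  · simp [ha]

end Triangular

/-- A set of large probability under a bounded density is large. -/
theorem measure_ge_of_density_le {α : Type*} [MeasurableSpace α] {μ ν : Measure α} {c : ℝ≥0∞}
    (hνμ : ν ≤ c • μ) (s : Set α) : ν s / c ≤ μ s :=
  ENNReal.div_le_of_le_mul (by simpa [mul_comm] using hνμ s)

end Vale.Agent.P087
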