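import Vale.Agent.P087.Defs
import Vale.Agent.P087.Volume

/-!
An upper bound on the microstates entropy when some letters are close to words in the others.
-/

namespace Vale.Agent.P087

open MeasureTheory Filter
open scoped Matrix ENNReal

section Coordinates

variable {k : ℕ}

/-- Coordinates of a Hermitian matrix. -/
noncomputable def toCoord (A : Matrix (Fin k) (Fin k) ℂ) : EuclideanSpace ℝ (Fin k × Fin k) :=
  WithLp.toLp 2 fun p => (A p.1 p.2).re - (A p.1 p.2).im

lemma matOf_re (x : EuclideanSpace ℝ (Fin k × Fin k)) (a b : Fin k) :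
    (matOf x a b).re = (x (a, b) + x (b, a)) / 2 ∧ (matOf x a b).im = (x (b, a) - x (a, b)) / 2 := by
  simp [matOf]
  constructor <;> ring

lemma conjTranspose_matOf (x : EuclideanSpace ℝ (Fin k × Fin k)) : (matOf x)ᴴ = matOf x := by
  ext a b
  refine Complex.ext ?_ ?_
  · rw [Matrix.conjTranspose_apply, Complex.star_def, Complex.conj_re, (matOf_re x b a).1,
      (matOf_re x a b).1]
    ring
  · rw [Matrix.conjTranspose_apply, Complex.star_def, Complex.conj_im, (matOf_re x b a).2,
      (matOf_re x a b).2]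
    ring

lemma matOf_toCoord {A : Matrix (Fin k) (Fin k) ℂ} (hA : Aᴴ = A) : matOf (toCoord A) = A := by
  ext a b
  have h : A b a = starRingEnd ℂ (A a b) := by
    conv_lhs => rw [← hA]
    rfl
  refine Complex.ext ?_ ?_
  · rw [(matOf_re _ a b).1]
    simp [toCoord, h]
  · rw [(matOf_re _ a b).2]
    simp [toCoord, h]

lemma matOf_sub (x y : EuclideanSpace ℝ (Fin k × Fin k)) :
    matOf (x - y) = matOf x - matOf y := by
  ext a b
  simp [matOf]
  ring

/-- `matOf` is an isometry for `Tr`. -/
lemma norm_sq_eq_trace (x : EuclideanSpace ℝ (Fin k × Fin k)) :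
    ‖x‖ ^ 2 = ((matOf x * matOf x).trace).re := by
  have h : ∀ a b : Fin k, (matOf x a b * matOf x b a).re
      = (x (a, b) ^ 2 + x (b, a) ^ 2) / 2 := by
    intro a b
    rw [Complex.mul_re, (matOf_re x a b).1, (matOf_re x b a).1, (matOf_re x a b).2,
      (matOf_re x b a).2]
    ring
  simp only [EuclideanSpace.real_norm_sq_eq, Matrix.trace, Matrix.diag, Matrix.mul_apply,
    Complex.re_sum, h, Fintype.sum_prod_type, ← Finset.sum_div, Finset.sum_add_distrib]
  rw [Finset.sum_comm (f := fun a b => x (b, a) ^ 2)]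
  ring


lemma continuous_matOf : Continuous fun x : EuclideanSpace ℝ (Fin k × Fin k) => matOf x := by
  refine continuous_matrix fun a b => ?_
  unfold matOf
  fun_prop

end Coordinates

variable {ι : Type*}

/-- The matrix of a word. -/
noncomputable def wordMat {k : ℕ} (A : ι → EuclideanSpace ℝ (Fin k × Fin k)) (w : List ι) :
    Matrix (Fin k) (Fin k) ℂ := (w.map fun j => matOf (A j)).prod

lemma wordMat_append {k : ℕ} (A : ι → EuclideanSpace ℝ (Fin k × Fin k)) (v w : List ι) :
    wordMat A (v ++ w) = wordMat A v * wordMat A w := by simp [wordMat]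

/-- The squared distance in the law `τ` between the letter `j` and the word `W`. -/
noncomputable def wordDist (τ : List ι → ℂ) (j : ι) (W : List ι) : ℝ :=
  (τ [j, j] - τ ([j] ++ W) - τ (W ++ [j]) + τ (W ++ W)).re

lemma dist_le_of_mem {τ : List ι → ℂ} {R ε : ℝ} {m k : ℕ} (hk : 1 ≤ k)
    {A : ι → EuclideanSpace ℝ (Fin k × Fin k)} (hA : A ∈ microstates τ R m k ε) {j : ι}
    {W : List ι} (hW : W.reverse = W) (hm : 2 * W.length + 2 ≤ m) (hW0 : W ≠ []) :
    ‖A j - toCoord (wordMat A W)‖ ^ 2 ≤ k * (wordDist τ j W + 4 * ε) := by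
  have hH : (wordMat A W)ᴴ = wordMat A W := by
    rw [wordMat, Matrix.conjTranspose_list_prod, List.map_map, ← List.map_reverse, hW]
    congr 1
    exact List.map_congr_left fun i _ => conjTranspose_matOf (A i)
  have hk0 : (0 : ℝ) < k := by exact_mod_cast hk
  have key : ∀ w : List ι, 1 ≤ w.length → w.length ≤ m →
      |(ntr (wordMat A w)).re - (τ w).re| ≤ ε := fun w h1 h2 => by
    rw [← Complex.sub_re]
    exact (Complex.abs_re_le_norm _).trans (hA.2 w h1 h2).le
  have hn : ∀ w : List ι, ((wordMat A w).trace).re = k * (ntr (wordMat A w)).re := fun w => by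
    rw [ntr, show ((k : ℂ)) = ((k : ℝ) : ℂ) by simp, Complex.div_ofReal_re]
    field_simp
  have e1 : wordMat A [j] = matOf (A j) := by simp [wordMat]
  have e2 : wordMat A [j, j] = matOf (A j) * matOf (A j) := by simp [wordMat]
  rw [norm_sq_eq_trace, matOf_sub, matOf_toCoord hH, sub_mul, mul_sub, mul_sub]
  simp only [Matrix.trace_sub, Complex.sub_re]
  rw [← e2, ← e1, ← wordMat_append, ← wordMat_append, ← wordMat_append, hn, hn, hn, hn]
  have a1 := abs_le.1 (key [j, j] (by simp) (by simp only [List.length_cons, List.length_nil]; omega))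
  have a2 := abs_le.1 (key ([j] ++ W) (by simp) (by simp only [List.singleton_append, List.length_cons]; omega))
  have a3 := abs_le.1 (key (W ++ [j]) (by simp) (by simp only [List.length_append, List.length_singleton]; omega))
  have hl := List.length_pos_of_ne_nil hW0
  have a4 := abs_le.1 (key (W ++ W)
    (by simp only [List.length_append]; omega) (by simp only [List.length_append]; omega))
  unfold wordDist
  simp only [Complex.sub_re, Complex.add_re]
  nlinarith [mul_le_mul_of_nonneg_left a1.2 hk0.le, mul_le_mul_of_nonneg_left a2.1 hk0.le,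
    mul_le_mul_of_nonneg_left a3.1 hk0.le, mul_le_mul_of_nonneg_left a4.2 hk0.le]

lemma sq_le_of_mem {τ : List ι → ℂ} {R ε : ℝ} {m k : ℕ} (hk : 1 ≤ k)
    {A : ι → EuclideanSpace ℝ (Fin k × Fin k)} (hA : A ∈ microstates τ R m k ε) {j : ι}
    (hm : 2 ≤ m) : ‖A j‖ ^ 2 ≤ k * ((τ [j, j]).re + ε) := by
  have hk0 : (0 : ℝ) < k := by exact_mod_cast hk
  have h := (Complex.abs_re_le_norm _).trans (hA.2 [j, j] (by simp) (by simpa using hm)).le
  rw [abs_le, Complex.sub_re] at h
  have e : ((wordMat A [j, j]).trace).re = k * (ntr (wordMat A [j, j])).re := by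
    rw [ntr, show ((k : ℂ)) = ((k : ℝ) : ℂ) by simp, Complex.div_ofReal_re]
    field_simp
  rw [norm_sq_eq_trace, show matOf (A j) * matOf (A j) = wordMat A [j, j] by simp [wordMat], e]
  exact mul_le_mul_of_nonneg_left (by unfold wordMat; linarith [h.2]) hk0.le

/-- If each letter in `p` has second moment below `v` and each other letter is within `v` of a
palindromic word in the letters of `p`, then `χ` is at most the entropy of the corresponding balls. -/
theorem chi_le_of_words [Fintype ι] (τ : List ι → ℂ) (p : ι → Prop) [DecidablePred p]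
    (W : ι → List ι) (v : ι → ℝ) (hp : ∀ j, p j → (τ [j, j]).re < v j)
    (hv : ∀ j, 0 < v j)
    (hq : ∀ j, ¬p j → W j ≠ [] ∧ (W j).reverse = W j ∧ (∀ i ∈ W j, p i) ∧
      wordDist τ j (W j) < v j) :
    chi τ ≤ ((∑ j, Real.log (2 * Real.pi * Real.exp 1 * v j) / 2 : ℝ) : EReal) := by
  -- a gap below every bound
  obtain ⟨ε, hε0, hε⟩ : ∃ ε : ℝ, 0 < ε ∧ ∀ j,
      (p j → (τ [j, j]).re + ε ≤ v j) ∧ (¬p j → wordDist τ j (W j) + 4 * ε ≤ v j) := by
    have h : ∀ j, ∀ᶠ ε in nhdsWithin (0 : ℝ) (Set.Ioi 0),
        (p j → (τ [j, j]).re + ε ≤ v j) ∧ (¬p j → wordDist τ j (W j) + 4 * ε ≤ v j) := by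
      intro j
      by_cases hj : p j
      · filter_upwards [Ioo_mem_nhdsGT (sub_pos.2 (hp j hj))] with ε hε
        exact ⟨fun _ => by linarith [hε.2], fun h => absurd hj h⟩
      · filter_upwards [Ioo_mem_nhdsGT
          (show 0 < (v j - wordDist τ j (W j)) / 4 by linarith [(hq j hj).2.2.2])] with ε hε
        exact ⟨fun h => absurd h hj, fun _ => by linarith [hε.2]⟩
    obtain ⟨ε, hε, hε0⟩ := ((eventually_all.2 h).and self_mem_nhdsWithin).exists
    exact ⟨ε, hε0, hε⟩
  set m := 2 + ∑ j, (2 * (W j).length + 2) with hm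
  refine iSup₂_le fun R _ => iInf_le_of_le m (iInf_le_of_le ε (iInf_le_of_le hε0 ?_))
  refine Filter.limsup_le_of_le (by isBoundedDefault) ?_
  filter_upwards [eventually_ge_atTop 1] with k hk
  have hk0 : (0 : ℝ) < k := by exact_mod_cast hk
  set E := EuclideanSpace ℝ (Fin k × Fin k)
  set r : ι → ℝ≥0∞ := fun j =>
    ENNReal.ofReal ((2 * Real.pi * Real.exp 1 * v j / k) ^ ((k : ℝ) ^ 2 / 2)) with hr
  have hD : (Module.finrank ℝ E : ℝ) = (k : ℝ) ^ 2 := by simp [E]; ring
  have hball : ∀ j (c : E), volume {x : E | ‖x - c‖ ^ 2 ≤ k * v j} ≤ r j := fun j c => by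
    refine (volume_sqBall_le (mul_pos hk0 (hv j)) (by simp [E]; omega) c).trans (le_of_eq ?_)
    rw [hr, hD]
    congr 2
    field_simp
  -- the triangular set
  set φ := MeasurableEquiv.piEquivPiSubtypeProd (fun _ : ι => E) p
  set Wset : Set ((i : Subtype p) → E) := Set.pi Set.univ fun i => {x | ‖x - 0‖ ^ 2 ≤ k * v i}
  let ext : ((i : Subtype p) → E) → ι → E := fun a i => if h : p i then a ⟨i, h⟩ else 0
  let T : ∀ s : {i // ¬p i}, ((i : Subtype p) → E) → Set E := fun s a =>
    {x | ‖x - toCoord (wordMat (ext a) (W s))‖ ^ 2 ≤ k * v s}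
  have hext : Continuous ext := continuous_pi fun i => by
    by_cases h : p i
    · simp only [ext, dif_pos h]; exact continuous_apply _
    · simp only [ext, dif_neg h]; exact continuous_const
  have hT : ∀ s, MeasurableSet {q : ((i : Subtype p) → E) × E | q.2 ∈ T s q.1} := fun s => by
    have hc : Continuous fun a : (i : Subtype p) → E => wordMat (ext a) (W s) :=
      continuous_list_prod _ fun i _ => continuous_matOf.comp ((continuous_apply i).comp hext)
    have ht : Continuous fun a : (i : Subtype p) → E => toCoord (wordMat (ext a) (W s)) := by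
      unfold toCoord
      fun_prop
    exact (isClosed_le (((continuous_snd.sub (ht.comp continuous_fst)).norm).pow 2)
      continuous_const).measurableSet
  have hWm : MeasurableSet Wset := MeasurableSet.univ_pi fun i =>
    (isClosed_le (by fun_prop) continuous_const).measurableSet
  have hsub : microstates τ R m k ε ⊆ φ ⁻¹'
      {q | q.1 ∈ Wset ∧ ∀ s, q.2 s ∈ T s q.1} := by
    intro A hA
    refine ⟨fun i _ => ?_, fun s => ?_⟩
    · show ‖A i - 0‖ ^ 2 ≤ _
      rw [sub_zero]
      exact (sq_le_of_mem hk hA (by omega)).trans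
        (mul_le_mul_of_nonneg_left ((hε i).1 i.2) hk0.le)
    · show ‖A s - toCoord (wordMat (ext fun i => A i) (W s))‖ ^ 2 ≤ _
      obtain ⟨h1, h2, h3, -⟩ := hq s s.2
      have e : wordMat (ext fun i => A i) (W s) = wordMat A (W s) := by
        unfold wordMat
        congr 1
        exact List.map_congr_left fun i hi => by simp [ext, h3 i hi]
      rw [e]
      have hlen : 2 * (W s).length + 2 ≤ m := le_add_left
        (Finset.single_le_sum (f := fun j => 2 * (W j).length + 2) (fun _ _ => Nat.zero_le _)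
          (Finset.mem_univ (s : ι)))
      exact (dist_le_of_mem hk hA h2 hlen h1).trans (mul_le_mul_of_nonneg_left ((hε s).2 s.2) hk0.le)
  have hvol : volume (microstates τ R m k ε) ≤ ∏ j, r j := by
    refine (measure_mono hsub).trans ?_
    rw [(volume_preserving_piEquivPiSubtypeProd (fun _ : ι => E) p).measure_preimage_equiv,
      Measure.volume_eq_prod, volume_pi, volume_pi]
    refine (measure_triangular_le _ hWm hT (r := fun s => r s) fun s a _ => hball s _).trans ?_
    rw [Measure.pi_pi, ← Fintype.prod_subtype_mul_prod_subtype p r]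
    exact mul_le_mul_left (Finset.prod_le_prod' fun (i : Subtype p) _ => hball i 0) _
  -- logarithms
  have hprod : ∏ j, r j = ENNReal.ofReal
      (∏ j, (2 * Real.pi * Real.exp 1 * v j / k) ^ ((k : ℝ) ^ 2 / 2)) := by
    rw [ENNReal.ofReal_prod_of_nonneg fun j _ => (Real.rpow_pos_of_pos
      (by have := hv j; positivity) _).le]
  have hlog := ENNReal.log_monotone (hvol.trans_eq hprod)
  rw [ENNReal.log_ofReal_of_pos (Finset.prod_pos fun j _ => Real.rpow_pos_of_pos
    (by have := hv j; positivity) _), Real.log_prod (fun j _ => (Real.rpow_pos_of_pos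
    (by have := hv j; positivity) _).ne')] at hlog
  refine (add_le_add (mul_le_mul_of_nonneg_left hlog (EReal.coe_nonneg.2 (by positivity))) le_rfl).trans ?_
  rw [← EReal.coe_mul, ← EReal.coe_add, EReal.coe_le_coe_iff]
  refine le_of_eq ?_
  rw [Finset.mul_sum, show (Fintype.card ι : ℝ) / 2 * Real.log k = ∑ _j : ι, Real.log k / 2 by
    simp; ring, ← Finset.sum_add_distrib]
  refine Finset.sum_congr rfl fun j _ => ?_
  have := hv j
  rw [Real.log_rpow (by positivity), Real.log_div (by positivity) hk0.ne']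
  field_simp
  ring

end Vale.Agent.P087
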