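import Vale.Agent.P087.Model

/-!
# P087: the facts about the model used by the other modules
-/

namespace Vale.Agent.P087

open scoped InnerProductSpace

/-- The model facts. -/
structure ModelFacts (m : ℕ) : Prop where
  /-- The setting: a tracial von Neumann algebra containing the tuples, and freeness. -/
  setting : ∃ M : VonNeumannAlgebra (Space m), IsTracialVector M (omega m) ∧
    (∀ j, xOp m j ∈ M ∧ IsSelfAdjoint (xOp m j)) ∧ (∀ j, sOp m j ∈ M ∧ IsSelfAdjoint (sOp m j)) ∧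
    FreeSemicircularFrom (omega m) (xOp m) (sOp m)
  /-- `X + √t S = z + √(σ+t) (L + L*)`. -/
  perturb_eq : ∀ t : ℝ, 0 ≤ t → ∀ j, perturb (xOp m) (sOp m) t j =
    zOp m j + ((Real.sqrt (noiseVar m j + t) : ℝ) : ℂ) • (mixCre m t j + (mixCre m t j).adjoint)
  /-- `L_a* z_K L_b = δ τ(z_K)`. -/
  concat : ∀ t : ℝ, 0 ≤ t → ∀ (a b : Idx m) (K : List (Idx m)),
    (mixCre m t a).adjoint.comp ((opWord (zOp m) K).comp (mixCre m t b)) =
      (if a = b then law (omega m) (zOp m) K else 0) • ContinuousLinearMap.id ℂ (Space m)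
  /-- `L_a* z_K Ω = 0`. -/
  concat_vac : ∀ t : ℝ, 0 ≤ t → ∀ (a : Idx m) (K : List (Idx m)),
    (mixCre m t a).adjoint (opWord (zOp m) K (omega m)) = 0
  /-- `⟪z_i Ω, z_K L_b v⟫ = 0`. -/
  concat_orth : ∀ t : ℝ, 0 ≤ t → ∀ (i b : Idx m) (K : List (Idx m)) (v : Space m),
    ⟪zOp m i (omega m), opWord (zOp m) K (mixCre m t b v)⟫_ℂ = 0
  /-- The `z_j` are self-adjoint. -/
  zOp_selfAdjoint : ∀ j, IsSelfAdjoint (zOp m j)
  /-- The Schwinger–Dyson identity. -/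
  schwingerDyson : ∀ t : ℝ, 0 ≤ t → ∀ (j : Idx m) (w : List (Idx m)),
    ⟪mixCre m t j (omega m), opWord (perturb (xOp m) (sOp m) t) w (omega m)⟫_ℂ =
      ((Real.sqrt (noiseVar m j + t) : ℝ) : ℂ) *
        diffQuot (law (omega m) (perturb (xOp m) (sOp m) t)) j w
  /-- The moments of `z` are real. -/
  law_real : ∀ K : List (Idx m), (law (omega m) (zOp m) K).im = 0
  /-- `τ(z_S) = 0`. -/
  law_conj : ∀ g : Cube m, law (omega m) (zOp m) [Sum.inr g] = 0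
  /-- `‖z_S Ω‖ = 1`. -/
  norm_conj : ∀ g : Cube m, ‖zOp m (Sum.inr g) (omega m)‖ = 1

/-- `Q = √m + 3 (2^m+1)^{1/4}`. -/
noncomputable def momentBound (m : ℕ) : ℝ :=
  Real.sqrt m + 3 * ((2 : ℝ) ^ m + 1) ^ ((4 : ℝ)⁻¹)

/-- The moment bound, proof section 3d. -/
def MomentBound (m : ℕ) : Prop :=
  ∀ (d : ℕ) (h : Space m), ‖h‖ ≤ 1 →
    Real.sqrt (∑ J : Fin d → Idx m, ‖⟪h, opWord (zOp m) (List.ofFn J) (omega m)⟫_ℂ‖ ^ 2) ≤
      momentBound m ^ d

end Vale.Agent.P087
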