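import Vale.Agent.P087.ChiUpper
import Vale.Agent.P087.ModelInterface

/-!
The upper bound on the microstates entropy of the example.
-/

namespace Vale.Agent.P087

open scoped InnerProductSpace

section Telescope

variable {A : Type*} [NormedRing A] {ι : Type*}

private lemma norm_list_prod_sub_le (h1 : ‖(1 : A)‖ ≤ 1) (x z : ι → A) (δ : ℝ) (c : ι → ℝ) : ∀ l : List ι,
    (∀ i ∈ l, ‖z i‖ ≤ c i ∧ ‖x i - z i‖ ≤ δ) →
      ‖(l.map z).prod‖ ≤ (l.map c).prod ∧
        ‖(l.map x).prod - (l.map z).prod‖ ≤ (l.map fun i => c i + δ).prod - (l.map c).prod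
  | [], _ => by simp [h1]
  | i :: l, h => by
    obtain ⟨hz, hd⟩ := h i (List.mem_cons_self ..)
    obtain ⟨ihz, ihd⟩ := norm_list_prod_sub_le h1 x z δ c l fun j hj => h j (List.mem_cons_of_mem _ hj)
    have hc : 0 ≤ c i := (norm_nonneg _).trans hz
    have hδ : 0 ≤ δ := (norm_nonneg _).trans hd
    simp only [List.map_cons, List.prod_cons]
    refine ⟨(norm_mul_le _ _).trans (mul_le_mul hz ihz (norm_nonneg _) hc), ?_⟩
    have hx : ‖x i‖ ≤ c i + δ := by
      calc ‖x i‖ = ‖z i + (x i - z i)‖ := by rw [add_sub_cancel]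
        _ ≤ c i + δ := (norm_add_le _ _).trans (add_le_add hz hd)
    calc ‖x i * (l.map x).prod - z i * (l.map z).prod‖
        = ‖x i * ((l.map x).prod - (l.map z).prod) + (x i - z i) * (l.map z).prod‖ := by
          congr 1; noncomm_ring
      _ ≤ (c i + δ) * ((l.map fun i => c i + δ).prod - (l.map c).prod) + δ * (l.map c).prod :=
          (norm_add_le _ _).trans (add_le_add
            ((norm_mul_le _ _).trans (mul_le_mul hx ihd (norm_nonneg _) (by linarith)))
            ((norm_mul_le _ _).trans (mul_le_mul hd ihz (norm_nonneg _) hδ)))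
      _ = _ := by ring

end Telescope

section PushNorm

variable {Γ C : Type} [AddCommGroup Γ] [DecidableEq Γ] [DecidableEq C]

private lemma norm_push_le {B : Type} [DecidableEq B] (f : B → B) (hf : Function.Injective f) :
    ‖push f hf‖ ≤ 1 := by
  rw [push, LinearIsometryEquiv.norm_map]
  exact norm_pull_le f hf

private lemma norm_lam_le (g : Γ) : ‖(lam g : Fock Γ C →L[ℂ] Fock Γ C)‖ ≤ 1 := norm_pull_le _ _

private lemma norm_semi_le (c : C) : ‖(semi c : Fock Γ C →L[ℂ] Fock Γ C)‖ ≤ 2 := by
  refine (norm_add_le _ _).trans ?_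
  have h1 : ‖(cre c : Fock Γ C →L[ℂ] Fock Γ C)‖ ≤ 1 := norm_push_le _ _
  have h2 : ‖(ann c : Fock Γ C →L[ℂ] Fock Γ C)‖ ≤ 1 := norm_pull_le _ _
  linarith

private lemma norm_vac : ‖(vac : Fock Γ C)‖ = 1 := norm_ket _

private lemma norm_semi_vac_le (c : C) : ‖semi c (vac : Fock Γ C)‖ ≤ 1 := by
  rw [semi_vac, cre_vac, norm_ket]

private lemma lam_mul (g h : Γ) : (lam g : Fock Γ C →L[ℂ] Fock Γ C) * lam h = lam (h + g) := by
  ext v x
  simp [lam, pull_apply, transl, add_assoc]

private lemma lam_zero : (lam (0 : Γ) : Fock Γ C →L[ℂ] Fock Γ C) = 1 := by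
  ext v x
  simp [lam, pull_apply, transl]

end PushNorm

variable {m : ℕ}

/-- The letters of `r^S`. -/
noncomputable def rWord (g : Cube m) : List (Idx m) :=
  ((List.finRange m).filter fun l => g l ≠ 0).map fun l => Sum.inl (Sum.inl l)

/-- The palindrome `r^S w r^S`. -/
noncomputable def conjWord (g : Cube m) : List (Idx m) :=
  rWord g ++ [Sum.inl (Sum.inr ())] ++ (rWord g).reverse

lemma opWord_z_lams : ∀ l : List (Fin m),
    ((l.map fun i => (Sum.inl (Sum.inl i) : Idx m)).map (zOp m)).prod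
      = lam (l.map fun i => Pi.single i (1 : ZMod 2)).sum
  | [] => by simp [lam_zero]
  | i :: l => by
    simp only [List.map_cons, List.prod_cons, List.sum_cons, opWord_z_lams l]
    exact (lam_mul _ _).trans (congrArg lam (add_comm _ _))

private lemma sum_filter_single (g : Cube m) :
    (((List.finRange m).filter fun l => g l ≠ 0).map fun i => Pi.single i (1 : ZMod 2)).sum = g := by
  rw [← List.sum_toFinset _ ((List.nodup_finRange m).filter _)]
  funext j
  rw [Finset.sum_apply]
  simp only [Pi.single_apply, Finset.sum_ite_eq, List.mem_toFinset, List.mem_filter,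
    List.mem_finRange, true_and, decide_eq_true_eq]
  split_ifs with h
  · generalize g j = a at h ⊢
    revert a
    decide
  · simpa using (not_not.1 h).symm

lemma opWord_z_conjWord (g : Cube m) : opWord (zOp m) (conjWord g) = zOp m (Sum.inr g) := by
  simp only [opWord, conjWord, List.map_append, List.prod_append, List.map_singleton,
    List.prod_singleton, rWord, ← List.map_reverse, opWord_z_lams]
  rw [List.map_reverse, List.sum_reverse, sum_filter_single]
  rfl

lemma norm_noise_le (j : Idx m) (h : ∃ i, j = Sum.inl i) :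
    ‖xOp m j - zOp m j‖ ≤ 2 * Real.sqrt (smallVar m) := by
  obtain ⟨i, rfl⟩ := h
  rw [xOp, add_sub_cancel_left, norm_smul, Complex.norm_real, Real.norm_of_nonneg (Real.sqrt_nonneg _),
    mul_comm (2 : ℝ)]
  exact mul_le_mul_of_nonneg_left (norm_semi_le _) (Real.sqrt_nonneg _)

private lemma sqrt_smallVar : Real.sqrt (smallVar m) = (((2 : ℝ) ^ m) ^ 2)⁻¹ := by
  rw [smallVar, Real.sqrt_eq_iff_eq_sq (by positivity) (by positivity)]
  ring

/-- The distance from `X_S` to its word is nearly one. -/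
lemma norm_diff_conj_le (hm : 10 ≤ m) (g : Cube m) :
    ‖(xOp m (Sum.inr g) - opWord (xOp m) (conjWord g)) (omega m)‖ ≤ 1 + (2 * ((2 : ℝ) ^ m))⁻¹ := by
  set δ := 2 * Real.sqrt (smallVar m) with hδ
  set c : Idx m → ℝ := fun j => if j = Sum.inl (Sum.inr ()) then 2 else 1
  have hc : ∀ i ∈ conjWord g, ‖zOp m i‖ ≤ c i ∧ ‖xOp m i - zOp m i‖ ≤ δ := by
    intro i hi
    simp only [conjWord, rWord, List.mem_append, List.mem_reverse, List.mem_map,
      List.mem_singleton] at hi
    rcases hi with (⟨l, -, rfl⟩ | rfl) | ⟨l, -, rfl⟩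
    · exact ⟨by simpa [c, zOp] using norm_lam_le _, norm_noise_le _ ⟨_, rfl⟩⟩
    · exact ⟨by simpa [c, zOp] using norm_semi_le _, norm_noise_le _ ⟨_, rfl⟩⟩
    · exact ⟨by simpa [c, zOp] using norm_lam_le _, norm_noise_le _ ⟨_, rfl⟩⟩
  have hclose := (norm_list_prod_sub_le ContinuousLinearMap.norm_id_le (xOp m) (zOp m) δ c (conjWord g) hc).2
  -- the two products of bounds
  set n := (rWord g).length with hn
  have hnm : n ≤ m := by
    simpa [hn, rWord] using (List.length_filter_le (fun l => decide (g l ≠ 0)) (List.finRange m))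
  have hrep : ∀ (a : ℝ), ((rWord g).map fun i => c i + a) = List.replicate n (1 + a) := fun a =>
    List.eq_replicate_iff.2 ⟨by simp [hn], fun x hx => by
      simp only [rWord, List.map_map, List.mem_map, Function.comp] at hx
      obtain ⟨l, -, rfl⟩ := hx
      simp [c]⟩
  have hp : ∀ a : ℝ, ((conjWord g).map fun i => c i + a).prod = (1 + a) ^ (2 * n) * (2 + a) := by
    intro a
    simp only [conjWord, List.map_append, List.prod_append, List.map_singleton, List.prod_singleton,
      List.map_reverse, List.prod_reverse, hrep, List.prod_replicate]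
    rw [show c (Sum.inl (Sum.inr ())) = 2 by simp [c]]
    ring
  have h0 : ((conjWord g).map c).prod = 2 := by simpa using hp 0
  rw [hp, h0] at hclose
  set N := (2 : ℝ) ^ m with hN
  have hN0 : 0 < N := by positivity
  have hδ' : δ = 2 / N ^ 2 := by rw [hδ, sqrt_smallVar, ← div_eq_mul_inv]
  have hδ0 : 0 ≤ δ := by rw [hδ']; positivity
  have hmN : 32 * (2 * (m : ℝ) + 1) ≤ N := by
    have : ∀ k : ℕ, 10 ≤ k → 32 * (2 * k + 1) ≤ 2 ^ k := fun k hk => by
      induction k, hk using Nat.le_induction with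
      | base => norm_num
      | succ k hk ih => rw [pow_succ]; omega
    rw [hN]; exact_mod_cast this m hm
  have hx : (2 * n + 1 : ℕ) * δ ≤ (16 * N)⁻¹ := by
    have : ((2 * n + 1 : ℕ) : ℝ) ≤ 2 * m + 1 := by exact_mod_cast (by omega : 2 * n + 1 ≤ 2 * m + 1)
    calc ((2 * n + 1 : ℕ) : ℝ) * δ ≤ N / 32 * δ := mul_le_mul_of_nonneg_right (by linarith) hδ0
      _ = (16 * N)⁻¹ := by rw [hδ']; field_simp; ring
  have hx1 : (16 * N)⁻¹ ≤ 1 / 2 := by
    rw [inv_le_comm₀ (by positivity) (by norm_num)]
    linarith [show (1 : ℝ) ≤ N from one_le_pow₀ one_le_two]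
  have hgrow : (1 + δ) ^ (2 * n) * (2 + δ) - 2 ≤ (2 * N)⁻¹ := by
    have h1 : (1 + δ) ^ (2 * n + 1) ≤ Real.exp ((2 * n + 1 : ℕ) * δ) := by
      rw [Real.exp_nat_mul]
      exact pow_le_pow_left₀ (by linarith) (by linarith [Real.add_one_le_exp δ]) _
    set x := ((2 * n + 1 : ℕ) : ℝ) * δ with hxdef
    have hx0 : 0 ≤ x := by positivity
    have h2 : Real.exp x ≤ 1 + 2 * x := by
      have := Real.abs_exp_sub_one_le (x := x) (by rw [abs_of_nonneg hx0]; linarith)
      rw [abs_of_nonneg hx0] at this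
      linarith [le_abs_self (Real.exp x - 1)]
    calc (1 + δ) ^ (2 * n) * (2 + δ) - 2 ≤ (1 + δ) ^ (2 * n) * (2 * (1 + δ)) - 2 :=
          sub_le_sub_right (mul_le_mul_of_nonneg_left (by linarith) (by positivity)) _
      _ = 2 * (1 + δ) ^ (2 * n + 1) - 2 := by rw [pow_succ]; ring
      _ ≤ 4 * x := by linarith
      _ ≤ 4 * (16 * N)⁻¹ := by linarith
      _ ≤ (2 * N)⁻¹ := by rw [mul_inv, mul_inv]; linarith [inv_nonneg.2 hN0.le]
  have hE : ‖opWord (xOp m) (conjWord g) - zOp m (Sum.inr g)‖ ≤ (2 * N)⁻¹ := by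
    rw [← opWord_z_conjWord]
    exact hclose.trans hgrow
  have e : (xOp m (Sum.inr g) - opWord (xOp m) (conjWord g)) (omega m)
      = semi (some (false, Sum.inr g)) (omega m)
        - (opWord (xOp m) (conjWord g) - zOp m (Sum.inr g)) (omega m) := by
    simp [xOp, noiseVar]
    abel
  rw [e]
  exact (norm_sub_le _ _).trans (add_le_add (norm_semi_vac_le _)
    (((_ : Space m →L[ℂ] Space m).le_opNorm_of_le norm_vac.le).trans (by rw [mul_one]; exact hE)))

/-- Second moment of a self-adjoint operator. -/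
private lemma re_inner_mul_self {H : Type*} [NormedAddCommGroup H] [InnerProductSpace ℂ H] [CompleteSpace H]
    {Y : H →L[ℂ] H} (hY : IsSelfAdjoint Y) (v : H) : (⟪v, (Y * Y) v⟫_ℂ).re = ‖Y v‖ ^ 2 := by
  rw [mul_apply_eq_comp, show ⟪v, Y (Y v)⟫_ℂ = ⟪Y v, Y v⟫_ℂ from
    (hY.isSymmetric v (Y v)).symm, inner_self_eq_norm_sq_to_K]
  norm_cast

private lemma opWord_append {ι H : Type*} [NormedAddCommGroup H] [InnerProductSpace ℂ H]
    (X : ι → H →L[ℂ] H) (u v : List ι) : opWord X (u ++ v) = opWord X u * opWord X v := by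
  simp [opWord]

theorem chi_upper (m : ℕ) (hm : 10 ≤ m) (hF : ModelFacts m) :
    chi (law (omega m) (xOp m)) ≤ (((Fintype.card (Idx m) : ℝ) / 2 *
      Real.log (2 * Real.pi * Real.exp 1) + ((m : ℝ) + 1) / 2 * Real.log 3 + 3 : ℝ) : EReal) := by
  obtain ⟨M, -, hX, -⟩ := hF.setting
  set N := (2 : ℝ) ^ m with hN
  have hN1 : 1 ≤ N := one_le_pow₀ one_le_two
  set v : Idx m → ℝ := fun j => if j.isLeft then 3 else (1 + N⁻¹) ^ 2 with hv
  refine (chi_le_of_words (law (omega m) (xOp m)) (fun j => j.isLeft = true)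
    (fun j => j.elim (fun _ => []) conjWord) v ?_ (fun j => ?_) ?_).trans (EReal.coe_le_coe_iff.2 ?_)
  · rintro (i | g) hj
    · have e : law (omega m) (xOp m) [Sum.inl i, Sum.inl i]
          = ⟪omega m, (xOp m (Sum.inl i) * xOp m (Sum.inl i)) (omega m)⟫_ℂ := by
        simp [law, opWord]
      rw [e, re_inner_mul_self (hX _).2]
      have hz : ‖zOp m (Sum.inl i) (omega m)‖ ≤ 1 := by
        rcases i with l | u
        · exact (((lam _ : Space m →L[ℂ] Space m)).le_opNorm_of_le norm_vac.le).trans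
            (by rw [mul_one]; exact norm_lam_le _)
        · exact norm_semi_vac_le _
      have hd : ‖(xOp m (Sum.inl i) - zOp m (Sum.inl i)) (omega m)‖ ≤ 2 * Real.sqrt (smallVar m) :=
        ((_ : Space m →L[ℂ] Space m).le_opNorm_of_le norm_vac.le).trans
          (by rw [mul_one]; exact norm_noise_le _ ⟨i, rfl⟩)
      have hs : 2 * Real.sqrt (smallVar m) ≤ 1 / 2 := by
        rw [sqrt_smallVar]
        have : (4 : ℝ) ≤ (2 ^ m) ^ 2 := by
          rw [← pow_mul]
          calc (4 : ℝ) = 2 ^ 2 := by norm_num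
            _ ≤ 2 ^ (m * 2) := pow_le_pow_right₀ one_le_two (by omega)
        rw [← div_eq_mul_inv, div_le_iff₀ (by positivity)]
        linarith
      have hn : ‖xOp m (Sum.inl i) (omega m)‖ ≤ 3 / 2 := by
        have h := norm_add_le (zOp m (Sum.inl i) (omega m))
          ((xOp m (Sum.inl i) - zOp m (Sum.inl i)) (omega m))
        rw [← add_apply, add_sub_cancel] at h
        linarith
      simp only [hv, Sum.isLeft_inl, if_true]
      calc _ ≤ (3 / 2 : ℝ) ^ 2 := pow_le_pow_left₀ (norm_nonneg _) hn 2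
        _ < 3 := by norm_num
    · simp at hj
  · rcases j with i | g <;> simp [hv] <;> positivity
  · rintro (i | g) hj
    · simp at hj
    refine ⟨by simp [conjWord], by simp [conjWord, List.append_assoc], fun i hi => ?_, ?_⟩
    · simp only [Sum.elim_inr, conjWord, rWord, List.mem_append, List.mem_reverse, List.mem_map,
        List.mem_singleton] at hi
      rcases hi with (⟨l, -, rfl⟩ | rfl) | ⟨l, -, rfl⟩ <;> rfl
    have hW : IsSelfAdjoint (opWord (xOp m) (conjWord g)) := by
      have : ∀ l : List (Idx m), star (opWord (xOp m) l) = opWord (xOp m) l.reverse := by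
        intro l
        induction l with
        | nil => simp [opWord]
        | cons a l ih =>
          rw [show a :: l = [a] ++ l from rfl, opWord_append, star_mul, ih, List.reverse_append,
            opWord_append]
          congr 1
          simp [opWord, (hX a).2.star_eq]
      rw [isSelfAdjoint_iff, this]
      simp [conjWord, List.append_assoc]
    have e : wordDist (law (omega m) (xOp m)) (Sum.inr g) (conjWord g)
        = ‖(xOp m (Sum.inr g) - opWord (xOp m) (conjWord g)) (omega m)‖ ^ 2 := by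
      rw [← re_inner_mul_self ((hX _).2.sub hW), wordDist]
      simp only [law, opWord_append, show opWord (xOp m) [Sum.inr g] = xOp m (Sum.inr g) by simp [opWord],
        show opWord (xOp m) [Sum.inr g, Sum.inr g] = xOp m (Sum.inr g) * xOp m (Sum.inr g) by
          simp [opWord], ← inner_sub_right, ← inner_add_right, ← sub_apply,
        ← add_apply]
      congr 3
      noncomm_ring
    simp only [Sum.elim_inr, hv, Sum.isLeft_inr, Bool.false_eq_true, if_false, e]
    refine (pow_le_pow_left₀ (norm_nonneg _) (norm_diff_conj_le hm g) 2).trans_lt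
      (pow_lt_pow_left₀ ?_ (by positivity) two_ne_zero)
    rw [← hN]
    have : (2 * N)⁻¹ < N⁻¹ := inv_strictAnti₀ (by positivity) (by linarith)
    linarith
  · have hl : ∀ a : ℝ, 0 < a → Real.log (2 * Real.pi * Real.exp 1 * a) / 2
        = Real.log (2 * Real.pi * Real.exp 1) / 2 + Real.log a / 2 := fun a ha => by
      rw [Real.log_mul (by positivity) ha.ne']; ring
    have hg : Real.log ((1 + N⁻¹) ^ 2) / 2 ≤ N⁻¹ := by
      rw [Real.log_pow]
      have := Real.log_le_sub_one_of_pos (show 0 < 1 + N⁻¹ by positivity)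
      push_cast
      linarith
    rw [Fintype.sum_sum_type]
    simp only [hv, Sum.isLeft_inl, Sum.isLeft_inr, if_true, Bool.false_eq_true, if_false,
      hl 3 (by norm_num), hl _ (show (0 : ℝ) < (1 + N⁻¹) ^ 2 by positivity), Finset.sum_const,
      Finset.card_univ, nsmul_eq_mul, Fintype.card_sum, Fintype.card_unit, Fintype.card_fin,
      Fintype.card_fun, ZMod.card]
    push_cast
    rw [← hN]
    have : N * (Real.log ((1 + N⁻¹) ^ 2) / 2) ≤ 1 :=
      (mul_le_mul_of_nonneg_left hg (by positivity)).trans_eq (mul_inv_cancel₀ (by positivity))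
    nlinarith

end Vale.Agent.P087
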