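import Vale.Agent.P087.Defs

/-!
# P087: `matOf` is a linear isometry onto the self-adjoint matrices
-/

namespace Vale.Agent.P087

open scoped Matrix InnerProductSpace

theorem matOf_isHermitian {k : ℕ} (x : EuclideanSpace ℝ (Fin k × Fin k)) :
    (matOf x).IsHermitian := by
  ext a b
  simp [Matrix.conjTranspose_apply, matOf, Complex.ext_iff]
  constructor <;> ring

theorem matOf_surjective {k : ℕ} (A : Matrix (Fin k) (Fin k) ℂ) (hA : A.IsHermitian) :
    ∃ x : EuclideanSpace ℝ (Fin k × Fin k), matOf x = A := by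
  refine ⟨WithLp.toLp 2 fun p => (A p.1 p.2).re - (A p.1 p.2).im, ?_⟩
  ext a b
  have h := congrFun (congrFun hA a) b
  rw [Matrix.conjTranspose_apply] at h
  have hre : (A b a).re = (A a b).re := by rw [← h]; simp
  have him : (A b a).im = -(A a b).im := by rw [← h]; simp
  apply Complex.ext <;> simp [matOf, hre, him] <;> ring

/-- `Tr(A B) = ⟪x, y⟫`. -/
theorem trace_matOf_mul {k : ℕ} (x y : EuclideanSpace ℝ (Fin k × Fin k)) :
    ((matOf x) * (matOf y)).trace = ((⟪x, y⟫_ℝ : ℝ) : ℂ) := by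
  simp only [Matrix.trace, Matrix.diag_apply, Matrix.mul_apply, matOf, PiLp.inner_apply,
    RCLike.inner_apply, conj_trivial, Complex.ofReal_sum, Complex.ofReal_mul]
  rw [Fintype.sum_prod_type]
  have hI : Complex.I * Complex.I = -1 := Complex.I_mul_I
  have key : ∀ a b : Fin k,
      ((1 - Complex.I) / 2 * (x (a, b) : ℂ) + (1 + Complex.I) / 2 * (x (b, a) : ℂ)) *
        ((1 - Complex.I) / 2 * (y (b, a) : ℂ) + (1 + Complex.I) / 2 * (y (a, b) : ℂ)) =
      ((x (a, b) : ℂ) * y (a, b) + (x (b, a) : ℂ) * y (b, a)) / 2 +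
        Complex.I / 2 * ((x (b, a) : ℂ) * y (a, b) - (x (a, b) : ℂ) * y (b, a)) := by
    intro a b
    linear_combination ((x (a, b) : ℂ) * y (b, a) - (x (a, b) : ℂ) * y (a, b)
      - (x (b, a) : ℂ) * y (b, a) + (x (b, a) : ℂ) * y (a, b)) / 4 * hI
  simp only [key]
  simp only [Finset.sum_add_distrib, add_div, ← Finset.mul_sum, Finset.sum_sub_distrib,
    ← Finset.sum_div]
  rw [Finset.sum_comm (f := fun a b => (x (b, a) : ℂ) * (y (b, a) : ℂ)),
    Finset.sum_comm (f := fun a b => (x (b, a) : ℂ) * (y (a, b) : ℂ))]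
  simp only [sub_self, mul_zero, add_zero]
  rw [← add_div, ← two_mul]
  simp [mul_comm]

end Vale.Agent.P087
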