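import Mathlib

/-!
# P087: definitions of the microstates and non-microstates free entropies

`X : ι → H →L[ℂ] H` is a tuple of bounded operators on a Hilbert space `H`, and the trace is the
vector state of `Ω`.
-/

namespace Vale.Agent.P087

open scoped ENNReal InnerProductSpace
open MeasureTheory Filter

section Laws

variable {ι : Type*} {H : Type*} [NormedAddCommGroup H] [InnerProductSpace ℂ H]

/-- The product of the operators `X` along a word. -/
noncomputable def opWord (X : ι → H →L[ℂ] H) (w : List ι) : H →L[ℂ] H := (w.map X).prod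

/-- The moment of the word `w` in the vector state of `Ω`. -/
noncomputable def law (Ω : H) (X : ι → H →L[ℂ] H) (w : List ι) : ℂ := ⟪Ω, opWord X w Ω⟫_ℂ

/-- `(τ ⊗ τ)(∂_j w) = ∑_{w = u ++ j :: v} τ(u) τ(v)`. -/
noncomputable def diffQuot [DecidableEq ι] (τ : List ι → ℂ) (j : ι) (w : List ι) : ℂ :=
  ∑ p ∈ Finset.range w.length, if w[p]? = some j then τ (w.take p) * τ (w.drop (p + 1)) else 0

/-- `L²(W*(X), τ)`, realised as the closed span of the vectors `X_w Ω`. -/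
noncomputable def L2 (Ω : H) (X : ι → H →L[ℂ] H) : Submodule ℂ H :=
  (Submodule.span ℂ (Set.range fun w : List ι => opWord X w Ω)).topologicalClosure

/-- `η = ξ* Ω` for a conjugate variable `ξ` of `X_j`: `η ∈ L²(W*(X))` and
`τ(ξ w(X)) = (τ ⊗ τ)(∂_j w)` for every word `w`. -/
def IsConjugate [DecidableEq ι] (Ω : H) (X : ι → H →L[ℂ] H) (j : ι) (η : H) : Prop :=
  η ∈ L2 Ω X ∧ ∀ w : List ι, ⟪η, opWord X w Ω⟫_ℂ = diffQuot (law Ω X) j w

/-- `‖ξ_j‖₂²`, and `∞` if there is no conjugate variable (which is unique if it exists). -/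
noncomputable def fisherAt [DecidableEq ι] (Ω : H) (X : ι → H →L[ℂ] H) (j : ι) : ℝ≥0∞ :=
  ⨅ η : H, ⨅ _ : IsConjugate Ω X j η, ENNReal.ofReal (‖η‖ ^ 2)

/-- The free Fisher information `Φ*`. -/
noncomputable def fisher [DecidableEq ι] [Fintype ι] (Ω : H) (X : ι → H →L[ℂ] H) : ℝ≥0∞ :=
  ∑ j, fisherAt Ω X j

/-- `X + √t S`. -/
noncomputable def perturb (X S : ι → H →L[ℂ] H) (t : ℝ) : ι → H →L[ℂ] H :=
  fun j => X j + ((Real.sqrt t : ℝ) : ℂ) • S j

/-- `χ*(X) = ½ ∫₀^∞ (n/(1+t) - Φ*(X+√t S)) dt + (n/2) log (2πe)`, the integral written as the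
integral of the positive part minus that of the negative part. -/
noncomputable def chiStar [DecidableEq ι] [Fintype ι] (Ω : H) (X S : ι → H →L[ℂ] H) : EReal :=
  ((2⁻¹ : ℝ) : EReal) *
      (((∫⁻ t in Set.Ioi (0 : ℝ),
          (ENNReal.ofReal (Fintype.card ι / (1 + t)) - fisher Ω (perturb X S t)) : ℝ≥0∞) : EReal) -
        ((∫⁻ t in Set.Ioi (0 : ℝ),
          (fisher Ω (perturb X S t) - ENNReal.ofReal (Fintype.card ι / (1 + t))) : ℝ≥0∞) : EReal)) +
    (((Fintype.card ι : ℝ) / 2 * Real.log (2 * Real.pi * Real.exp 1) : ℝ) : EReal)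

end Laws

section Microstates

open scoped Matrix

/-- Coordinates on the self-adjoint `k × k` matrices: the real linear isometry
`x ↦ (1-i)/2 x + (1+i)/2 xᵀ` from Euclidean `ℝ^{k²}` onto `(M_k^sa, Tr)`. -/
noncomputable def matOf {k : ℕ} (x : EuclideanSpace ℝ (Fin k × Fin k)) :
    Matrix (Fin k) (Fin k) ℂ :=
  fun a b => (1 - Complex.I) / 2 * (x (a, b) : ℂ) + (1 + Complex.I) / 2 * (x (b, a) : ℂ)

/-- Normalised trace. -/
noncomputable def ntr {k : ℕ} (A : Matrix (Fin k) (Fin k) ℂ) : ℂ := A.trace / k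

/-- The microstate set `Γ_R(X; m, k, ε)` of the law `τ`, in the coordinates `matOf`. -/
def microstates {ι : Type*} (τ : List ι → ℂ) (R : ℝ) (m k : ℕ) (ε : ℝ) :
    Set (ι → EuclideanSpace ℝ (Fin k × Fin k)) :=
  {A | (∀ j, ‖Matrix.toEuclideanCLM (𝕜 := ℂ) (matOf (A j))‖ ≤ R) ∧
    ∀ w : List ι, 1 ≤ w.length → w.length ≤ m →
      ‖ntr ((w.map fun j => matOf (A j)).prod) - τ w‖ < ε}

/-- `χ_R`. -/
noncomputable def chiR {ι : Type*} [Fintype ι] (τ : List ι → ℂ) (R : ℝ) : EReal :=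
  ⨅ m : ℕ, ⨅ ε : ℝ, ⨅ _ : 0 < ε, limsup (fun k : ℕ =>
    ((((k : ℝ) ^ 2)⁻¹ : ℝ) : EReal) * ENNReal.log (volume (microstates τ R m k ε)) +
      (((Fintype.card ι : ℝ) / 2 * Real.log k : ℝ) : EReal)) atTop

/-- Voiculescu's microstates free entropy `χ = sup_R χ_R`. -/
noncomputable def chi {ι : Type*} [Fintype ι] (τ : List ι → ℂ) : EReal :=
  ⨆ R : ℝ, ⨆ _ : 0 < R, chiR τ R

end Microstates

section Setting

variable {ι : Type*} {H : Type*} [NormedAddCommGroup H] [InnerProductSpace ℂ H] [CompleteSpace H]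

/-- The vector state of the unit vector `Ω` is a faithful normal tracial state on `M`. -/
def IsTracialVector (M : VonNeumannAlgebra H) (Ω : H) : Prop :=
  ‖Ω‖ = 1 ∧ (∀ a ∈ M, ∀ b ∈ M, ⟪Ω, (a * b) Ω⟫_ℂ = ⟪Ω, (b * a) Ω⟫_ℂ) ∧
    ∀ a ∈ M, a Ω = 0 → a = 0

/-- The generators of the block `c`: all of `X` for `none`, `S j` for `some j`. -/
def blockGen (X S : ι → H →L[ℂ] H) : Option ι → Set (H →L[ℂ] H)
  | none => Set.range X
  | some j => {S j}

/-- `S` is a free semicircular family of variance one, free from `X`: every `S_j` has the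
semicircular moments, and every product of centred elements of the generated algebras with
adjacent blocks distinct has trace zero. -/
def FreeSemicircularFrom (Ω : H) (X S : ι → H →L[ℂ] H) : Prop :=
  (∀ j, (∀ p : ℕ, ⟪Ω, ((S j) ^ (2 * p)) Ω⟫_ℂ = (catalan p : ℂ)) ∧
      ∀ p : ℕ, ⟪Ω, ((S j) ^ (2 * p + 1)) Ω⟫_ℂ = 0) ∧
    ∀ l : List (Option ι × (H →L[ℂ] H)), l ≠ [] → l.IsChain (fun p q => p.1 ≠ q.1) →
      (∀ p ∈ l, p.2 ∈ Algebra.adjoin ℂ (blockGen X S p.1) ∧ ⟪Ω, p.2 Ω⟫_ℂ = 0) →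
      ⟪Ω, (l.map Prod.snd).prod Ω⟫_ℂ = 0

/-- The negation of Q1 of P087: a tuple, indexed by a nonempty finite type, with
`-∞ < χ < χ* < ∞`. -/
def Counterexample : Prop :=
  ∃ (H : Type) (_ : NormedAddCommGroup H) (_ : InnerProductSpace ℂ H) (_ : CompleteSpace H)
    (ι : Type) (_ : Fintype ι) (_ : DecidableEq ι) (M : VonNeumannAlgebra H) (Ω : H)
    (X S : ι → H →L[ℂ] H),
    Nonempty ι ∧ IsTracialVector M Ω ∧ (∀ j, X j ∈ M ∧ IsSelfAdjoint (X j)) ∧
      (∀ j, S j ∈ M ∧ IsSelfAdjoint (S j)) ∧ FreeSemicircularFrom Ω X S ∧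
      ⊥ < chi (law Ω X) ∧ chi (law Ω X) < chiStar Ω X S ∧ chiStar Ω X S < ⊤

end Setting

end Vale.Agent.P087
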