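import Vale.Agent.P087.Witness

/-!
# P087: weak estimation of the conjugates at large times (the key lemma)
-/

namespace Vale.Agent.P087

open scoped InnerProductSpace
open ContinuousLinearMap

variable {m : ℕ}

theorem degNorm_mom_le (hB : MomentBound m) {h : Space m} (hh : ‖h‖ ≤ 1) (d : ℕ) :
    degNorm (fun J => (⟪h, opWord (zOp m) J (omega m)⟫_ℂ).re) d ≤ momentBound m ^ d := by
  refine le_trans (Real.sqrt_le_sqrt (Finset.sum_le_sum fun J _ => ?_)) (hB d h hh)
  rw [← sq_abs]
  exact pow_le_pow_left₀ (abs_nonneg _) (Complex.abs_re_le_norm _) 2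

/-- The geometric series at ratio `1/5`. -/
theorem geom_fifth_le (D : ℕ) : ∑ d ∈ Finset.Icc 1 D, ((1 : ℝ) / 5) ^ d ≤ 1 / 4 := by
  have h : ∀ D : ℕ, ∑ d ∈ Finset.Icc 1 D, ((1 : ℝ) / 5) ^ d = 1 / 4 - 1 / 4 * (1 / 5) ^ D := by
    intro D
    induction D with
    | zero => simp
    | succ D ih =>
      rw [Finset.sum_Icc_succ_top (by omega : 1 ≤ D + 1), ih, pow_succ]
      ring
  rw [h]
  have : (0 : ℝ) ≤ 1 / 4 * (1 / 5) ^ D := by positivity
  linarith

/-- `ρ = T^{-1/2} = (10 Q)⁻¹`. -/
noncomputable def radius (m : ℕ) : ℝ := (10 * momentBound m)⁻¹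

theorem radius_pos (m : ℕ) : 0 < radius m := by
  have := momentBound_pos m
  unfold radius
  positivity

theorem series_small (f : List (Idx m) → ℝ)
    (hf : ∀ d, degNorm f d ≤ momentBound m ^ d) (D : ℕ) :
    ∑ d ∈ Finset.Icc 1 D, (2 * radius m) ^ d * degNorm f d ≤ 1 / 4 := by
  have hQ := momentBound_pos m
  have hρ := radius_pos m
  refine le_trans (Finset.sum_le_sum fun d _ => ?_) (geom_fifth_le D)
  calc (2 * radius m) ^ d * degNorm f d ≤ (2 * radius m) ^ d * momentBound m ^ d := by
        have := hf d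
        gcongr
    _ = ((1 : ℝ) / 5) ^ d := by
        rw [← mul_pow]
        congr 1
        unfold radius
        field_simp
        ring

theorem radius_mul_root {t : ℝ} (ht : threshold m ≤ t) (j : Idx m) :
    1 ≤ radius m * rootVar m t j := by
  have hQ := momentBound_pos m
  have h1 : 10 * momentBound m ≤ rootVar m t j := by
    rw [rootVar]
    refine Real.le_sqrt_of_sq_le ?_
    have := noiseVar_nonneg m j
    rw [threshold] at ht
    nlinarith
  unfold radius
  rw [inv_mul_eq_div, le_div_iff₀ (by positivity)]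
  simpa using h1

theorem radius_pow_mul_rootProd {t : ℝ} (ht : threshold m ≤ t) :
    ∀ A : List (Idx m), 1 ≤ radius m ^ A.length * rootProd m t A
  | [] => by simp [rootProd]
  | a :: A => by
    have h1 := radius_mul_root ht a
    have h2 := radius_pow_mul_rootProd ht A
    have : radius m ^ (a :: A).length * rootProd m t (a :: A) =
        (radius m * rootVar m t a) * (radius m ^ A.length * rootProd m t A) := by
      simp [rootProd, pow_succ]
      ring
    rw [this]
    exact one_le_mul_of_one_le_of_one_le h1 h2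

/-- The witness for degree `≤ D`. -/
theorem exists_witness (hm : ModelFacts m) (hB : MomentBound m) (hS : SeriesWitness) {t : ℝ}
    (ht : threshold m ≤ t) (g : Cube m) (D : ℕ) :
    ∃ ζ : Space m, ‖ζ‖ ≤ 1 / 3 ∧ ∀ J : List (Idx m), J.length ≤ D →
      ⟪ζ, psi m t J⟫_ℂ = ⟪zOp m (Sum.inr g) (omega m), psi m t J⟫_ℂ := by
  have ht0 : 0 < t := lt_of_lt_of_le (threshold_pos m) ht
  set y := zOp m (Sum.inr g) (omega m) with hy
  set c : List (Idx m) → ℝ := fun J => (⟪y, opWord (zOp m) J (omega m)⟫_ℂ).re with hc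
  have hlaw : ∀ J, ⟪y, opWord (zOp m) J (omega m)⟫_ℂ = law (omega m) (zOp m) (Sum.inr g :: J) := by
    intro J
    rw [law, opWord_cons_apply, hy, ← adjoint_inner_right, (hm.zOp_selfAdjoint _).adjoint_eq]
  have hcast : ∀ J, ((c J : ℝ) : ℂ) = ⟪y, opWord (zOp m) J (omega m)⟫_ℂ := by
    intro J
    apply Complex.ext <;> simp [hc, hlaw, hm.law_real]
  have hc0 : c [] = 0 := by simp [hc, hlaw, hm.law_conj g]
  have hm0 : zMom m [] = 1 := by simp [zMom, law_nil hm]
  have hmdeg : ∀ d, degNorm (zMom m) d ≤ momentBound m ^ d :=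
    degNorm_mom_le hB (norm_omega hm).le
  obtain ⟨ξ, hξ, hξnorm⟩ := hS (Idx m) (zMom m) c D (radius m) (radius_pos m) hm0 hc0
    (series_small _ hmdeg D)
    (series_small _ (degNorm_mom_le hB (hm.norm_conj g).le) D)
  set coef : List (Idx m) → ℝ := fun A => ξ A / rootProd m t A with hcoef
  have hprod : ∀ A, 0 < rootProd m t A := by
    intro A
    refine List.prod_pos fun a ha => ?_
    obtain ⟨j, -, rfl⟩ := List.mem_map.1 ha
    exact rootVar_pos ht0 j
  refine ⟨∑ d ∈ Finset.range (D + 1), ∑ A : Fin d → Idx m,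
      ((coef (List.ofFn A) : ℝ) : ℂ) • eVec m t (List.ofFn A), ?_, ?_⟩
  · refine le_trans (norm_sum_le _ _) (le_trans (Finset.sum_le_sum fun d _ => ?_) hξnorm)
    have horth : Orthonormal ℂ fun A : Fin d → Idx m => eVec m t (List.ofFn A) := by
      rw [orthonormal_iff_ite]
      intro A B
      rw [eVec_orthonormal hm ht0.le]
      simp [List.ofFn_inj]
    have hsq : ‖∑ A : Fin d → Idx m, ((coef (List.ofFn A) : ℝ) : ℂ) • eVec m t (List.ofFn A)‖ ^ 2
        = ∑ A : Fin d → Idx m, coef (List.ofFn A) ^ 2 := by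
      have := horth.inner_sum (fun A => ((coef (List.ofFn A) : ℝ) : ℂ))
        (fun A => ((coef (List.ofFn A) : ℝ) : ℂ)) Finset.univ
      rw [norm_sq_eq_re_inner (𝕜 := ℂ), this]
      simp [sq]
    have hle : ∀ A : Fin d → Idx m,
        coef (List.ofFn A) ^ 2 ≤ (radius m ^ d) ^ 2 * ξ (List.ofFn A) ^ 2 := by
      intro A
      have h1 := radius_pow_mul_rootProd ht (List.ofFn A)
      rw [List.length_ofFn] at h1
      have hp := hprod (List.ofFn A)
      rw [hcoef, div_pow, div_le_iff₀ (by positivity)]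
      nlinarith [mul_le_mul_of_nonneg_right (one_le_pow₀ h1 (n := 2))
        (sq_nonneg (ξ (List.ofFn A)))]
    have := Real.sqrt_le_sqrt (le_of_eq_of_le hsq
      (le_trans (Finset.sum_le_sum fun A _ => hle A) (le_of_eq (Finset.mul_sum ..).symm)))
    rw [Real.sqrt_sq (norm_nonneg _), Real.sqrt_mul (sq_nonneg _),
      Real.sqrt_sq (pow_nonneg (radius_pos m).le d)] at this
    exact this
  · intro J hJ
    rw [psi_expand (J := J), inner_add_right, inner_add_right]
    have hrest : ⟪y, ∑ p ∈ Finset.range J.length, psiTerm m t J p⟫_ℂ = 0 := by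
      rw [inner_sum]
      refine Finset.sum_eq_zero fun p _ => ?_
      rcases h : J[p]? with _ | b
      · simp [psiTerm, h]
      · simp only [psiTerm, h, inner_smul_right]
        have := vac_zWord_cre hm ht0.le b (J.take p) [Sum.inr g] (psi m t (J.drop (p + 1)))
        rw [opWord_cons_apply, opWord_nil_apply, ← hy] at this
        rw [this, mul_zero]
    rw [hrest, add_zero, ← inner_add_right, ← psi_expand, sum_inner, ← hcast, ← hξ J hJ,
      Complex.ofReal_sum]
    refine Finset.sum_congr rfl fun d _ => ?_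
    rw [sum_inner, Complex.ofReal_sum]
    refine Finset.sum_congr rfl fun A _ => ?_
    rw [inner_smul_left, inner_eVec_psi hm ht0.le, Complex.conj_ofReal, ← Complex.ofReal_mul]
    congr 1
    have := (hprod (List.ofFn A)).ne'
    rw [hcoef]
    field_simp

/-- **Key lemma**: for `t ≥ T`, a conjugate `y_S` has correlation at most `1/3` with
`L²(W*(X + √t S))`. -/
theorem weak_estimation (hm : ModelFacts m) (hB : MomentBound m) (hS : SeriesWitness) {t : ℝ}
    (ht : threshold m ≤ t) (g : Cube m) :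
    ∀ v ∈ L2 (omega m) (perturb (xOp m) (sOp m) t),
      ‖⟪zOp m (Sum.inr g) (omega m), v⟫_ℂ‖ ≤ 1 / 3 * ‖v‖ := by
  have ht0 : 0 < t := lt_of_lt_of_le (threshold_pos m) ht
  set y := zOp m (Sum.inr g) (omega m) with hy
  have hspan : ∀ D, ∀ v ∈ psiSpan m t D, ‖⟪y, v⟫_ℂ‖ ≤ 1 / 3 * ‖v‖ := by
    intro D v hv
    obtain ⟨ζ, hζ, heq⟩ := exists_witness hm hB hS ht g D
    have : ⟪ζ, v⟫_ℂ = ⟪y, v⟫_ℂ := by
      induction hv using Submodule.span_induction with
      | mem x hx =>
        obtain ⟨J, hJ, rfl⟩ := hx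
        exact heq J hJ
      | zero => simp
      | add a b _ _ ha hb => rw [inner_add_right, inner_add_right, ha, hb]
      | smul r a _ ha => rw [inner_smul_right, inner_smul_right, ha]
    rw [← this]
    exact le_trans (norm_inner_le_norm _ _) (mul_le_mul_of_nonneg_right hζ (norm_nonneg _))
  have hmono : ∀ {D E : ℕ}, D ≤ E → psiSpan m t D ≤ psiSpan m t E := fun h =>
    Submodule.span_mono (Set.image_mono fun J (hJ : J.length ≤ _) => le_trans hJ h)
  have hle : Submodule.span ℂ
      (Set.range fun w : List (Idx m) => opWord (perturb (xOp m) (sOp m) t) w (omega m)) ≤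
      ⨆ D, psiSpan m t D := by
    rw [Submodule.span_le]
    rintro _ ⟨w, rfl⟩
    exact Submodule.mem_iSup_of_mem w.length (word_mem_psiSpan hm ht0.le w)
  intro v hv
  have hclosed : IsClosed {x : Space m | ‖⟪y, x⟫_ℂ‖ ≤ 1 / 3 * ‖x‖} :=
    isClosed_le (by fun_prop) (by fun_prop)
  have hv' : v ∈ closure ((Submodule.span ℂ (Set.range fun w : List (Idx m) =>
      opWord (perturb (xOp m) (sOp m) t) w (omega m))) : Set (Space m)) := by
    rw [← Submodule.topologicalClosure_coe]
    exact hv
  refine closure_minimal (fun x hx => ?_) hclosed hv'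
  obtain ⟨D, hD⟩ :=
    (Submodule.mem_iSup_of_directed _ (Monotone.directed_le fun _ _ h => hmono h)).1 (hle hx)
  exact hspan D x hD

end Vale.Agent.P087
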