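import Vale.Agent.P087.LowerModel
import Vale.Agent.P087.ChiUpper
import Vale.Agent.P087.Gue.Moments
import Vale.Agent.P087.Gue.Norm

/-!
Finite entropy of the example: diagonal characters and Gaussian Hermitian matrices are microstates.
-/

namespace Vale.Agent.P087

open MeasureTheory ProbabilityTheory Filter
open scoped Topology ENNReal

variable {m : ℕ}

lemma cube_add_self (g : Cube m) : g + g = 0 := by
  funext i
  show g i + g i = 0
  generalize g i = a
  revert a; decide

/-- The size of the matrices. -/
abbrev kk (m n : ℕ) : ℕ := Fintype.card (Cube m × Fin (n + 1))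

/-- The diagonal character matrices. -/
noncomputable def charMat (m n : ℕ) (g : Cube m) : Matrix (Fin (kk m n)) (Fin (kk m n)) ℂ :=
  Matrix.diagonal fun i => charSign g ((Fintype.equivFin (Cube m × Fin (n + 1))).symm i).1

lemma charSign_zero (x : Cube m) : charSign 0 x = 1 := by simp [charSign]

lemma charSign_add (g h x : Cube m) : charSign (g + h) x = charSign g x * charSign h x := by
  simp only [charSign, Pi.add_apply, add_mul, Finset.sum_add_distrib]
  rw [ZMod.val_add, ← neg_one_pow_eq_pow_mod_two, pow_add]

lemma star_charSign (g x : Cube m) : star (charSign g x) = charSign g x := by simp [charSign]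

lemma norm_charSign (g x : Cube m) : ‖charSign g x‖ = 1 := by simp [charSign]

lemma charMat_conjTranspose (n : ℕ) (g : Cube m) : (charMat m n g).conjTranspose = charMat m n g := by
  rw [charMat, Matrix.diagonal_conjTranspose]
  congr 1
  funext i
  exact star_charSign _ _

lemma prod_charMat (n : ℕ) : ∀ u : List (Cube m), (u.map (charMat m n)).prod = charMat m n u.sum
  | [] => by simp [charMat, charSign_zero]
  | g :: u => by
    rw [List.map_cons, List.prod_cons, prod_charMat n u, charMat, charMat, Matrix.diagonal_mul_diagonal,
      List.sum_cons, charMat]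
    simp only [charSign_add]

lemma ntr_charMat (n : ℕ) (g : Cube m) :
    Gue.ntr (charMat m n g) = if g = 0 then 1 else 0 := by
  rw [Gue.ntr, charMat, Matrix.trace_diagonal,
    Equiv.sum_comp (Fintype.equivFin (Cube m × Fin (n + 1))).symm (fun p => charSign g p.1),
    Fintype.sum_prod_type]
  simp only [Finset.sum_const, Finset.card_univ, Fintype.card_fin, nsmul_eq_mul, ← Finset.mul_sum,
    sum_charSign]
  split_ifs with h
  · simp only [kk, Fintype.card_prod, Fintype.card_fun, ZMod.card, Fintype.card_fin]
    push_cast
    rw [mul_comm, div_self]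
    exact mul_ne_zero (pow_ne_zero _ two_ne_zero) (Nat.cast_add_one_ne_zero n)
  · simp

lemma genLaw_inl (u : List (Cube m)) :
    genLaw m (u.map Sum.inl) = if u.sum = 0 then 1 else 0 := by
  have e : (u.map (fun g => genOp m (Sum.inl g))).prod = lam u.sum := by
    induction u with
    | nil =>
      refine ContinuousLinearMap.ext fun v => lp.ext (funext fun x => ?_)
      simp [lam, pull_apply, transl]
    | cons g u ih =>
      rw [List.map_cons, List.prod_cons, ih, List.sum_cons]
      refine ContinuousLinearMap.ext fun v => lp.ext (funext fun x => ?_)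
      simp [genOp, lam, pull_apply, transl, add_comm, add_left_comm, add_assoc]
  show vacMom ((u.map Sum.inl).map (genOp m)).prod = _
  rw [List.map_map, show genOp m ∘ Sum.inl = fun g => genOp m (Sum.inl g) from rfl, e, mom_eq]
  simp [lam, pull_apply, transl, vac, ket_apply]

lemma sum_splits {A R : Type*} [AddCommMonoid R] (p : A → Bool) :
    ∀ (u : List A) (f : List A → List A → R),
      (((Gue.splits u).filter fun q => p q.2.1).map fun q => f q.1 q.2.2).sum
        = ∑ l : Fin u.length, if p u[l] then f (u.take l) (u.drop (l + 1)) else 0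
  | [], f => by simp [Gue.splits]
  | a :: u, f => by
    refine Eq.trans ?_ (Fin.sum_univ_succ (n := u.length) _).symm
    have ih := sum_splits p u fun x y => f (a :: x) y
    rw [Gue.splits, List.filter_cons, List.filter_map]
    simp only [Function.comp_def]
    by_cases h : p a = true <;>
      simp only [h, Bool.false_eq_true, if_true, if_false, List.map_cons, List.sum_cons, List.map_map,
        Function.comp_def, ih, Fin.val_zero, Fin.val_succ, List.take_zero, List.take_succ_cons,
        List.drop_succ_cons, List.drop_zero, zero_add] <;>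
      simp [h]

lemma isLimit_genLaw (m : ℕ) :
    Gue.IsLimit (fun n => Fin (kk m n)) (fun n => charMat m n) (genLaw m) := by
  have hmem : ∀ i, genOp m i ∈ alg := by
    rintro (g | c)
    exacts [lam_mem g, semi_mem _]
  refine ⟨?_, fun u => ?_, fun u v => mom_rotate cube_add_self hmem u v, fun j u => ?_⟩
  · refine tendsto_atTop_mono (fun n => ?_) tendsto_id
    simp only [kk, Fintype.card_fin, Fintype.card_prod, id]
    calc n ≤ 1 * (n + 1) := by omega
      _ ≤ _ := Nat.mul_le_mul_right _ Fintype.card_pos
  · simp only [prod_charMat, ntr_charMat, genLaw_inl]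
    exact tendsto_const_nhds
  · set κ : Gen m → ℂ := fun i => if Gue.hit j i then 1 else 0
    have hc : ∀ i, rann (j.map fun j => (false, j)) * genOp m i
        = genOp m i * rann (j.map fun j => (false, j)) + κ i • vacProj := by
      rintro (g | c)
      · simp [κ, Gue.hit, genOp, rann_mul_lam]
      · rw [genOp, rann_mul_semi]
        have hi : Function.Injective (Option.map fun j : Idx m => (false, j)) :=
          Option.map_injective fun a b h => (Prod.ext_iff.1 h).2
        simp only [κ, Gue.hit, hi.eq_iff, decide_eq_true_eq, @eq_comm _ c j]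
    show vacMom ((Sum.inr j :: u).map (genOp m)).prod = _
    rw [List.map_cons, List.prod_cons, show genOp m (Sum.inr j) = semi (j.map fun j => (false, j)) from rfl,
      sd_semi _ hc, sum_splits (Gue.hit j) u fun a b => genLaw m a * genLaw m b]
    refine Finset.sum_congr rfl fun l _ => ?_
    simp only [κ]
    split_ifs with h
    · rw [one_mul]; rfl
    · simp

section Microstate

variable (m) (n : ℕ)

/-- The Gaussian coordinates. -/
abbrev GVar := Option (Idx m) × Fin (kk m n) × Fin (kk m n)

variable {m}

/-- The coordinates of the random microstate: the main part. -/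
noncomputable def mainPart (y : Fin (kk m n) × Fin (kk m n) → ℝ) (j : Idx m) :
    EuclideanSpace ℝ (Fin (kk m n) × Fin (kk m n)) :=
  toCoord ((mainWord j).map (Sum.elim (charMat m n)
    (Gue.gue fun p : Option (Idx m) × Fin (kk m n) × Fin (kk m n) => y p.2))).prod

/-- The coordinates of the random microstate. -/
noncomputable def state (x : GVar m n → ℝ) (j : Idx m) :
    EuclideanSpace ℝ (Fin (kk m n) × Fin (kk m n)) :=
  mainPart n (fun p => x (none, p)) j +
    (Real.sqrt (noiseVar m j) / Real.sqrt (kk m n)) • WithLp.toLp 2 fun p => x (some j, p)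

variable {n}

lemma gue_none (x : GVar m n → ℝ) :
    Gue.gue (fun p : GVar m n => x (none, p.2)) none = Gue.gue x none := rfl

lemma matOf_state (x : GVar m n → ℝ) (j : Idx m) :
    matOf (state n x j) = combine (Sum.elim (charMat m n) (Gue.gue x)) j := by
  have hherm : ((mainWord j).map (Sum.elim (charMat m n) (Gue.gue x))).prod.conjTranspose
      = ((mainWord j).map (Sum.elim (charMat m n) (Gue.gue x))).prod := by
    rcases j with (l | u) | g <;>
      simp [mainWord, charMat_conjTranspose, Gue.gue_conjTranspose, Matrix.conjTranspose_mul,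
        Matrix.mul_assoc]
  have e : mainPart n (fun p => x (none, p)) j
      = toCoord ((mainWord j).map (Sum.elim (charMat m n) (Gue.gue x))).prod := by
    rcases j with (l | u) | g <;> simp [mainPart, mainWord, gue_none]
  rw [state, e, combine]
  conv_rhs => rw [← matOf_toCoord hherm]
  ext a b
  simp only [matOf, PiLp.add_apply, PiLp.smul_apply, smul_eq_mul, Complex.ofReal_add,
    Complex.ofReal_mul, Complex.ofReal_div, Matrix.add_apply, Matrix.smul_apply, Sum.elim_inr,
    Gue.gue, Gue.scale, Gue.cA, Gue.cB, Fintype.card_fin, Complex.ofReal_inv]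
  ring

lemma measurable_state : Measurable (state (m := m) n) := by
  refine (continuous_pi fun j => ?_).measurable
  have h1 : Continuous fun x : GVar m n → ℝ =>
      ((mainWord j).map (Sum.elim (charMat m n)
        (Gue.gue fun p : GVar m n => x (none, p.2)))).prod := by
    refine continuous_list_prod _ fun a _ => ?_
    rcases a with g | c
    · exact continuous_const
    · refine continuous_matrix fun a b => ?_
      simp only [Sum.elim_inr, Gue.gue]
      fun_prop
  unfold state mainPart toCoord
  fun_prop

/-- The law of the microstate has bounded density. -/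
lemma map_state_le :
    (Gue.gauss (GVar m n)).map (state n) ≤ ENNReal.ofReal (∏ j,
      ((kk m n : ℝ) / (2 * Real.pi * noiseVar m j)) ^ ((kk m n : ℝ) ^ 2 / 2)) • volume := by
  set k := kk m n
  have hk : (0 : ℝ) < k := by exact_mod_cast Fintype.card_pos
  have hσ : ∀ j, 0 < noiseVar m j := by
    rintro (i | g) <;> simp [noiseVar, smallVar]
  set ρ : Measure (Fin k × Fin k → ℝ) := Measure.pi fun _ => gaussianReal 0 1
  have hf : Measurable (mainPart (m := m) n) := by
    have : mainPart (m := m) n = fun y j =>
        mainPart n (fun p => (fun q : GVar m n => y q.2) (none, p)) j := rfl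
    refine (continuous_pi fun j => ?_).measurable
    have h1 : Continuous fun y : Fin k × Fin k → ℝ => ((mainWord j).map (Sum.elim (charMat m n)
        (Gue.gue fun p : GVar m n => y p.2))).prod := by
      refine continuous_list_prod _ fun a _ => ?_
      rcases a with g | c
      · exact continuous_const
      · refine continuous_matrix fun a b => ?_
        simp only [Sum.elim_inr, Gue.gue]
        fun_prop
    unfold mainPart toCoord
    fun_prop
  let Φ : (GVar m n → ℝ) → (Fin k × Fin k → ℝ) × (Idx m → EuclideanSpace ℝ (Fin k × Fin k)) :=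
    fun x => (fun p => x (none, p), fun j => WithLp.toLp 2 fun p => x (some j, p))
  have hΦ : (Gue.gauss (GVar m n)).map Φ = ρ.prod (stdTuple (Idx m) k) := by
    have h1 : (Gue.gauss (GVar m n)).map (MeasurableEquiv.curry (Option (Idx m)) (Fin k × Fin k) ℝ)
        = Measure.pi fun _ => ρ := by
      have := Measure.infinitePi_map_curry (fun (_ : Option (Idx m)) (_ : Fin k × Fin k) => gaussianReal 0 1)
      simpa only [Measure.infinitePi_eq_pi, Gue.gauss] using this
    have h2 := Measure.pi_map_piOptionEquivProd (fun _ : Option (Idx m) => ρ)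
    rw [MeasurableEquiv.map_apply_eq_iff_map_symm_apply_eq] at h2
    have hp : ∀ _ : Idx m, IsProbabilityMeasure (ρ.map (WithLp.toLp 2)) := fun _ =>
      Measure.isProbabilityMeasure_map (by fun_prop)
    have h3 : (Measure.pi fun _ : Idx m => ρ).map (fun z j => WithLp.toLp 2 (z j))
        = stdTuple (Idx m) k := by
      rw [Measure.pi_map_pi fun _ => by fun_prop]
      rfl
    rw [show Φ = (fun q => (q.2, fun j => WithLp.toLp 2 (q.1 j))) ∘
        (MeasurableEquiv.piOptionEquivProd fun _ : Option (Idx m) => Fin k × Fin k → ℝ) ∘
          (MeasurableEquiv.curry (Option (Idx m)) (Fin k × Fin k) ℝ) from rfl,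
      ← Measure.map_map (by fun_prop) (by fun_prop), ← Measure.map_map (by fun_prop) (by fun_prop), h1]
    rw [show (Measure.pi fun _ : Option (Idx m) => ρ).map
      (MeasurableEquiv.piOptionEquivProd fun _ : Option (Idx m) => Fin k × Fin k → ℝ)
        = (Measure.pi fun _ : Idx m => ρ).prod ρ from h2.symm,
      show (fun q : (Idx m → Fin k × Fin k → ℝ) × (Fin k × Fin k → ℝ) =>
          (q.2, fun j => WithLp.toLp 2 (q.1 j))) = Prod.map id (fun z j => WithLp.toLp 2 (z j)) ∘ Prod.swap
        from rfl,
      ← Measure.map_map (by fun_prop) measurable_swap, Measure.prod_swap,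
      ← Measure.map_prod_map _ _ measurable_id (by fun_prop), Measure.map_id, h3]
  have hstate : state n = (fun p : (Fin k × Fin k → ℝ) × (Idx m → EuclideanSpace ℝ (Fin k × Fin k)) =>
      fun j => mainPart n p.1 j + (Real.sqrt (noiseVar m j) / Real.sqrt k) • p.2 j) ∘ Φ := rfl
  rw [hstate, ← Measure.map_map (by fun_prop) (by fun_prop), hΦ]
  refine (map_shift_scale_le ρ hf fun j => by have := hσ j; positivity).trans (le_of_eq ?_)
  congr 1
  rw [ENNReal.ofReal_prod_of_nonneg fun j _ => by have := hσ j; positivity,
    pow_mul', ← Finset.card_univ, ← Finset.prod_const, ← Finset.prod_mul_distrib]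
  refine Finset.prod_congr rfl fun j _ => ?_
  have hs := hσ j
  rw [← ENNReal.ofReal_pow (by positivity), ← ENNReal.ofReal_mul (by positivity), ← inv_pow, ← mul_pow]
  congr 1
  have e : (Real.sqrt (2 * Real.pi))⁻¹ * (Real.sqrt (noiseVar m j) / Real.sqrt k)⁻¹
      = Real.sqrt ((k : ℝ) / (2 * Real.pi * noiseVar m j)) := by
    rw [Real.sqrt_div' _ (by positivity), Real.sqrt_mul (by positivity : (0:ℝ) ≤ 2 * Real.pi)]
    field_simp
  rw [e, Real.sqrt_eq_rpow, ← Real.rpow_natCast, ← Real.rpow_mul (by positivity)]
  congr 1
  push_cast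
  ring

end Microstate

/-- The example has finite microstates entropy. -/
theorem chi_lower (m : ℕ) : ⊥ < chi (law (omega m) (xOp m)) := by
  classical
  refine bot_lt_chi_of_measures _ (R := 28) (by norm_num) (σ := noiseVar m)
    (by rintro (i | g) <;> simp [noiseVar, smallVar]) fun d ε hε => ?_
  set words : Finset (List (Idx m)) := (Finset.range (d + 1)).biUnion fun l =>
    (Finset.univ : Finset (Fin l → Idx m)).image List.ofFn
  have hwords : ∀ w : List (Idx m), w.length ≤ d → w ∈ words := fun w hw =>
    Finset.mem_biUnion.2 ⟨w.length, Finset.mem_range.2 (by omega),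
      Finset.mem_image.2 ⟨w.get, Finset.mem_univ _, List.ofFn_get w⟩⟩
  set W : Finset (List (Gen m)) := words.biUnion fun w => ((expand w).map Prod.snd).toFinset
  set δ := ε / (∑ w ∈ words, mass w + 1) with hδ
  have hmass : ∀ w : List (Idx m), 0 ≤ mass w := fun w =>
    List.sum_nonneg fun a ha => by
      obtain ⟨q, -, rfl⟩ := List.mem_map.1 ha
      exact norm_nonneg _
  have hsum : 0 ≤ ∑ w ∈ words, mass w := Finset.sum_nonneg fun w _ => hmass w
  have hδ0 : 0 < δ := by positivity
  have hlim := isLimit_genLaw m
  have h1 := Gue.tendsto_prob hlim (st := id) (fun n g => (charMat_conjTranspose n g).symm) W hδ0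
  have h2 := Gue.tendsto_prob_norm (ι := Option (Idx m)) (κ := fun n => Fin (kk m n)) hlim.card
  have hk : Tendsto (fun n => kk m n) atTop atTop := by simpa using hlim.card
  refine hk.frequently (Eventually.frequently ?_)
  filter_upwards [h1.eventually (eventually_ge_nhds (show (4 / 5 : ℝ) < 1 by norm_num)),
    h2.eventually (eventually_ge_nhds (show (4 / 5 : ℝ) < 1 by norm_num))] with n hn1 hn2
  refine ⟨(Gue.gauss (GVar m n)).map (state n), ?_, map_state_le⟩
  set μ := Gue.gauss (GVar m n)
  set G := {x : GVar m n → ℝ | ∀ w ∈ W,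
    ‖Gue.ntr (Gue.wordMat (charMat m n) x w) - genLaw m w‖ < δ}
  set B := {x : GVar m n → ℝ |
    ∀ j, ‖Matrix.toEuclideanCLM (𝕜 := ℂ) (Gue.gue x j)‖ ≤ 14}
  have hG : MeasurableSet G := by
    rw [show G = ⋂ w ∈ W, {x | ‖Gue.ntr (Gue.wordMat (charMat m n) x w) - genLaw m w‖ < δ} by
      ext; simp [G]]
    exact Finset.measurableSet_biInter W fun w _ => measurableSet_lt
      ((Gue.measurable_ntr_wordMat _ w).sub_const _).norm measurable_const
  have hGB : (1 / 2 : ℝ) ≤ μ.real (G ∩ B) := by
    have h := measureReal_inter_add_sdiff (μ := μ) (s := B) (t := G) hG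
    have hd : μ.real (B \ G) ≤ μ.real Gᶜ := measureReal_mono fun x hx => hx.2
    rw [probReal_compl_eq_one_sub hG] at hd
    rw [Set.inter_comm]
    linarith
  have hsub : G ∩ B ⊆ state n ⁻¹' microstates (law (omega m) (xOp m)) 28 d (kk m n) ε := by
    rintro x ⟨hxG, hxB⟩
    refine ⟨fun j => ?_, fun w hw1 hw2 => ?_⟩
    · rw [matOf_state]
      have hD : ∀ g, ‖Matrix.toEuclideanCLM (𝕜 := ℂ) (charMat m n g)‖ ≤ 1 := fun g =>
        ContinuousLinearMap.opNorm_le_bound _ zero_le_one fun v => le_of_eq (by
          simp [EuclideanSpace.norm_eq, charMat, Matrix.mulVec_diagonal,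
            Matrix.ofLp_toEuclideanCLM, norm_charSign])
      have hmain : ‖Matrix.toEuclideanCLM (𝕜 := ℂ)
          ((mainWord j).map (Sum.elim (charMat m n) (Gue.gue x))).prod‖ ≤ 14 := by
        rcases j with (l | u) | g
        · simpa [mainWord] using (hD _).trans (by norm_num)
        · simpa [mainWord] using hxB none
        · simp only [mainWord, List.map_cons, List.map_nil, List.prod_cons, List.prod_nil, mul_one,
            map_mul, Sum.elim_inl, Sum.elim_inr]
          refine (norm_mul_le _ _).trans ((mul_le_mul (hD g) ((norm_mul_le _ _).trans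
            (mul_le_mul (hxB none) (hD g) (norm_nonneg _) (by norm_num))) (norm_nonneg _)
              zero_le_one).trans (by norm_num))
      have hs : Real.sqrt (noiseVar m j) ≤ 1 := by
        rw [Real.sqrt_le_one]
        rcases j with i | g
        · exact inv_le_one_of_one_le₀ (one_le_pow₀ (one_le_pow₀ one_le_two))
        · exact le_rfl
      rw [combine, map_add, map_smul]
      refine (norm_add_le _ _).trans ?_
      rw [norm_smul, Complex.norm_real, Real.norm_of_nonneg (Real.sqrt_nonneg _)]
      have := mul_le_mul hs (hxB (some j)) (norm_nonneg _) zero_le_one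
      rw [Sum.elim_inr]
      linarith
    · have hA : (w.map fun j => matOf (state n x j)).prod
          = (w.map (combine (Sum.elim (charMat m n) (Gue.gue x)))).prod := by
        simp only [matOf_state]
      rw [hA]
      refine (ntr_combine_sub_le _ w (δ := δ) fun q hq => ?_).trans_lt ?_
      · have hqW : q.2 ∈ W := Finset.mem_biUnion.2 ⟨w, hwords w hw2,
          List.mem_toFinset.2 (List.mem_map_of_mem hq)⟩
        have := hxG q.2 hqW
        simp only [Gue.ntr, Fintype.card_fin] at this
        exact this.le
      · have hle : mass w ≤ ∑ v ∈ words, mass v :=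
          Finset.single_le_sum (fun v _ => hmass v) (hwords w hw2)
        calc mass w * δ < (∑ v ∈ words, mass v + 1) * δ :=
              mul_lt_mul_of_pos_right (by linarith) hδ0
          _ = ε := by rw [hδ]; field_simp
  calc (2⁻¹ : ℝ≥0∞) ≤ μ (G ∩ B) := by
        rw [← ofReal_measureReal, show (2⁻¹ : ℝ≥0∞) = ENNReal.ofReal (1 / 2) by
          rw [one_div, ENNReal.ofReal_inv_of_pos two_pos, ENNReal.ofReal_ofNat]]
        exact ENNReal.ofReal_le_ofReal hGB
    _ ≤ μ (state n ⁻¹' microstates (law (omega m) (xOp m)) 28 d (kk m n) ε) := measure_mono hsub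
    _ ≤ _ := Measure.le_map_apply measurable_state.aemeasurable _

end Vale.Agent.P087
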