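import Vale.Agent.P087.Reduction
import Vale.Agent.P087.LowerGlue

/-!
# P087: the microstates and non-microstates free entropies differ
-/

namespace Vale.Agent.P087

theorem counterexample : Counterexample :=
  counterexample_of_low (chi_lower 100)

end Vale.Agent.P087
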