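import Vale.Agent.P087.Estimation

/-!
# P087: the lower bound on `χ*`
-/

namespace Vale.Agent.P087

open scoped InnerProductSpace ENNReal
open MeasureTheory ContinuousLinearMap

variable {m : ℕ}

instance completeSpace_L2 {ι H : Type*} [NormedAddCommGroup H] [InnerProductSpace ℂ H]
    [CompleteSpace H] (Ω : H) (X : ι → H →L[ℂ] H) : CompleteSpace (L2 Ω X) :=
  (Submodule.isClosed_topologicalClosure _).completeSpace_coe

theorem word_mem_L2 {ι H : Type*} [NormedAddCommGroup H] [InnerProductSpace ℂ H]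
    (Ω : H) (X : ι → H →L[ℂ] H) (w : List ι) : opWord X w Ω ∈ L2 Ω X :=
  Submodule.le_topologicalClosure _ (Submodule.subset_span ⟨w, rfl⟩)

theorem smallVar_pos (m : ℕ) : 0 < smallVar m := by
  unfold smallVar
  positivity

theorem smallVar_le_one (m : ℕ) : smallVar m ≤ 1 := by
  unfold smallVar
  exact inv_le_one_of_one_le₀ (one_le_pow₀ (one_le_pow₀ (by norm_num)))

theorem noiseVar_pos (m : ℕ) (j : Idx m) : 0 < noiseVar m j := by
  rcases j with j | j
  · exact smallVar_pos m
  · exact one_pos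

theorem norm_mixCre_omega (hm : ModelFacts m) {t : ℝ} (ht : 0 ≤ t) (j : Idx m) :
    ‖mixCre m t j (omega m)‖ = 1 := by
  have h := eVec_orthonormal hm ht [j] [j]
  rw [if_pos rfl, eVec, opWord_cons_apply, opWord_nil_apply] at h
  rw [← sq_eq_sq₀ (norm_nonneg _) zero_le_one, norm_sq_eq_re_inner (𝕜 := ℂ), h]
  simp

/-- The candidate conjugate variable. -/
noncomputable def conjVec (m : ℕ) (t : ℝ) (j : Idx m) : Space m :=
  ((rootVar m t j)⁻¹ : ℝ) •
    (L2 (omega m) (perturb (xOp m) (sOp m) t)).starProjection (mixCre m t j (omega m))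

theorem conjVec_isConjugate (hm : ModelFacts m) {t : ℝ} (ht : 0 ≤ t) (j : Idx m) :
    IsConjugate (omega m) (perturb (xOp m) (sOp m) t) j (conjVec m t j) := by
  refine ⟨?_, fun w => ?_⟩
  · exact Submodule.smul_of_tower_mem _ _ (Submodule.starProjection_apply_mem _ _)
  · have hs : 0 < rootVar m t j := Real.sqrt_pos.2 (by linarith [noiseVar_pos m j])
    have hproj := Submodule.starProjection_inner_eq_zero
      (K := L2 (omega m) (perturb (xOp m) (sOp m) t)) (mixCre m t j (omega m))
      _ (word_mem_L2 (omega m) (perturb (xOp m) (sOp m) t) w)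
    rw [inner_sub_left, sub_eq_zero] at hproj
    rw [conjVec, RCLike.real_smul_eq_coe_smul (K := ℂ), inner_smul_left, ← hproj,
      hm.schwingerDyson t ht j w]
    simp only [Complex.coe_algebraMap, Complex.conj_ofReal]
    rw [← mul_assoc, ← Complex.ofReal_mul]
    rw [show (rootVar m t j)⁻¹ * Real.sqrt (noiseVar m j + t) = 1 by
      rw [← rootVar]; exact inv_mul_cancel₀ hs.ne']
    simp

theorem norm_conjVec_sq_le (hm : ModelFacts m) {t : ℝ} (ht : 0 ≤ t) (j : Idx m) :
    ‖conjVec m t j‖ ^ 2 ≤ 1 / (noiseVar m j + t) := by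
  have hs : 0 < noiseVar m j + t := by linarith [noiseVar_pos m j]
  rw [conjVec, norm_smul, mul_pow, Real.norm_eq_abs, sq_abs, inv_pow, rootVar,
    Real.sq_sqrt hs.le, one_div]
  refine mul_le_of_le_one_right (by positivity) ?_
  refine pow_le_one₀ (norm_nonneg _) ?_
  exact le_trans (Submodule.norm_starProjection_apply_le _ _) (norm_mixCre_omega hm ht j).le

theorem norm_conjVec_sq_le_conj (hm : ModelFacts m) (hB : MomentBound m) (hS : SeriesWitness)
    {t : ℝ} (ht : threshold m ≤ t) (g : Cube m) :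
    ‖conjVec m t (Sum.inr g)‖ ^ 2 ≤ 1 / (1 + t) - (1 / 2) / (1 + t) ^ 2 := by
  have ht0 : 0 < t := lt_of_lt_of_le (threshold_pos m) ht
  set K := L2 (omega m) (perturb (xOp m) (sOp m) t) with hK
  set y := zOp m (Sum.inr g) (omega m) with hy
  set e := mixCre m t (Sum.inr g) (omega m) with he
  set x := perturb (xOp m) (sOp m) t (Sum.inr g) (omega m) with hx
  have hroot : rootVar m t (Sum.inr g) = Real.sqrt (1 + t) := rfl
  have hr : (0 : ℝ) < Real.sqrt (1 + t) := Real.sqrt_pos.2 (by linarith)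
  have hvac : (mixCre m t (Sum.inr g)).adjoint (omega m) = 0 := by
    have := hm.concat_vac t ht0.le (Sum.inr g) []
    rwa [opWord_nil_apply] at this
  have hxe : x = y + ((Real.sqrt (1 + t) : ℝ) : ℂ) • e := by
    rw [hx, hm.perturb_eq t ht0.le]
    simp only [add_apply, smul_apply, hvac, smul_add, smul_zero, add_zero, noiseVar, hy, he]
  have hey : ⟪y, e⟫_ℂ = 0 := by
    have := vac_zWord_cre hm ht0.le (Sum.inr g) [] [Sum.inr g] (omega m)
    rwa [opWord_cons_apply, opWord_nil_apply, opWord_nil_apply] at this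
  have hxK : K.starProjection x = x := by
    refine Submodule.starProjection_eq_self_iff.2 ?_
    have := word_mem_L2 (omega m) (perturb (xOp m) (sOp m) t) [Sum.inr g]
    rwa [opWord_cons_apply, opWord_nil_apply] at this
  have hPe : ((Real.sqrt (1 + t) : ℝ) : ℂ) • K.starProjection e = x - K.starProjection y := by
    rw [← map_smul, eq_sub_iff_add_eq', ← map_add, ← hxe, hxK]
  have hPy : ‖K.starProjection y‖ ≤ 1 / 3 := by
    have h1 := weak_estimation hm hB hS ht g _ (K.starProjection_apply_mem y)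
    have h2 : ⟪y, K.starProjection y⟫_ℂ = ⟪K.starProjection y, K.starProjection y⟫_ℂ := by
      have := Submodule.starProjection_inner_eq_zero (K := K) y _ (K.starProjection_apply_mem y)
      rw [inner_sub_left, sub_eq_zero] at this
      exact this
    rw [h2, ← norm_inner_symm, inner_self_eq_norm_sq_to_K] at h1
    simp at h1
    nlinarith [norm_nonneg (K.starProjection y)]
  have hxx : ‖x‖ ^ 2 = 1 + (1 + t) := by
    rw [hxe, @norm_add_sq ℂ, inner_smul_right, hey, norm_smul, he,
      norm_mixCre_omega hm ht0.le, hy, hm.norm_conj g]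
    simp [Real.sq_sqrt (show (0 : ℝ) ≤ 1 + t by linarith)]
  have hxy : RCLike.re ⟪x, K.starProjection y⟫_ℂ = 1 := by
    rw [← Submodule.inner_starProjection_left_eq_right, hxK, hxe, inner_add_left,
      inner_smul_left, ← inner_conj_symm e y, hey, inner_self_eq_norm_sq_to_K, hy,
      hm.norm_conj g]
    simp
  have hsq : (1 + t) * ‖K.starProjection e‖ ^ 2 ≤ (1 + t) - 1 / 2 := by
    have := congrArg (fun v : Space m => ‖v‖ ^ 2) hPe
    beta_reduce at this
    rw [norm_smul, mul_pow, Complex.norm_real, Real.norm_eq_abs, sq_abs,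
      Real.sq_sqrt (by linarith), @norm_sub_sq ℂ, hxx, hxy] at this
    rw [this]
    nlinarith [norm_nonneg (K.starProjection y)]
  rw [conjVec, norm_smul, mul_pow, Real.norm_eq_abs, sq_abs, inv_pow, hroot,
    Real.sq_sqrt (by linarith)]
  have h1t : (0 : ℝ) < 1 + t := by linarith
  rw [inv_mul_le_iff₀ h1t]
  calc ‖K.starProjection e‖ ^ 2 ≤ ((1 + t) - 1 / 2) / (1 + t) :=
        (le_div_iff₀' h1t).2 hsq
    _ = (1 + t) * (1 / (1 + t) - 1 / 2 / (1 + t) ^ 2) := by field_simp

theorem fisherAt_le (hm : ModelFacts m) {t : ℝ} (ht : 0 ≤ t) (j : Idx m) :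
    fisherAt (omega m) (perturb (xOp m) (sOp m) t) j ≤
      ENNReal.ofReal (‖conjVec m t j‖ ^ 2) :=
  iInf₂_le (conjVec m t j) (conjVec_isConjugate hm ht j)

/-- The pointwise upper bound on `Φ*`. -/
noncomputable def fisherUpper (m : ℕ) (t : ℝ) : ℝ :=
  (m + 1) / (smallVar m + t) + (2 : ℝ) ^ m *
    (1 / (1 + t) - if threshold m ≤ t then (1 / 2) / (1 + t) ^ 2 else 0)

theorem fisher_le (hm : ModelFacts m) (hB : MomentBound m) (hS : SeriesWitness) {t : ℝ}
    (ht : 0 < t) :
    fisher (omega m) (perturb (xOp m) (sOp m) t) ≤ ENNReal.ofReal (fisherUpper m t) := by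
  refine le_trans (Finset.sum_le_sum fun j _ => fisherAt_le hm ht.le j) ?_
  rw [← ENNReal.ofReal_sum_of_nonneg (fun j _ => by positivity)]
  refine ENNReal.ofReal_le_ofReal ?_
  rw [Fintype.sum_sum_type, fisherUpper]
  refine add_le_add ?_ ?_
  · refine le_trans (Finset.sum_le_card_nsmul _ _ (1 / (smallVar m + t)) fun j _ => ?_) ?_
    · exact norm_conjVec_sq_le hm ht.le (Sum.inl j)
    · simp [div_eq_mul_inv]
  · refine le_trans (Finset.sum_le_card_nsmul _ _
      (1 / (1 + t) - if threshold m ≤ t then (1 / 2) / (1 + t) ^ 2 else 0) fun g _ => ?_) ?_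
    · split_ifs with h
      · exact norm_conjVec_sq_le_conj hm hB hS h g
      · rw [sub_zero]
        exact norm_conjVec_sq_le hm ht.le (Sum.inr g)
    · simp [Cube]

end Vale.Agent.P087
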