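import Mathlib

/-!
# Operators on `ℓ²` given by injections of the index set
-/

noncomputable section

set_option linter.unusedSectionVars false

open scoped InnerProductSpace lp

namespace Vale.Agent.P087

open ContinuousLinearMap

variable {B : Type} [DecidableEq B]

/-- The complex Hilbert space over an index set. -/
abbrev Ell2 (B : Type) := lp (fun _ : B => ℂ) 2

/-- A basis vector. -/
def ket (x : B) : Ell2 B := lp.single 2 x 1

theorem ket_apply (x y : B) : ket x y = if y = x then 1 else 0 := by
  simp [ket, lp.single_apply, Pi.single_apply]

theorem inner_ket (x : B) (v : Ell2 B) : ⟪ket x, v⟫_ℂ = v x := by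
  simp [ket, lp.inner_single_left]

theorem norm_ket (x : B) : ‖ket x‖ = 1 := by
  simp [ket]

theorem ext_ket {T S : Ell2 B →L[ℂ] Ell2 B} (h : ∀ x, T (ket x) = S (ket x)) : T = S := by
  refine ContinuousLinearMap.ext fun v => ?_
  have hs : ∀ x, lp.single 2 x (v x) = v x • ket x := fun x => by
    rw [ket, ← lp.single_smul]; simp
  have hv : HasSum (fun x => v x • ket x) v := by
    simpa only [hs] using lp.hasSum_single (by norm_num) v
  refine (hv.mapL T).unique ?_
  simpa only [map_smul, h] using hv.mapL S

theorem memℓp_comp {f : B → B} (hf : Function.Injective f) (v : Ell2 B) :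
    Memℓp (fun x => v (f x)) 2 :=
  memℓp_gen (((lp.memℓp v).summable (by norm_num)).comp_injective hf)

/-- Composition with an injection, as a linear map. -/
def pullLin (f : B → B) (hf : Function.Injective f) : Ell2 B →ₗ[ℂ] Ell2 B where
  toFun v := ⟨fun x => v (f x), memℓp_comp hf v⟩
  map_add' _ _ := by ext; rfl
  map_smul' _ _ := by ext; rfl

/-- Composition with an injection. -/
def pull (f : B → B) (hf : Function.Injective f) : Ell2 B →L[ℂ] Ell2 B :=
  (pullLin f hf).mkContinuous 1 fun v => by
    rw [one_mul]
    refine lp.norm_le_of_forall_sum_le (by norm_num) (norm_nonneg v) fun s => ?_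
    have h := lp.sum_rpow_le_norm_rpow (by norm_num) v (s.image f)
    rwa [Finset.sum_image fun a _ b _ e => hf e] at h

theorem pull_apply (f : B → B) (hf : Function.Injective f) (v : Ell2 B) (x : B) :
    pull f hf v x = v (f x) := rfl

theorem norm_pull_le (f : B → B) (hf : Function.Injective f) : ‖pull f hf‖ ≤ 1 :=
  LinearMap.mkContinuous_norm_le _ zero_le_one _

/-- The adjoint of a composition: it moves basis vectors along the injection. -/
def push (f : B → B) (hf : Function.Injective f) : Ell2 B →L[ℂ] Ell2 B := adjoint (pull f hf)

theorem push_apply (f : B → B) (hf : Function.Injective f) (v : Ell2 B) (x : B) :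
    push f hf v x = ⟪pull f hf (ket x), v⟫_ℂ := by
  rw [← inner_ket, push, adjoint_inner_right]

theorem push_apply_image (f : B → B) (hf : Function.Injective f) (v : Ell2 B) (y : B) :
    push f hf v (f y) = v y := by
  rw [push_apply, show pull f hf (ket (f y)) = ket y from lp.ext (funext fun z => by
    simp [pull_apply, ket_apply, hf.eq_iff]), inner_ket]

theorem push_apply_of_not_mem {f : B → B} (hf : Function.Injective f) (v : Ell2 B) {x : B}
    (hx : ∀ y, f y ≠ x) : push f hf v x = 0 := by
  rw [push_apply, show pull f hf (ket x) = 0 from lp.ext (funext fun z => by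
    simp [pull_apply, ket_apply, hx z]), inner_zero_left]

theorem push_ket (f : B → B) (hf : Function.Injective f) (y : B) :
    push f hf (ket y) = ket (f y) := by
  refine lp.ext (funext fun x => ?_)
  by_cases hx : ∃ z, f z = x
  · obtain ⟨z, rfl⟩ := hx
    simp [push_apply_image, ket_apply, hf.eq_iff]
  · push Not at hx
    simp [push_apply_of_not_mem hf _ hx, ket_apply, (hx y).symm]

theorem adjoint_push (f : B → B) (hf : Function.Injective f) :
    adjoint (push f hf) = pull f hf := adjoint_adjoint _

theorem pull_push (f : B → B) (hf : Function.Injective f) : pull f hf * push f hf = 1 := by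
  ext v x
  simp [pull_apply, push_apply_image]

theorem pull_push_of_disjoint {f g : B → B} (hf : Function.Injective f) (hg : Function.Injective g)
    (h : ∀ x y, g y ≠ f x) : pull f hf * push g hg = 0 := by
  ext v x
  simp [pull_apply, push_apply_of_not_mem hg v (h x)]

theorem pull_comm {f g : B → B} (hf : Function.Injective f) (hg : Function.Injective g)
    (h : ∀ x, f (g x) = g (f x)) : pull f hf * pull g hg = pull g hg * pull f hf := by
  ext v x
  simp [pull_apply, h]

theorem push_comm {f g : B → B} (hf : Function.Injective f) (hg : Function.Injective g)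
    (h : ∀ x, f (g x) = g (f x)) : push f hf * push g hg = push g hg * push f hf := by
  refine ext_ket fun x => ?_
  simp [push_ket, h]

theorem pull_push_comm {f g : B → B} (hf : Function.Injective f) (hg : Function.Injective g)
    (h : ∀ x, f (g x) = g (f x)) (hr : ∀ x y, g y = f x → ∃ z, g z = x) :
    pull f hf * push g hg = push g hg * pull f hf := by
  ext v x
  show push g hg v (f x) = push g hg (pull f hf v) x
  by_cases hx : ∃ y, g y = x
  · obtain ⟨y, rfl⟩ := hx
    rw [push_apply_image, h, push_apply_image, pull_apply]
  · rw [push_apply_of_not_mem hg v fun y e => hx (hr x y e),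
      push_apply_of_not_mem hg _ fun y e => hx ⟨y, e⟩]

theorem adjoint_pull_involutive (f : B → B) (hf : Function.Involutive f) :
    adjoint (pull f hf.injective) = pull f hf.injective := by
  refine ext_ket fun x => lp.ext (funext fun y => ?_)
  show push f hf.injective (ket x) y = _
  rw [push_ket]
  simp [pull_apply, ket_apply, hf.eq_iff]

end Vale.Agent.P087
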