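import Vale.Agent.P087.Defs
import Vale.Agent.P087.PullOp

/-!
# A Fock model for a finite group of exponent two and free semicircular elements

Basis `(g₀, [(c₁, g₁), …])`, the word `g₀ c₁ g₁ c₂ g₂ …`. The vacuum state is tracial on the algebra
of the translations and the semicircular elements, which satisfies the Schwinger-Dyson equations.
-/

noncomputable section

set_option linter.unusedSectionVars false

open scoped InnerProductSpace lp

namespace Vale.Agent.P087

open ContinuousLinearMap

variable (G C : Type)

/-- The index set of the Fock basis. -/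
abbrev Basis := G × List (C × G)

/-- The Fock space. -/
abbrev Fock := Ell2 (Basis G C)

/-- The bounded operators of the Fock space. -/
abbrev Op := Fock G C →L[ℂ] Fock G C

variable {G C} [AddCommGroup G] [DecidableEq G] [DecidableEq C]

/-- The vacuum vector. -/
def vac : Fock G C := ket ((0 : G), [])

/-- The vacuum state. -/
def vacMom (T : Op G C) : ℂ := ⟪vac, T vac⟫_ℂ

/-- Translation of the first group slot. -/
def transl (g : G) (x : Basis G C) : Basis G C := (g + x.1, x.2)

/-- Prepending a colour. -/
def pcons (c : C) (x : Basis G C) : Basis G C := (0, (c, x.1) :: x.2)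

/-- Appending a colour. -/
def rsnoc (c : C) (x : Basis G C) : Basis G C := (x.1, x.2 ++ [(c, 0)])

/-- Translation in a list of slots, at the last one. -/
def addLast (h : G) : List (C × G) → List (C × G)
  | [] => []
  | [a] => [(a.1, a.2 + h)]
  | a :: b :: L => a :: addLast h (b :: L)

/-- Translation of the last group slot. -/
def rtransl (h : G) : Basis G C → Basis G C
  | (g, []) => (g + h, [])
  | (g, a :: L) => (g, addLast h (a :: L))

theorem transl_injective (g : G) : Function.Injective (transl (C := C) g) := fun x y e => by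
  simpa [transl, Prod.ext_iff] using e

theorem pcons_injective (c : C) : Function.Injective (pcons (G := G) c) := fun x y e => by
  simpa [pcons, Prod.ext_iff] using e

theorem rsnoc_injective (c : C) : Function.Injective (rsnoc (G := G) c) := fun x y e => by
  simpa [rsnoc, Prod.ext_iff] using e

theorem addLast_ne_nil (h : G) (a : C × G) (L : List (C × G)) : addLast h (a :: L) ≠ [] := by
  cases L <;> simp [addLast]

theorem addLast_cons (h : G) (a : C × G) {L : List (C × G)} (hL : L ≠ []) :
    addLast h (a :: L) = a :: addLast h L := by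
  obtain ⟨b, M, rfl⟩ := List.exists_cons_of_ne_nil hL
  rfl

theorem addLast_addLast (hh : ∀ g : G, g + g = 0) (h : G) :
    ∀ L : List (C × G), addLast h (addLast h L) = L
  | [] => rfl
  | [a] => by simp [addLast, add_assoc, hh]
  | a :: b :: L => by
    rw [addLast_cons h a (List.cons_ne_nil b L), addLast_cons h a (addLast_ne_nil h b L),
      addLast_addLast hh h (b :: L)]

theorem rtransl_involutive (hh : ∀ g : G, g + g = 0) (h : G) :
    Function.Involutive (rtransl (C := C) h) := by
  rintro ⟨g, L⟩
  cases L with
  | nil => simp [rtransl, add_assoc, hh]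
  | cons a L =>
    obtain ⟨b, M, e⟩ := List.exists_cons_of_ne_nil (addLast_ne_nil h a L)
    show rtransl h (g, addLast h (a :: L)) = _
    rw [e]
    show (g, addLast h (b :: M)) = _
    rw [← e, addLast_addLast hh]

theorem transl_involutive (hh : ∀ g : G, g + g = 0) (g : G) :
    Function.Involutive (transl (C := C) g) := fun x => by simp [transl, ← add_assoc, hh]

theorem rtransl_pcons (h : G) (c : C) (x : Basis G C) :
    rtransl h (pcons c x) = pcons c (rtransl h x) := by
  obtain ⟨g, L⟩ := x
  cases L with
  | nil => simp [rtransl, pcons, addLast]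
  | cons a L => simp [rtransl, pcons, addLast_cons]

theorem rtransl_transl (h g : G) (x : Basis G C) :
    rtransl h (transl g x) = transl g (rtransl h x) := by
  obtain ⟨g', L⟩ := x
  cases L <;> simp [rtransl, transl, add_assoc]

theorem rsnoc_pcons (c d : C) (x : Basis G C) : rsnoc c (pcons d x) = pcons d (rsnoc c x) := by
  simp [rsnoc, pcons]

theorem rsnoc_transl (c : C) (g : G) (x : Basis G C) :
    rsnoc c (transl g x) = transl g (rsnoc c x) := rfl

/-- Left translations. -/
def lam (g : G) : Op G C := pull (transl g) (transl_injective g)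

/-- Left annihilation. -/
def ann (c : C) : Op G C := pull (pcons c) (pcons_injective c)

/-- Left creation. -/
def cre (c : C) : Op G C := push (pcons c) (pcons_injective c)

/-- The semicircular element of a colour. -/
def semi (c : C) : Op G C := cre c + ann c

/-- Right annihilation. -/
def rann (c : C) : Op G C := pull (rsnoc c) (rsnoc_injective c)

/-- Right creation. -/
def rcre (c : C) : Op G C := push (rsnoc c) (rsnoc_injective c)

/-- Right translations, for a group of exponent two. -/
def rho (hh : ∀ g : G, g + g = 0) (h : G) : Op G C :=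
  pull (rtransl h) (rtransl_involutive hh h).injective

/-- The projection on the vacuum. -/
def vacProj : Op G C := (innerSL ℂ (vac (G := G) (C := C))).smulRight vac

theorem mom_eq (T : Op G C) : vacMom T = T vac ((0 : G), []) := inner_ket _ _

theorem vacProj_apply (v : Fock G C) : vacProj v = v ((0 : G), []) • (vac : Fock G C) := by
  simp [vacProj, vac, inner_ket]

theorem star_cre (c : C) : star (cre c : Op G C) = ann c := adjoint_push _ _

theorem star_ann (c : C) : star (ann c : Op G C) = cre c := rfl

theorem star_semi (c : C) : star (semi c : Op G C) = semi c := by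
  simp [semi, star_cre, star_ann, add_comm]

theorem star_rcre (c : C) : star (rcre c : Op G C) = rann c := adjoint_push _ _

theorem star_rann (c : C) : star (rann c : Op G C) = rcre c := rfl

theorem star_lam (hh : ∀ g : G, g + g = 0) (g : G) : star (lam g : Op G C) = lam g :=
  adjoint_pull_involutive _ (transl_involutive hh g)

theorem star_rho (hh : ∀ g : G, g + g = 0) (h : G) : star (rho hh h : Op G C) = rho hh h :=
  adjoint_pull_involutive _ (rtransl_involutive hh h)

theorem star_vacProj : star (vacProj : Op G C) = vacProj := by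
  refine ((eq_adjoint_iff vacProj vacProj).2 fun x y => ?_).symm
  simp [vacProj, inner_smul_left, inner_smul_right, mul_comm, inner_conj_symm]

theorem ann_mul_cre (a b : C) : (ann a * cre b : Op G C) = if a = b then 1 else 0 := by
  split_ifs with h
  · subst h; exact pull_push _ _
  · exact pull_push_of_disjoint _ _ fun x y e => h (by simp [pcons] at e; exact e.1.1.symm)

/-- The commutator of a right annihilation and a left creation. -/
theorem rann_mul_cre (c d : C) :
    (rann c * cre d : Op G C) = cre d * rann c + (if c = d then (1 : ℂ) else 0) • vacProj := by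
  ext v x
  show push (pcons d) (pcons_injective d) v (rsnoc c x)
    = push (pcons d) (pcons_injective d) (rann c v) x
      + ((if c = d then (1 : ℂ) else 0) • vacProj v) x
  obtain ⟨g, L⟩ := x
  rw [vacProj_apply]
  cases L with
  | nil =>
    have h0 : push (pcons d) (pcons_injective d) (rann c v) (g, []) = 0 :=
      push_apply_of_not_mem _ _ fun y => by simp [pcons]
    rw [h0, zero_add]
    by_cases h : c = d ∧ g = 0
    · obtain ⟨rfl, rfl⟩ := h
      rw [show rsnoc c ((0 : G), ([] : List (C × G))) = pcons c (0, []) from rfl, push_apply_image]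
      simp [vac, ket_apply]
    · rw [push_apply_of_not_mem _ _ fun y e => h (by
        simp [pcons, rsnoc] at e; exact ⟨e.2.1.1.symm, e.1.symm⟩)]
      rcases not_and_or.1 h with h | h
      · simp [vac, h]
      · by_cases hc : c = d <;> simp [vac, ket_apply, h, hc]
  | cons a L =>
    have h0 : ((if c = d then (1 : ℂ) else 0) • v ((0 : G), []) • (vac : Fock G C)) (g, a :: L)
        = 0 := by by_cases hc : c = d <;> simp [vac, ket_apply, hc]
    rw [h0, add_zero]
    by_cases h : g = 0 ∧ a.1 = d
    · obtain ⟨rfl, rfl⟩ := h
      rw [show ((0 : G), a :: L) = pcons a.1 (a.2, L) from rfl, push_apply_image, rsnoc_pcons,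
        push_apply_image]
      rfl
    · rw [push_apply_of_not_mem _ _ fun y e => h (by
        simp [pcons, rsnoc] at e; exact ⟨e.1.symm, (congrArg Prod.fst e.2.1).symm⟩),
        push_apply_of_not_mem _ _ fun y e => h (by
          simp [pcons] at e; exact ⟨e.1.symm, (congrArg Prod.fst e.2.1).symm⟩)]

theorem rann_mul_ann (c d : C) : (rann c * ann d : Op G C) = ann d * rann c :=
  pull_comm _ _ fun x => rsnoc_pcons c d x

theorem rann_mul_lam (c : C) (g : G) : (rann c * lam g : Op G C) = lam g * rann c :=
  pull_comm _ _ fun x => rsnoc_transl c g x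

theorem rann_mul_semi (c d : C) :
    (rann c * semi d : Op G C) = semi d * rann c + (if c = d then (1 : ℂ) else 0) • vacProj := by
  rw [semi, mul_add, rann_mul_cre, rann_mul_ann, add_mul]
  abel

theorem rsemi_comm (c d : C) : Commute (rcre c + rann c : Op G C) (semi d) := by
  have h := rann_mul_cre (G := G) c d
  have h' := congrArg star h
  simp only [star_mul, star_add, star_cre, star_rann, star_smul, star_vacProj] at h'
  have e : star (if c = d then (1 : ℂ) else 0) = (if c = d then (1 : ℂ) else 0) := by
    split_ifs <;> simp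
  rw [e] at h'
  have hcc : (rcre c * cre d : Op G C) = cre d * rcre c :=
    push_comm _ _ fun x => rsnoc_pcons c d x
  show (rcre c + rann c) * semi d = semi d * (rcre c + rann c)
  rw [semi, add_mul, mul_add, mul_add, h, rann_mul_ann, hcc, add_mul, mul_add, mul_add, h']
  abel

theorem rsemi_comm_lam (hh : ∀ g : G, g + g = 0) (c : C) (g : G) :
    Commute (rcre c + rann c : Op G C) (lam g) := by
  have h := rann_mul_lam (G := G) c g
  have h' := congrArg star h
  simp only [star_mul, star_lam hh, star_rann] at h'
  show (rcre c + rann c) * lam g = lam g * (rcre c + rann c)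
  rw [add_mul, mul_add, h, h']

theorem rho_comm_semi (hh : ∀ g : G, g + g = 0) (h : G) (d : C) :
    Commute (rho hh h : Op G C) (semi d) := by
  have e : (rho hh h * ann d : Op G C) = ann d * rho hh h :=
    pull_comm _ _ fun x => rtransl_pcons h d x
  have e' := congrArg star e
  simp only [star_mul, star_rho, star_ann] at e'
  show rho hh h * semi d = semi d * rho hh h
  rw [semi, mul_add, add_mul, e, ← e']

theorem rho_comm_lam (hh : ∀ g : G, g + g = 0) (h g : G) :
    Commute (rho hh h : Op G C) (lam g) :=
  pull_comm _ _ fun x => rtransl_transl h g x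

theorem cre_vac (c : C) : cre c (vac : Fock G C) = ket ((0 : G), [(c, (0 : G))]) := push_ket _ _ _

theorem rcre_vac (c : C) : rcre c (vac : Fock G C) = cre c vac := by
  rw [cre_vac]; exact push_ket _ _ _

theorem ann_vac (c : C) : ann c (vac : Fock G C) = 0 := by
  ext x; simp [ann, pull_apply, vac, ket_apply, pcons]

theorem rann_vac (c : C) : rann c (vac : Fock G C) = 0 := by
  ext x; simp [rann, pull_apply, vac, ket_apply, rsnoc]

theorem semi_vac (c : C) : semi c (vac : Fock G C) = cre c vac := by simp [semi, ann_vac]

theorem lam_vac (hh : ∀ g : G, g + g = 0) (g : G) :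
    lam g (vac : Fock G C) = rho hh g vac := by
  ext x
  obtain ⟨k, L⟩ := x
  cases L with
  | nil => simp [lam, rho, pull_apply, vac, ket_apply, transl, rtransl, add_comm]
  | cons a L => simp [lam, rho, pull_apply, vac, ket_apply, transl, rtransl, addLast_ne_nil]

theorem mom_conj (T : Op G C) : vacMom (star T) = starRingEnd ℂ (vacMom T) := by
  rw [vacMom, vacMom, star_eq_adjoint, adjoint_inner_right, inner_conj_symm]

/-- The generators: translations and semicircular elements. -/
def gen : G ⊕ C → Op G C := Sum.elim lam semi

/-- The algebra they generate. -/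
def alg : Subalgebra ℂ (Op G C) := Algebra.adjoin ℂ (Set.range gen)

theorem lam_mem (g : G) : (lam g : Op G C) ∈ alg :=
  Algebra.subset_adjoin ⟨Sum.inl g, rfl⟩

theorem semi_mem (c : C) : (semi c : Op G C) ∈ alg :=
  Algebra.subset_adjoin ⟨Sum.inr c, rfl⟩

theorem exists_mirror (hh : ∀ g : G, g + g = 0) (a : G ⊕ C) :
    star (gen a : Op G C) = gen a ∧ ∃ b : Op G C, star b = b ∧ b vac = gen a vac ∧
      ∀ a', Commute b (gen a') := by
  rcases a with g | c
  · refine ⟨star_lam hh g, rho hh g, star_rho hh g, (lam_vac hh g).symm, ?_⟩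
    rintro (g' | c')
    exacts [rho_comm_lam hh g g', rho_comm_semi hh g c']
  · refine ⟨star_semi c, rcre c + rann c, ?_, ?_, ?_⟩
    · simp [star_rcre, star_rann, add_comm]
    · show ((rcre c + rann c : Op G C)) vac = (semi c : Op G C) vac
      simp [semi_vac, rcre_vac, rann_vac]
    · rintro (g' | c')
      exacts [rsemi_comm_lam hh c g', rsemi_comm c c']

/-- The vacuum state is tracial. -/
theorem mom_mul_comm (hh : ∀ g : G, g + g = 0) {S T : Op G C} (hS : S ∈ alg) (hT : T ∈ alg) :
    vacMom (S * T) = vacMom (T * S) := by
  induction hS using Algebra.adjoin_induction generalizing T with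
  | mem x hx =>
    obtain ⟨a, rfl⟩ := hx
    obtain ⟨hsa, b, hb, hbv, hcomm⟩ := exists_mirror hh a
    have hbT : Commute b T := by
      induction hT using Algebra.adjoin_induction with
      | mem y hy => obtain ⟨a', rfl⟩ := hy; exact hcomm a'
      | algebraMap r => exact Algebra.commute_algebraMap_right r b
      | add y z _ _ hy hz => exact hy.add_right hz
      | mul y z _ _ hy hz => exact hy.mul_right hz
    show ⟪vac, gen a (T vac)⟫_ℂ = ⟪vac, T (gen a vac)⟫_ℂ
    conv_lhs => rw [← hsa, star_eq_adjoint, adjoint_inner_right, ← hbv, ← adjoint_inner_right,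
      ← star_eq_adjoint, hb]
    rw [← hbv]
    exact congrArg (fun W : Op G C => ⟪vac, W vac⟫_ℂ) hbT.eq
  | algebraMap r => rw [Algebra.commutes]
  | add x y _ _ hx hy => simp only [add_mul, mul_add]; simp [vacMom] at *; rw [hx hT, hy hT]
  | mul x y hxm hym hx hy =>
    calc vacMom (x * y * T) = vacMom (x * (y * T)) := by rw [mul_assoc]
      _ = vacMom (y * T * x) := hx (mul_mem hym hT)
      _ = vacMom (y * (T * x)) := by rw [mul_assoc]
      _ = vacMom (T * x * y) := hy (mul_mem hT hxm)
      _ = vacMom (T * (x * y)) := by rw [mul_assoc]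

theorem prod_map_mem {ι : Type*} {Y : ι → Op G C} (hY : ∀ i, Y i ∈ alg) (w : List ι) :
    (w.map Y).prod ∈ alg :=
  list_prod_mem fun T hT => by
    obtain ⟨i, -, rfl⟩ := List.mem_map.1 hT
    exact hY i

/-- Cyclic invariance of the moments of a tuple in the algebra. -/
theorem mom_rotate (hh : ∀ g : G, g + g = 0) {ι : Type*} {Y : ι → Op G C} (hY : ∀ i, Y i ∈ alg)
    (u v : List ι) : vacMom ((u ++ v).map Y).prod = vacMom ((v ++ u).map Y).prod := by
  simp only [List.map_append, List.prod_append]
  exact mom_mul_comm hh (prod_map_mem hY u) (prod_map_mem hY v)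

/-- A right annihilation moved through a product. -/
theorem rann_prod_vac {ι : Type*} {Y : ι → Op G C} {R : Op G C} (hR : R vac = 0) {κ : ι → ℂ}
    (hc : ∀ i, R * Y i = Y i * R + κ i • vacProj) :
    ∀ J : List ι, R ((J.map Y).prod vac) = ∑ l : Fin J.length,
      (κ J[l] * vacMom ((J.drop (l + 1)).map Y).prod) • ((J.take l).map Y).prod vac := by
  intro J
  induction J with
  | nil => simpa using hR
  | cons i J ih =>
    have h : R (Y i ((J.map Y).prod vac))
        = Y i (R ((J.map Y).prod vac)) + κ i • vacProj ((J.map Y).prod vac) :=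
      congrArg (fun T : Op G C => T ((J.map Y).prod vac)) (hc i)
    simp only [vacProj_apply, ← mom_eq, ih, map_sum, map_smul] at h
    show R (Y i ((J.map Y).prod vac)) = _
    rw [h]
    refine Eq.trans ?_ (Fin.sum_univ_succ (n := J.length) _).symm
    rw [add_comm]
    refine congrArg₂ (· + ·) ?_ (Finset.sum_congr rfl fun l _ => ?_)
    · simp [smul_smul]
    · simp

/-- The Schwinger-Dyson equation of a tuple. -/
theorem sd {ι : Type*} {Y : ι → Op G C} {R : Op G C} (hR : R vac = 0) {κ : ι → ℂ}
    (hc : ∀ i, R * Y i = Y i * R + κ i • vacProj) (J : List ι) :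
    ⟪star R vac, (J.map Y).prod vac⟫_ℂ = ∑ l : Fin J.length,
      κ J[l] * vacMom ((J.take l).map Y).prod * vacMom ((J.drop (l + 1)).map Y).prod := by
  rw [star_eq_adjoint, adjoint_inner_left, rann_prod_vac hR hc, inner_sum]
  refine Finset.sum_congr rfl fun l _ => ?_
  rw [inner_smul_right]
  show κ J[l] * _ * vacMom _ = _
  ring

/-- The Schwinger-Dyson equation for a word starting with a semicircular element. -/
theorem sd_semi {ι : Type*} {Y : ι → Op G C} (c : C) {κ : ι → ℂ}
    (hc : ∀ i, rann c * Y i = Y i * rann c + κ i • vacProj) (J : List ι) :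
    vacMom (semi c * (J.map Y).prod) = ∑ l : Fin J.length,
      κ J[l] * vacMom ((J.take l).map Y).prod * vacMom ((J.drop (l + 1)).map Y).prod := by
  rw [← sd (rann_vac c) hc J, star_rann, rcre_vac, ← semi_vac, vacMom]
  show ⟪vac, semi c ((J.map Y).prod vac)⟫_ℂ = _
  rw [← adjoint_inner_left, ← star_eq_adjoint, star_semi]

/-- Appending `(c, g) :: M` at the end of the slots. -/
def emb (c : C) (g : G) (M : List (C × G)) (x : Basis G C) : Basis G C :=
  (x.1, x.2 ++ (c, g) :: M)

theorem emb_injective (c : C) (g : G) (M : List (C × G)) : Function.Injective (emb c g M) :=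
  fun x y e => by simpa [emb, Prod.ext_iff] using e

/-- The algebra of the translations and one semicircular element. -/
def zalg (w : C) : Subalgebra ℂ (Op G C) := Algebra.adjoin ℂ (Set.range lam ∪ {semi w})

theorem lam_mem_zalg (w : C) (g : G) : (lam g : Op G C) ∈ zalg w :=
  Algebra.subset_adjoin (Or.inl ⟨g, rfl⟩)

theorem semi_mem_zalg (w : C) : (semi w : Op G C) ∈ zalg w := Algebra.subset_adjoin (Or.inr rfl)

theorem zalg_le (w : C) : zalg (G := G) w ≤ alg :=
  Algebra.adjoin_le fun T hT => by
    rcases hT with ⟨g, rfl⟩ | rfl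
    exacts [lam_mem g, semi_mem w]

theorem star_mem_zalg (hh : ∀ g : G, g + g = 0) {w : C} {T : Op G C} (hT : T ∈ zalg w) :
    star T ∈ zalg w := by
  induction hT using Algebra.adjoin_induction with
  | mem x hx =>
    rcases hx with ⟨g, rfl⟩ | rfl
    · rw [star_lam hh]; exact lam_mem_zalg w g
    · rw [star_semi]; exact semi_mem_zalg w
  | algebraMap r => rw [← algebraMap_star_comm]; exact Subalgebra.algebraMap_mem _ _
  | add x y _ _ hx hy => rw [star_add]; exact add_mem hx hy
  | mul x y _ _ hx hy => rw [star_mul]; exact mul_mem hy hx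

theorem push_emb_comm {w b : C} (hb : b ≠ w) (g : G) (M : List (C × G)) {T : Op G C}
    (hT : T ∈ zalg w) :
    Commute T (push (emb b g M) (emb_injective b g M)) := by
  induction hT using Algebra.adjoin_induction with
  | mem x hx =>
    rcases hx with ⟨h, rfl⟩ | rfl
    · refine pull_push_comm _ _ (fun x => rfl) fun x y e => ⟨(y.1 - h, y.2), ?_⟩
      simp [emb, transl, Prod.ext_iff] at e ⊢
      exact ⟨by rw [e.1]; abel, e.2⟩
    · have h1 : Commute (cre w : Op G C) (push (emb b g M) (emb_injective b g M)) :=
        push_comm _ _ fun x => by simp [emb, pcons]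
      have h2 : Commute (ann w : Op G C) (push (emb b g M) (emb_injective b g M)) := by
        refine pull_push_comm _ _ (fun x => by simp [emb, pcons]) fun x y e => ?_
        obtain ⟨y0, L⟩ := y
        cases L with
        | nil => exact absurd (by simp [emb, pcons] at e; exact e.2.1.1) hb
        | cons a L =>
          refine ⟨(a.2, L), ?_⟩
          simp [emb, pcons, Prod.ext_iff] at e ⊢
          exact ⟨e.2.1.2, e.2.2⟩
      exact h1.add_left h2
  | algebraMap r => exact Algebra.commute_algebraMap_left r _
  | add x y _ _ hx hy => exact hx.add_left hy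
  | mul x y _ _ hx hy => exact hx.mul_left hy

theorem push_emb_vac (b : C) (g : G) (M : List (C × G)) :
    push (emb b g M) (emb_injective b g M) vac = cre b (ket (g, M)) := by
  simp [vac, cre, push_ket, emb, pcons]

/-- Annihilations of other colours kill the `w`-vectors. -/
theorem ann_zalg_vac (hh : ∀ g : G, g + g = 0) {w a : C} (ha : a ≠ w) {T : Op G C}
    (hT : T ∈ zalg w) : ann a (T vac) = 0 := by
  ext x
  obtain ⟨g, M⟩ := x
  have hc := push_emb_comm ha g M (star_mem_zalg hh hT)
  show T vac (pcons a (g, M)) = 0
  rw [← inner_ket, show ket (pcons a (g, M)) = push (emb a g M) (emb_injective a g M) vac from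
      (push_emb_vac a g M).trans (push_ket _ _ _) |>.symm, ← adjoint_inner_left,
    ← star_eq_adjoint]
  show ⟪(star T * push (emb a g M) (emb_injective a g M)) vac, vac⟫_ℂ = 0
  rw [hc.eq, ← inner_conj_symm, vac, inner_ket]
  show starRingEnd ℂ (push (emb a g M) (emb_injective a g M) _ _) = 0
  rw [push_apply_of_not_mem _ _ fun y e => by simp [emb] at e, map_zero]

theorem inner_zalg_cre (hh : ∀ g : G, g + g = 0) {w b : C} (hb : b ≠ w) {T : Op G C}
    (hT : T ∈ zalg w) (v : Fock G C) : ⟪vac, T (cre b v)⟫_ℂ = 0 := by
  rw [← adjoint_inner_left T, show cre b v = adjoint (ann b) v from rfl, adjoint_inner_right,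
    ← star_eq_adjoint, ann_zalg_vac hh hb (star_mem_zalg hh hT), inner_zero_left]

/-- Concatenation: between two other colours a `w`-operator acts by its moment. -/
theorem ann_zalg_cre (hh : ∀ g : G, g + g = 0) {w a b : C} (ha : a ≠ w) (hb : b ≠ w) {T : Op G C}
    (hT : T ∈ zalg w) : ann a * T * cre b = (if a = b then vacMom T else 0) • (1 : Op G C) := by
  refine ext_ket fun p => lp.ext (funext fun x => ?_)
  obtain ⟨g, M⟩ := p
  show T (cre b (ket (g, M))) (pcons a x) = ((if a = b then vacMom T else 0) • ket (g, M) : Fock G C) x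
  rw [← push_emb_vac, show T (push (emb b g M) (emb_injective b g M) vac)
    = push (emb b g M) (emb_injective b g M) (T vac) from
      congrArg (fun W : Op G C => W vac) (push_emb_comm hb g M hT).eq]
  by_cases hx : a = b ∧ x = (g, M)
  · obtain ⟨rfl, rfl⟩ := hx
    rw [show pcons a (g, M) = emb a g M (0, []) from rfl, push_apply_image, mom_eq]
    simp [ket_apply]
  · have hr : ((if a = b then vacMom T else 0) • ket (g, M) : Fock G C) x = 0 := by
      rcases not_and_or.1 hx with h | h
      · simp [h]
      · by_cases hab : a = b <;> simp [h, hab, ket_apply]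
    rw [hr]
    by_cases hm : ∃ y, emb b g M y = pcons a x
    · obtain ⟨⟨y0, L⟩, e⟩ := hm
      cases L with
      | nil => exact absurd (by
          simp [emb, pcons, Prod.ext_iff] at e ⊢
          exact ⟨e.2.1.1.symm, e.2.1.2.symm, e.2.2.symm⟩) hx
      | cons c L =>
        have hyc : ((0 : G), c :: L) = pcons a (c.2, L) := by
          simp [emb, pcons] at e ⊢
          rw [e.2.1]
        rw [← e, push_apply_image, show y0 = 0 by simp [emb, pcons] at e; exact e.1, hyc]
        exact congrArg (fun v : Fock G C => v (c.2, L)) (ann_zalg_vac hh ha hT)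
    · exact push_apply_of_not_mem _ _ fun y e => hm ⟨y, e⟩

section Tuple

/-- `(ℤ/2)^m`. -/
abbrev Cube (m : ℕ) := Fin m → ZMod 2

/-- The indices: the `m` symmetries, `w`, and the `2^m` conjugates. -/
abbrev Idx (m : ℕ) := (Fin m ⊕ Unit) ⊕ Cube m

/-- Colours: `none` for `w`, `some (false, j)` for the noise inside `X_j`, `some (true, j)` for the
semicircular family of the definition of `χ*`. -/
abbrev Colour (m : ℕ) := Option (Bool × Idx m)

instance instDecidableEqCube (m : ℕ) : DecidableEq (Cube m) := inferInstance

instance instDecidableEqColour (m : ℕ) : DecidableEq (Colour m) := inferInstance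

instance instDecidableEqSlot (m : ℕ) : DecidableEq (Colour m × Cube m) := inferInstance

instance instDecidableEqBasis (m : ℕ) : DecidableEq (Basis (Cube m) (Colour m)) := inferInstance

/-- The Hilbert space of the example. -/
noncomputable abbrev Space (m : ℕ) := Fock (Cube m) (Colour m)

/-- The vacuum of the example. -/
noncomputable def omega (m : ℕ) : Space m := vac

/-- `b = N⁻⁴`. -/
noncomputable def smallVar (m : ℕ) : ℝ := (((2 : ℝ) ^ m) ^ 4)⁻¹

/-- The variance of the noise: `b` on `r_l` and `w`, `1` on the conjugates. -/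
noncomputable def noiseVar (m : ℕ) : Idx m → ℝ
  | Sum.inl _ => smallVar m
  | Sum.inr _ => 1

/-- The unperturbed tuple. -/
noncomputable def zOp (m : ℕ) : Idx m → Space m →L[ℂ] Space m
  | Sum.inl (Sum.inl l) => lam (Pi.single l 1)
  | Sum.inl (Sum.inr _) => semi none
  | Sum.inr g => (lam g).comp ((semi none).comp (lam g))

/-- The tuple `X`. -/
noncomputable def xOp (m : ℕ) (j : Idx m) : Space m →L[ℂ] Space m :=
  zOp m j + ((Real.sqrt (noiseVar m j) : ℝ) : ℂ) • semi (some (false, j))

/-- The free semicircular family `S`. -/
noncomputable def sOp (m : ℕ) (j : Idx m) : Space m →L[ℂ] Space m := semi (some (true, j))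

/-- The creation operator of the combined noise of `X_j + √t S_j`. -/
noncomputable def mixCre (m : ℕ) (t : ℝ) (j : Idx m) : Space m →L[ℂ] Space m :=
  ((Real.sqrt (noiseVar m j / (noiseVar m j + t)) : ℝ) : ℂ) • cre (some (false, j)) +
    ((Real.sqrt (t / (noiseVar m j + t)) : ℝ) : ℂ) • cre (some (true, j))

end Tuple

end Vale.Agent.P087
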