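import Vale.Agent.P087.ChiLower
import Vale.Agent.P087.Model

/-!
The example as a combination of words in the group elements and the semicircular letters, and the
same combination of deterministic and Gaussian matrices.
-/

namespace Vale.Agent.P087

open scoped InnerProductSpace

variable {m : ℕ}

/-- Letters: group elements, and one semicircular letter for `w` and for each noise. -/
abbrev Gen (m : ℕ) := Cube m ⊕ Option (Idx m)

/-- The main word of a letter of `X`. -/
def mainWord : Idx m → List (Gen m)
  | Sum.inl (Sum.inl l) => [Sum.inl (Pi.single l 1)]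
  | Sum.inl (Sum.inr _) => [Sum.inr none]
  | Sum.inr g => [Sum.inl g, Sum.inr none, Sum.inl g]

/-- The two words of a letter of `X` with their coefficients. -/
noncomputable def pieces (j : Idx m) : List (ℂ × List (Gen m)) :=
  [(1, mainWord j), (((Real.sqrt (noiseVar m j) : ℝ) : ℂ), [Sum.inr (some j)])]

/-- Expansion of a word in `X`. -/
noncomputable def expand : List (Idx m) → List (ℂ × List (Gen m))
  | [] => [(1, [])]
  | j :: w => (pieces j).flatMap fun p => (expand w).map fun q => (p.1 * q.1, p.2 ++ q.2)

section Algebra

variable {A : Type*} [Ring A] [Algebra ℂ A] (G : Gen m → A)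

/-- The combination attached to a letter of `X`. -/
noncomputable def combine (j : Idx m) : A :=
  ((mainWord j).map G).prod + ((Real.sqrt (noiseVar m j) : ℝ) : ℂ) • G (Sum.inr (some j))

lemma prod_combine : ∀ w : List (Idx m), (w.map (combine G)).prod
    = ((expand w).map fun q => q.1 • (q.2.map G).prod).sum
  | [] => by simp [expand]
  | j :: w => by
    have h : ∀ (c : ℂ) (u : List (Gen m)),
        c • (u.map G).prod * ((expand w).map fun q => q.1 • (q.2.map G).prod).sum
          = ((expand w).map fun q => (c * q.1) • ((u ++ q.2).map G).prod).sum := by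
      intro c u
      rw [← List.sum_map_mul_left]
      congr 1
      refine List.map_congr_left fun q _ => ?_
      rw [List.map_append, List.prod_append, smul_mul_smul_comm]
    rw [List.map_cons, List.prod_cons, prod_combine w, combine, add_mul]
    have h1 := h 1 (mainWord j)
    have h2 := h ((Real.sqrt (noiseVar m j) : ℝ) : ℂ) [Sum.inr (some j)]
    simp only [one_smul] at h1
    simp only [List.map_singleton, List.prod_singleton] at h2
    rw [h1, h2]
    simp [expand, pieces, List.map_map, Function.comp_def]

end Algebra

/-- The generators in the model. -/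
noncomputable def genOp (m : ℕ) : Gen m → Space m →L[ℂ] Space m
  | Sum.inl g => lam g
  | Sum.inr c => semi (c.map fun j => (false, j))

/-- The moments of the generators. -/
noncomputable def genLaw (m : ℕ) (u : List (Gen m)) : ℂ := law (omega m) (genOp m) u

lemma xOp_eq_combine (j : Idx m) : xOp m j = combine (genOp m) j := by
  rcases j with (l | u) | g <;> simp [xOp, combine, zOp, mainWord, genOp] <;> rfl

lemma law_xOp (w : List (Idx m)) : law (omega m) (xOp m) w
    = ((expand w).map fun q => q.1 * genLaw m q.2).sum := by
  have e : opWord (xOp m) w = ((expand w).map fun q => q.1 • (q.2.map (genOp m)).prod).sum := by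
    rw [← prod_combine, opWord, funext xOp_eq_combine]
  rw [law, e]
  induction expand w with
  | nil => simp
  | cons q l ih => simp [ih, genLaw, law, opWord]

/-- Total coefficient mass of an expansion. -/
noncomputable def mass (w : List (Idx m)) : ℝ := ((expand w).map fun q => ‖q.1‖).sum

lemma ntr_combine_sub_le {k : ℕ} (G : Gen m → Matrix (Fin k) (Fin k) ℂ) (w : List (Idx m)) {δ : ℝ}
    (h : ∀ q ∈ expand w, ‖ntr (q.2.map G).prod - genLaw m q.2‖ ≤ δ) :
    ‖ntr (w.map (combine G)).prod - law (omega m) (xOp m) w‖ ≤ mass w * δ := by
  rw [prod_combine, law_xOp, mass]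
  revert h
  induction expand w with
  | nil => simp [ntr]
  | cons q l ih =>
    intro h
    have h' := ih fun p hp => h p (List.mem_cons_of_mem _ hp)
    have hq := h q (List.mem_cons_self ..)
    simp only [List.map_cons, List.sum_cons]
    have e : ntr (q.1 • (q.2.map G).prod + (l.map fun q => q.1 • (q.2.map G).prod).sum)
        - (q.1 * genLaw m q.2 + (l.map fun q => q.1 * genLaw m q.2).sum)
        = q.1 * (ntr (q.2.map G).prod - genLaw m q.2) +
          (ntr (l.map fun q => q.1 • (q.2.map G).prod).sum
            - (l.map fun q => q.1 * genLaw m q.2).sum) := by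
      simp only [ntr, Matrix.trace_add, Matrix.trace_smul, smul_eq_mul]
      ring
    rw [e, add_mul]
    refine (norm_add_le _ _).trans (add_le_add ?_ h')
    rw [norm_mul]
    exact mul_le_mul_of_nonneg_left hq (norm_nonneg _)

/-- A character of the cube. -/
def charSign (g x : Cube m) : ℂ := (-1) ^ (∑ l, g l * x l).val

lemma sum_charSign (g : Cube m) : ∑ x, charSign g x = if g = 0 then ((2 : ℂ) ^ m) else 0 := by
  have hmul : ∀ a b : ZMod 2, ((-1 : ℂ)) ^ (a + b).val = (-1) ^ a.val * (-1) ^ b.val := by
    intro a b
    rw [ZMod.val_add, ← neg_one_pow_eq_pow_mod_two, pow_add]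
  split_ifs with h
  · subst h; simp [charSign]
  · obtain ⟨l, hl⟩ := Function.ne_iff.1 h
    have hg : g l = 1 := by
      generalize g l = a at hl
      fin_cases a
      · exact absurd rfl hl
      · rfl
    have hflip : ∀ x, charSign g (x + Pi.single l 1) = -charSign g x := fun x => by
      simp only [charSign, Pi.add_apply, mul_add, Finset.sum_add_distrib, hmul]
      rw [show ∑ i, g i * (Pi.single l 1 : Cube m) i = 1 by
        simp [Pi.single_apply, Finset.sum_ite_eq', hg]]
      simp [ZMod.val_one]
    have := Equiv.sum_comp (Equiv.addRight (Pi.single l 1 : Cube m)) (charSign g)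
    simp only [Equiv.coe_addRight, hflip, Finset.sum_neg_distrib] at this
    linear_combination (-1 / 2 : ℂ) * this

end Vale.Agent.P087
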