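import Vale.Agent.P087.ModelProof
import Vale.Agent.P087.AbstractFree

/-!
# P087: the model facts
-/

noncomputable section

set_option linter.unusedSectionVars false

open scoped InnerProductSpace lp

namespace Vale.Agent.P087

open ContinuousLinearMap

variable {m : ℕ}

/-- The left generators, together with the `z_j`. -/
def leftGen (m : ℕ) : (Cube m ⊕ Colour m) ⊕ Idx m → Space m →L[ℂ] Space m :=
  Sum.elim gen (zOp m)

/-- Their mirrors. -/
def rightGen (m : ℕ) : (Cube m ⊕ Colour m) ⊕ Idx m → Space m →L[ℂ] Space m
  | Sum.inl a => mirror cube_add_self a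
  | Sum.inr (Sum.inl (Sum.inl l)) => mirror cube_add_self (Sum.inl (Pi.single l 1))
  | Sum.inr (Sum.inl (Sum.inr _)) => mirror cube_add_self (Sum.inr none)
  | Sum.inr (Sum.inr g) => mirror cube_add_self (Sum.inl g) *
      (mirror cube_add_self (Sum.inr none) * mirror cube_add_self (Sum.inl g))

section General

variable {G C : Type} [AddCommGroup G] [DecidableEq G] [DecidableEq C]

/-- A palindrome of mirrors is the mirror of the palindrome. -/
theorem palindrome_vac (hh : ∀ g : G, g + g = 0) (a b : G ⊕ C) :
    (gen a * (gen b * gen a) : Op G C) vac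
      = (mirror hh a * (mirror hh b * mirror hh a) : Op G C) vac := by
  show gen a (gen b (gen a vac)) = mirror hh a (mirror hh b (mirror hh a vac))
  have h : ∀ p q (v : Fock G C), gen p (mirror hh q v) = mirror hh q (gen p v) := fun p q v =>
    congrArg (fun T : Op G C => T v) (mirror_comm hh p q).eq
  rw [gen_vac_eq_mirror hh a, h, h, gen_vac_eq_mirror hh b, h, gen_vac_eq_mirror hh a]

theorem star_palindrome_mirror (hh : ∀ g : G, g + g = 0) (a b : G ⊕ C) :
    star (mirror hh a * (mirror hh b * mirror hh a) : Op G C)
      = mirror hh a * (mirror hh b * mirror hh a) := by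
  rw [star_mul, star_mul, star_mirror, star_mirror, mul_assoc]

theorem gen_comm_palindrome (hh : ∀ g : G, g + g = 0) (p a b : G ⊕ C) :
    Commute (gen p : Op G C) (mirror hh a * (mirror hh b * mirror hh a)) :=
  (mirror_comm hh p a).mul_right ((mirror_comm hh p b).mul_right (mirror_comm hh p a))

end General

theorem star_rightGen (k : (Cube m ⊕ Colour m) ⊕ Idx m) :
    star (rightGen m k) = rightGen m k := by
  rcases k with a | (l | u) | g <;> simp only [rightGen]
  exacts [star_mirror cube_add_self a, star_mirror cube_add_self _, star_mirror cube_add_self _,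
    star_palindrome_mirror cube_add_self _ _]

theorem gen_comm_rightGen (p : Cube m ⊕ Colour m) (k : (Cube m ⊕ Colour m) ⊕ Idx m) :
    Commute (gen p : Space m →L[ℂ] Space m) (rightGen m k) := by
  rcases k with a | (l | u) | g <;> simp only [rightGen]
  exacts [mirror_comm cube_add_self p a, mirror_comm cube_add_self p _,
    mirror_comm cube_add_self p _, gen_comm_palindrome cube_add_self p _ _]

theorem leftGen_comm (i k : (Cube m ⊕ Colour m) ⊕ Idx m) :
    Commute (leftGen m i) (rightGen m k) := by
  rcases i with a | (l | u) | g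
  exacts [gen_comm_rightGen a k, gen_comm_rightGen (Sum.inl _) k,
    gen_comm_rightGen (Sum.inr none) k,
    (gen_comm_rightGen (Sum.inl g) k).mul_left
      ((gen_comm_rightGen (Sum.inr none) k).mul_left (gen_comm_rightGen (Sum.inl g) k))]

theorem leftGen_vac (k : (Cube m ⊕ Colour m) ⊕ Idx m) :
    leftGen m k (omega m) = rightGen m k (omega m) := by
  rcases k with a | (l | u) | g <;> simp only [rightGen]
  exacts [gen_vac_eq_mirror cube_add_self a, gen_vac_eq_mirror cube_add_self (Sum.inl _),
    gen_vac_eq_mirror cube_add_self (Sum.inr none),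
    palindrome_vac cube_add_self (Sum.inl g) (Sum.inr none)]

theorem zOp_selfAdjoint' (j : Idx m) : IsSelfAdjoint (zOp m j) := star_zOp j

/-- The facts about the model. -/
theorem modelFacts (m : ℕ) : ModelFacts m := by
  have hsa : ∀ k, IsSelfAdjoint (leftGen m k) := fun k => by
    rcases k with a | i
    exacts [star_gen cube_add_self a, star_zOp i]
  have hcyc : (Submodule.span ℂ (Set.range fun w : List ((Cube m ⊕ Colour m) ⊕ Idx m) =>
      opWord (rightGen m) w (omega m))).topologicalClosure = ⊤ := by
    refine top_unique ((mirror_cyclic (C := Colour m) cube_add_self).ge.trans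
      (Submodule.topologicalClosure_mono (Submodule.span_mono ?_)))
    rintro _ ⟨w, rfl⟩
    exact ⟨w.map Sum.inl, by simp [opWord, List.map_map, rightGen, Function.comp_def, omega]⟩
  have hz : ∀ j, zOp m j ∈ Submodule.span ℂ (Set.range (leftGen m)) := fun j =>
    Submodule.subset_span ⟨Sum.inr j, rfl⟩
  have hs : ∀ c, semi c ∈ Submodule.span ℂ (Set.range (leftGen m)) := fun c =>
    Submodule.subset_span ⟨Sum.inl (Sum.inr c), rfl⟩
  obtain ⟨M, ht, hX, hS, hfree⟩ := exists_setting (Ω := omega m) (X := xOp m) (S := sOp m) hsa
    star_rightGen leftGen_comm leftGen_vac norm_vac_eq hcyc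
    (fun j => add_mem (hz j) (Submodule.smul_mem _ _ (hs _))) (fun j => hs _) schwingerDyson_s
  exact
    { setting := ⟨M, ht, fun j => ⟨hX j, star_xOp j⟩, fun j => ⟨hS j, star_sOp j⟩, hfree⟩
      zOp_selfAdjoint := zOp_selfAdjoint'
      perturb_eq := fun t ht j => perturb_eq_mix ht j
      concat := fun t ht a b K => concat_mix ht a b K
      concat_vac := fun t _ a K => concat_vac_mix t a K
      concat_orth := fun t _ i b K v => concat_orth_mix t i b K v
      schwingerDyson := fun t ht j w => schwingerDyson_mix ht j w
      law_real := law_real_z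
      law_conj := law_conj_eq_zero
      norm_conj := norm_conj_vac }

end Vale.Agent.P087
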