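import Vale.Agent.P087.ModelInterface

/-!
# P087: proofs of the facts about the model
-/

noncomputable section

set_option linter.unusedSectionVars false

open scoped InnerProductSpace lp

namespace Vale.Agent.P087

open ContinuousLinearMap

section General

variable {G C : Type} [AddCommGroup G] [DecidableEq G] [DecidableEq C]

/-- Vectors with real coordinates. -/
def RealVec (v : Fock G C) : Prop := ∀ x, (v x).im = 0

/-- Operators preserving the vectors with real coordinates. -/
def RealOp (T : Op G C) : Prop := ∀ v, RealVec v → RealVec (T v)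

theorem realOp_one : RealOp (1 : Op G C) := fun _ h => h

theorem RealOp.mul {S T : Op G C} (hS : RealOp S) (hT : RealOp T) : RealOp (S * T) :=
  fun v h => hS _ (hT v h)

theorem RealOp.add {S T : Op G C} (hS : RealOp S) (hT : RealOp T) : RealOp (S + T) :=
  fun v h x => by simp [hS v h x, hT v h x]

theorem realOp_lam (g : G) : RealOp (lam g : Op G C) := fun _ h _ => h _

theorem realOp_semi (c : C) : RealOp (semi c : Op G C) := by
  refine RealOp.add (fun v h x => ?_) fun _ h _ => h _
  by_cases hx : ∃ y, pcons c y = x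
  · obtain ⟨y, rfl⟩ := hx
    rw [cre, push_apply_image]; exact h y
  · rw [cre, push_apply_of_not_mem _ _ fun y e => hx ⟨y, e⟩]; simp

theorem realOp_prod : ∀ l : List (Op G C), (∀ T ∈ l, RealOp T) → RealOp l.prod
  | [], _ => by simpa using realOp_one
  | T :: l, h => by
    rw [List.prod_cons]
    exact (h T (by simp)).mul (realOp_prod l fun S hS => h S (by simp [hS]))

theorem mom_im {T : Op G C} (hT : RealOp T) : (vacMom T).im = 0 := by
  rw [mom_eq]
  refine hT _ (fun x => ?_) _
  rw [vac, ket_apply]
  split_ifs <;> simp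

theorem lam_ket (hh : ∀ g : G, g + g = 0) (g : G) (x : Basis G C) :
    lam g (ket x) = ket (g + x.1, x.2) := by
  rw [lam, ← adjoint_pull_involutive _ (transl_involutive hh g)]
  exact push_ket _ _ x

theorem semi_ket_nil (c : C) (g : G) :
    semi c (ket ((g : G), ([] : List (C × G)))) = ket ((0 : G), [(c, g)]) := by
  have h : ann c (ket ((g : G), ([] : List (C × G)))) = (0 : Fock G C) := by
    ext x; simp [ann, pull_apply, ket_apply, pcons]
  show cre c (ket (g, [])) + ann c (ket (g, [])) = _
  rw [h, add_zero]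
  exact push_ket _ _ _

theorem lam_mul_self (hh : ∀ g : G, g + g = 0) (g : G) : (lam g * lam g : Op G C) = 1 := by
  ext v x
  show v (transl g (transl g x)) = v x
  rw [transl_involutive hh g x]

theorem star_conj (hh : ∀ g : G, g + g = 0) (g : G) (c : C) :
    star (lam g * (semi c * lam g) : Op G C) = lam g * (semi c * lam g) := by
  rw [star_mul, star_mul, star_semi, star_lam hh, mul_assoc]

theorem conj_ket (hh : ∀ g : G, g + g = 0) (g : G) (c : C) :
    (lam g * (semi c * lam g) : Op G C) vac = ket ((g : G), [(c, g)]) := by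
  show lam g (semi c (lam g vac)) = _
  rw [vac, lam_ket hh, semi_ket_nil, lam_ket hh]
  simp

/-- The mirror of a generator. -/
def mirror (hh : ∀ g : G, g + g = 0) : G ⊕ C → Op G C :=
  Sum.elim (rho hh) fun c => rcre c + rann c

theorem star_mirror (hh : ∀ g : G, g + g = 0) (a : G ⊕ C) :
    star (mirror hh a : Op G C) = mirror hh a := by
  cases a <;> simp [mirror, star_rho, star_rcre, star_rann, add_comm]

theorem star_gen (hh : ∀ g : G, g + g = 0) (a : G ⊕ C) : star (gen a : Op G C) = gen a := by
  cases a <;> simp [gen, star_lam hh, star_semi]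

theorem mirror_comm (hh : ∀ g : G, g + g = 0) (a b : G ⊕ C) :
    Commute (gen a : Op G C) (mirror hh b) := by
  rcases a with g | c <;> rcases b with h | d
  exacts [(rho_comm_lam hh h g).symm, (rsemi_comm_lam hh d g).symm,
    (rho_comm_semi hh h c).symm, (rsemi_comm d c).symm]

theorem gen_vac_eq_mirror (hh : ∀ g : G, g + g = 0) (a : G ⊕ C) :
    gen a (vac : Fock G C) = mirror hh a vac := by
  cases a with
  | inl g => exact lam_vac hh g
  | inr c =>
    show semi c vac = (rcre c + rann c : Op G C) vac
    simp [semi_vac, rcre_vac, rann_vac]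

/-- The span of the words in the mirrors applied to the vacuum. -/
def mirrorSpan (hh : ∀ g : G, g + g = 0) : Submodule ℂ (Fock G C) :=
  Submodule.span ℂ
    (Set.range fun w : List (G ⊕ C) => (w.map (mirror hh)).prod (vac : Fock G C))

theorem mirror_mem_span (hh : ∀ g : G, g + g = 0) (a : G ⊕ C) {v : Fock G C}
    (hv : v ∈ mirrorSpan hh) : mirror hh a v ∈ mirrorSpan hh := by
  refine Submodule.span_induction ?_ ?_ ?_ ?_ hv
  · rintro _ ⟨w, rfl⟩
    exact Submodule.subset_span ⟨a :: w, rfl⟩
  · simp
  · intro x y _ _ hx hy; rw [map_add]; exact add_mem hx hy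
  · intro r x _ hx; rw [map_smul]; exact Submodule.smul_mem _ _ hx

theorem addLast_snoc (h : G) (c : C) (g : G) :
    ∀ L : List (C × G), addLast h (L ++ [(c, g)]) = L ++ [(c, g + h)]
  | [] => rfl
  | a :: L => by simp [addLast_cons, addLast_snoc h c g L]

theorem ket_mem_span (hh : ∀ g : G, g + g = 0) :
    ∀ (d : ℕ) (g : G) (L : List (C × G)), L.length ≤ d →
      ket ((g : G), L) ∈ mirrorSpan (C := C) hh := by
  have hrho : ∀ (h : G) (x : Basis G C),
      mirror hh (Sum.inl h) (ket x) = ket (rtransl h x) := fun h x => by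
    show rho hh h (ket x) = _
    rw [rho, ← adjoint_pull_involutive _ (rtransl_involutive hh h)]
    exact push_ket _ _ x
  intro d
  induction d with
  | zero =>
    intro g L hL
    obtain rfl : L = [] := by simpa using hL
    have h := hrho g ((0 : G), [])
    simp only [rtransl, zero_add] at h
    rw [← h]
    exact mirror_mem_span hh _ (Submodule.subset_span ⟨[], rfl⟩)
  | succ d ih =>
    intro g L hL
    rcases eq_or_ne L [] with rfl | hne
    · exact ih g [] (Nat.zero_le _)
    obtain ⟨L', ⟨c, h⟩, rfl⟩ : ∃ L' a, L = L' ++ [a] :=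
      ⟨_, _, (List.dropLast_append_getLast hne).symm⟩
    rw [List.length_append, List.length_singleton] at hL
    have h0 : ket ((g : G), L' ++ [(c, (0 : G))]) ∈ mirrorSpan hh := by
      have e : mirror hh (Sum.inr c) (ket ((g : G), L')) - rann c (ket (g, L'))
          = ket (g, L' ++ [(c, 0)]) := by
        show rcre c (ket (g, L')) + rann c (ket (g, L')) - rann c (ket (g, L')) = _
        rw [add_sub_cancel_right]
        exact push_ket _ _ _
      rw [← e]
      refine sub_mem (mirror_mem_span hh _ (ih g L' (by omega))) ?_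
      by_cases hx : ∃ y, rsnoc c y = (g, L')
      · obtain ⟨⟨g', M⟩, hy⟩ := hx
        rw [← hy, ← push_ket _ (rsnoc_injective c) (g', M)]
        rw [show rann c (push (rsnoc c) (rsnoc_injective c) (ket (g', M))) = ket (g', M) from
          congrArg (fun T : Op G C => T (ket (g', M))) (pull_push _ (rsnoc_injective c))]
        refine ih g' M ?_
        simp [rsnoc, Prod.ext_iff] at hy
        rw [← hy.2] at hL
        simp at hL
        omega
      · have : rann c (ket ((g : G), L')) = (0 : Fock G C) := by
          ext x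
          show ket (g, L') (rsnoc c x) = 0
          rw [ket_apply, if_neg fun e => hx ⟨x, e⟩]
        rw [this]
        exact zero_mem _
    have e : rtransl h ((g : G), L' ++ [(c, (0 : G))]) = (g, L' ++ [(c, h)]) := by
      cases hL' : L' ++ [(c, (0 : G))] with
      | nil => simp at hL'
      | cons a M =>
        show (g, addLast h (a :: M)) = _
        rw [← hL', addLast_snoc, zero_add]
    rw [← e, ← hrho]
    exact mirror_mem_span hh _ h0

/-- The vacuum is cyclic for the mirrors. -/
theorem mirror_cyclic (hh : ∀ g : G, g + g = 0) :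
    (mirrorSpan (C := C) hh).topologicalClosure = ⊤ := by
  refine Submodule.eq_top_iff'.2 fun v => ?_
  have hs : ∀ x, lp.single 2 x (v x) = v x • ket x := fun x => by
    rw [ket, ← lp.single_smul]; simp
  have hv : HasSum (fun x => v x • ket x) v := by
    simpa only [hs] using lp.hasSum_single (by norm_num) v
  exact mem_closure_of_tendsto hv (Filter.Eventually.of_forall fun s =>
    sum_mem fun x _ => Submodule.smul_mem _ _ (ket_mem_span hh _ x.1 x.2 le_rfl))

theorem norm_vac_eq : ‖(vac : Fock G C)‖ = 1 := norm_ket _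

end General

section Example

variable {m : ℕ}

theorem cube_add_self (g : Cube m) : g + g = 0 := funext fun i => CharTwo.add_self_eq_zero _

theorem law_eq_mom {ι : Type*} (Y : ι → Space m →L[ℂ] Space m) (w : List ι) :
    law (omega m) Y w = vacMom (w.map Y).prod := rfl

theorem zOp_mem_zalg (i : Idx m) : zOp m i ∈ zalg (none : Colour m) := by
  rcases i with (l | u) | g
  · exact lam_mem_zalg _ _
  · exact semi_mem_zalg _
  · exact mul_mem (lam_mem_zalg _ _) (mul_mem (semi_mem_zalg _) (lam_mem_zalg _ _))

theorem zWord_mem_zalg (K : List (Idx m)) : opWord (zOp m) K ∈ zalg (none : Colour m) :=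
  list_prod_mem fun T hT => by
    obtain ⟨i, -, rfl⟩ := List.mem_map.1 hT
    exact zOp_mem_zalg i

theorem realOp_zOp (i : Idx m) : RealOp (zOp m i) := by
  rcases i with (l | u) | g
  · exact realOp_lam _
  · exact realOp_semi _
  · exact (realOp_lam _).mul ((realOp_semi _).mul (realOp_lam _))

theorem star_zOp (i : Idx m) : star (zOp m i) = zOp m i := by
  rcases i with (l | u) | g
  · exact star_lam cube_add_self _
  · exact star_semi _
  · exact star_conj cube_add_self g none

theorem star_xOp (j : Idx m) : star (xOp m j) = xOp m j := by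
  simp [xOp, star_zOp, star_semi, Complex.conj_ofReal]

theorem star_sOp (j : Idx m) : star (sOp m j) = sOp m j := star_semi _

theorem zOp_mem_alg (i : Idx m) : zOp m i ∈ alg := zalg_le _ (zOp_mem_zalg i)

theorem xOp_mem_alg (j : Idx m) : xOp m j ∈ alg :=
  add_mem (zOp_mem_alg j) (Subalgebra.smul_mem _ (semi_mem _) _)

theorem sOp_mem_alg (j : Idx m) : sOp m j ∈ alg := semi_mem _

theorem perturb_mem_alg (t : ℝ) (j : Idx m) : perturb (xOp m) (sOp m) t j ∈ alg :=
  add_mem (xOp_mem_alg j) (Subalgebra.smul_mem _ (sOp_mem_alg j) _)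

/-- The law of any tuple in the algebra is cyclic. -/
theorem law_rotate {ι : Type*} {Y : ι → Space m →L[ℂ] Space m} (hY : ∀ i, Y i ∈ alg)
    (u v : List ι) : law (omega m) Y (u ++ v) = law (omega m) Y (v ++ u) :=
  mom_rotate cube_add_self hY u v

theorem noiseVar_pos_model (j : Idx m) : 0 < noiseVar m j := by
  rcases j with j | g <;> simp [noiseVar, smallVar]

theorem mixCoeff_sq {t : ℝ} (ht : 0 ≤ t) (j : Idx m) :
    Real.sqrt (noiseVar m j / (noiseVar m j + t)) * Real.sqrt (noiseVar m j / (noiseVar m j + t))
      + Real.sqrt (t / (noiseVar m j + t)) * Real.sqrt (t / (noiseVar m j + t)) = 1 := by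
  have h := noiseVar_pos_model j
  rw [Real.mul_self_sqrt (by positivity), Real.mul_self_sqrt (by positivity), ← add_div,
    div_self (by positivity)]

theorem sqrt_mul_mixCoeff {t : ℝ} (ht : 0 ≤ t) (j : Idx m) {a : ℝ} (ha : 0 ≤ a) :
    Real.sqrt (noiseVar m j + t) * Real.sqrt (a / (noiseVar m j + t)) = Real.sqrt a := by
  have h := noiseVar_pos_model j
  rw [← Real.sqrt_mul (by positivity), mul_div_cancel₀ _ (by positivity)]

theorem adjoint_mixCre (t : ℝ) (j : Idx m) : (mixCre m t j).adjoint =
    ((Real.sqrt (noiseVar m j / (noiseVar m j + t)) : ℝ) : ℂ) • ann (some (false, j)) +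
      ((Real.sqrt (t / (noiseVar m j + t)) : ℝ) : ℂ) • ann (some (true, j)) := by
  rw [← star_eq_adjoint]
  simp [mixCre, star_cre, Complex.conj_ofReal]

theorem perturb_eq_mix {t : ℝ} (ht : 0 ≤ t) (j : Idx m) : perturb (xOp m) (sOp m) t j =
    zOp m j +
      ((Real.sqrt (noiseVar m j + t) : ℝ) : ℂ) • (mixCre m t j + (mixCre m t j).adjoint) := by
  rw [adjoint_mixCre, mixCre]
  simp only [smul_add, smul_smul, ← Complex.ofReal_mul,
    sqrt_mul_mixCoeff ht j (noiseVar_pos_model j).le, sqrt_mul_mixCoeff ht j ht]
  simp only [perturb, xOp, sOp, semi, smul_add]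
  abel

theorem concat_mix {t : ℝ} (ht : 0 ≤ t) (a b : Idx m) (K : List (Idx m)) :
    (mixCre m t a).adjoint.comp ((opWord (zOp m) K).comp (mixCre m t b)) =
      (if a = b then law (omega m) (zOp m) K else 0) • ContinuousLinearMap.id ℂ (Space m) := by
  show (mixCre m t a).adjoint * (opWord (zOp m) K * mixCre m t b) = _ • (1 : Space m →L[ℂ] Space m)
  have h : ∀ p q, ann (some (p, a) : Colour m) * (opWord (zOp m) K * cre (some (q, b)))
      = (if (some (p, a) : Colour m) = some (q, b) then vacMom (opWord (zOp m) K) else 0)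
        • (1 : Space m →L[ℂ] Space m) := fun p q => by
    rw [← mul_assoc]
    exact ann_zalg_cre cube_add_self (by simp) (by simp) (zWord_mem_zalg K)
  rw [adjoint_mixCre, mixCre]
  simp only [add_mul, mul_add, smul_mul_assoc, mul_smul_comm, h, smul_smul, ← add_smul]
  congr 1
  by_cases hab : a = b
  · subst hab
    have e := congrArg (fun r : ℝ => (r : ℂ)) (mixCoeff_sq ht a)
    simp only [Complex.ofReal_add, Complex.ofReal_mul, Complex.ofReal_one] at e
    simp [law_eq_mom, opWord]
    linear_combination (vacMom (List.map (zOp m) K).prod) * e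
  · simp [hab]

theorem concat_vac_mix (t : ℝ) (a : Idx m) (K : List (Idx m)) :
    (mixCre m t a).adjoint (opWord (zOp m) K (omega m)) = 0 := by
  have h : ∀ p, ann (some (p, a) : Colour m) (opWord (zOp m) K (omega m)) = 0 := fun p =>
    ann_zalg_vac cube_add_self (by simp) (zWord_mem_zalg K)
  rw [adjoint_mixCre]
  simp only [ContinuousLinearMap.add_apply, ContinuousLinearMap.smul_apply, h, smul_zero, add_zero]

theorem concat_orth_mix (t : ℝ) (i b : Idx m) (K : List (Idx m)) (v : Space m) :
    ⟪zOp m i (omega m), opWord (zOp m) K (mixCre m t b v)⟫_ℂ = 0 := by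
  have h : ∀ (p : Bool) (v : Space m),
      ⟪zOp m i (omega m), opWord (zOp m) K (cre (some (p, b)) v)⟫_ℂ = 0 := fun p v => by
    rw [← star_zOp, star_eq_adjoint, adjoint_inner_left]
    exact inner_zalg_cre cube_add_self (by simp) (zWord_mem_zalg (i :: K)) v
  simp only [mixCre, ContinuousLinearMap.add_apply, ContinuousLinearMap.smul_apply, map_add, map_smul, inner_add_right, inner_smul_right, h, mul_zero, add_zero]

/-- The sum over the positions of a letter is the free difference quotient. -/
theorem diffQuot_eq_sum {ι : Type*} [DecidableEq ι] (τ : List ι → ℂ) (j : ι) (w : List ι) :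
    diffQuot τ j w
      = ∑ l : Fin w.length, if w[l] = j then τ (w.take l) * τ (w.drop (l + 1)) else 0 := by
  rw [diffQuot, ← Fin.sum_univ_eq_sum_range]
  exact Finset.sum_congr rfl fun l _ => by simp

theorem rann_mul_zalg {c : Colour m} (hc : c ≠ none) {T : Space m →L[ℂ] Space m}
    (hT : T ∈ zalg (none : Colour m)) : Commute (rann c) T := by
  induction hT using Algebra.adjoin_induction with
  | mem x hx =>
    rcases hx with ⟨g, rfl⟩ | rfl
    · exact rann_mul_lam c g
    · show rann c * semi none = semi none * rann c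
      rw [rann_mul_semi, if_neg hc, zero_smul, add_zero]
  | algebraMap r => exact Algebra.commute_algebraMap_right r _
  | add x y _ _ hx hy => exact hx.add_right hy
  | mul x y _ _ hx hy => exact hx.mul_right hy

theorem rann_mul_xOp (p : Bool) (j i : Idx m) :
    rann (some (p, j) : Colour m) * xOp m i = xOp m i * rann (some (p, j))
      + (if p = false ∧ j = i then ((Real.sqrt (noiseVar m i) : ℝ) : ℂ) else 0) • vacProj := by
  rw [xOp, mul_add, (rann_mul_zalg (by simp) (zOp_mem_zalg i)).eq, mul_smul_comm, rann_mul_semi,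
    add_mul, smul_mul_assoc, smul_add, smul_smul, add_assoc]
  congr 3
  by_cases h : p = false ∧ j = i <;> simp [h]

theorem rann_mul_sOp (p : Bool) (j i : Idx m) :
    rann (some (p, j) : Colour m) * sOp m i = sOp m i * rann (some (p, j))
      + (if p = true ∧ j = i then (1 : ℂ) else 0) • vacProj := by
  rw [sOp, rann_mul_semi]
  congr 3
  by_cases h : p = true ∧ j = i <;> simp [h]

theorem rann_mul_perturb (p : Bool) (t : ℝ) (j i : Idx m) :
    rann (some (p, j) : Colour m) * perturb (xOp m) (sOp m) t i
      = perturb (xOp m) (sOp m) t i * rann (some (p, j))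
        + (if j = i then (if p then ((Real.sqrt t : ℝ) : ℂ)
            else ((Real.sqrt (noiseVar m i) : ℝ) : ℂ)) else 0) • vacProj := by
  rw [perturb, mul_add, mul_smul_comm, rann_mul_xOp, rann_mul_sOp, add_mul, smul_mul_assoc,
    smul_add, smul_smul]
  cases p <;> by_cases h : j = i <;> simp [h] <;> abel

theorem schwingerDyson_mix {t : ℝ} (ht : 0 ≤ t) (j : Idx m) (w : List (Idx m)) :
    ⟪mixCre m t j (omega m), opWord (perturb (xOp m) (sOp m) t) w (omega m)⟫_ℂ =
      ((Real.sqrt (noiseVar m j + t) : ℝ) : ℂ) *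
        diffQuot (law (omega m) (perturb (xOp m) (sOp m) t)) j w := by
  obtain ⟨α, hα⟩ : ∃ α : ℝ, α = Real.sqrt (noiseVar m j / (noiseVar m j + t)) := ⟨_, rfl⟩
  obtain ⟨β, hβ⟩ : ∃ β : ℝ, β = Real.sqrt (t / (noiseVar m j + t)) := ⟨_, rfl⟩
  obtain ⟨R, hR⟩ : ∃ R : Space m →L[ℂ] Space m,
      R = (α : ℂ) • rann (some (false, j)) + (β : ℂ) • rann (some (true, j)) := ⟨_, rfl⟩
  have hRv : R (omega m) = 0 := by
    simp only [hR, omega, ContinuousLinearMap.add_apply, ContinuousLinearMap.smul_apply, rann_vac,
      smul_zero, add_zero]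
  have hstar : star R (omega m) = mixCre m t j (omega m) := by
    simp only [hR, mixCre, ← hα, ← hβ, star_add, star_smul, star_rann, omega, rcre_vac,
      ContinuousLinearMap.add_apply, ContinuousLinearMap.smul_apply, Complex.star_def,
      Complex.conj_ofReal]
  have hcoef : (α : ℂ) * (Real.sqrt (noiseVar m j) : ℂ) + (β : ℂ) * (Real.sqrt t : ℂ)
      = (Real.sqrt (noiseVar m j + t) : ℂ) := by
    have h := noiseVar_pos_model j
    have e : α * Real.sqrt (noiseVar m j) + β * Real.sqrt t = Real.sqrt (noiseVar m j + t) := by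
      rw [← sqrt_mul_mixCoeff ht j h.le, ← sqrt_mul_mixCoeff ht j ht, ← hα, ← hβ]
      have e1 := mixCoeff_sq ht j
      rw [← hα, ← hβ] at e1
      linear_combination Real.sqrt (noiseVar m j + t) * e1
    exact_mod_cast e
  have hc : ∀ i, R * perturb (xOp m) (sOp m) t i = perturb (xOp m) (sOp m) t i * R
      + (if j = i then ((Real.sqrt (noiseVar m j + t) : ℝ) : ℂ) else 0) • vacProj := by
    intro i
    rw [hR, add_mul, mul_add, smul_mul_assoc, smul_mul_assoc, mul_smul_comm, mul_smul_comm,
      rann_mul_perturb, rann_mul_perturb, smul_add, smul_add, smul_smul, smul_smul]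
    rw [add_add_add_comm, ← add_smul]
    congr 2
    by_cases h : j = i
    · subst h; simp [hcoef]
    · simp [h]
  rw [← hstar, diffQuot_eq_sum, Finset.mul_sum]
  refine (sd hRv hc w).trans (Finset.sum_congr rfl fun l _ => ?_)
  by_cases h : w[l] = j
  · simp [h, law_eq_mom, mul_assoc]
  · rw [if_neg h, if_neg (Ne.symm h), zero_mul, zero_mul, mul_zero]

/-- The Schwinger-Dyson equation of the free semicircular family against `X` and `S`. -/
theorem schwingerDyson_s (j : Idx m) (u : List (Idx m ⊕ Idx m)) :
    law (omega m) (Sum.elim (xOp m) (sOp m)) (Sum.inr j :: u)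
      = diffQuot (law (omega m) (Sum.elim (xOp m) (sOp m))) (Sum.inr j) u := by
  have hc : ∀ i, rann (some (true, j) : Colour m) * Sum.elim (xOp m) (sOp m) i
      = Sum.elim (xOp m) (sOp m) i * rann (some (true, j))
        + (if i = Sum.inr j then (1 : ℂ) else 0) • vacProj := by
    rintro (i | i)
    · show _ * xOp m i = xOp m i * _ + _
      rw [rann_mul_xOp, if_neg (by simp), if_neg (by simp)]
    · show _ * sOp m i = sOp m i * _ + _
      rw [rann_mul_sOp]
      congr 2
      exact if_congr ⟨fun h => congrArg Sum.inr h.2.symm, fun h => ⟨rfl, (Sum.inr_injective h).symm⟩⟩ rfl rfl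
  rw [diffQuot_eq_sum, law_eq_mom, List.map_cons, List.prod_cons]
  refine (sd_semi _ hc u).trans (Finset.sum_congr rfl fun l _ => ?_)
  by_cases h : u[l] = Sum.inr j
  · simp [h, law_eq_mom]
  · rw [if_neg h, if_neg h, zero_mul, zero_mul]

theorem conj_vac (g : Cube m) :
    zOp m (Sum.inr g) (omega m) = ket (g, [((none : Colour m), g)]) := by
  exact conj_ket cube_add_self g none

theorem norm_conj_vac (g : Cube m) : ‖zOp m (Sum.inr g) (omega m)‖ = 1 := by
  rw [conj_vac, norm_ket]

theorem law_conj_eq_zero (g : Cube m) : law (omega m) (zOp m) [Sum.inr g] = 0 := by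
  rw [law_eq_mom, List.map_singleton, List.prod_singleton, mom_eq]
  show zOp m (Sum.inr g) (omega m) _ = 0
  rw [conj_vac, ket_apply, if_neg (by simp)]

theorem law_real_z (K : List (Idx m)) : (law (omega m) (zOp m) K).im = 0 :=
  mom_im (realOp_prod _ fun T hT => by
    obtain ⟨i, -, rfl⟩ := List.mem_map.1 hT
    exact realOp_zOp i)

end Example

end Vale.Agent.P087
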