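import Vale.Agent.P087.MomentLevels

/-!
# P087, module C: the moment bound (owner: helper21)
-/

namespace Vale.Agent.P087

open scoped InnerProductSpace

namespace Moment

open Finset

variable {m : ℕ}

/-- The norm of the part of depth `k` of a family of vectors. -/
noncomputable def lev {α : Type} [Fintype α] (k : ℕ) (v : α → Basis (Cube m) (Colour m) → ℂ) : ℝ :=
  ‖(WithLp.toLp 2 fun p : α × Cube m × (Fin k → Colour m × Cube m) =>
    v p.1 (p.2.1, List.ofFn p.2.2) : EuclideanSpace ℂ _)‖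

theorem lev_nonneg {α : Type} [Fintype α] (k : ℕ) (v : α → Basis (Cube m) (Colour m) → ℂ) :
    0 ≤ lev k v := norm_nonneg _

theorem lev_eq {α : Type} [Fintype α] (k : ℕ) (v : α → Basis (Cube m) (Colour m) → ℂ) :
    lev k v = Real.sqrt (∑ x, levSq k (v x)) := by
  simp [lev, EuclideanSpace.norm_eq, levSq, Fintype.sum_prod_type]

theorem lev_add₃ {α : Type} [Fintype α] (k : ℕ) (u v w : α → Basis (Cube m) (Colour m) → ℂ) :
    lev k (fun x b => u x b + v x b + w x b) ≤ lev k u + lev k v + lev k w := by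
  simp only [lev]
  exact le_trans (le_of_eq (congrArg norm (by ext; simp))) norm_add₃_le

/-- `θ = (2^m+1)^{1/4}`. -/
noncomputable def theta (m : ℕ) : ℝ := ((2 : ℝ) ^ m + 1) ^ ((4 : ℝ)⁻¹)

theorem theta_pos : 0 < theta m := Real.rpow_pos_of_pos (by positivity) _

theorem sqrt_card_eq : Real.sqrt ((2 : ℝ) ^ m + 1) = theta m * theta m := by
  rw [theta, ← Real.rpow_add (by positivity), Real.sqrt_eq_rpow]
  norm_num

theorem lev_step {α : Type} [Fintype α] (k : ℕ) (v : α → Idx m → Space m) :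
    lev k (fun x => ⇑(∑ a, zOp m a (v x a))) ≤
      Real.sqrt m * lev k (fun p : α × Idx m => ⇑(v p.1 p.2)) +
      (if k = 0 then 0 else Real.sqrt 2 * lev (k - 1) fun p : α × Idx m => ⇑(v p.1 p.2)) +
      theta m * theta m * lev (k + 1) (fun p : α × Idx m => ⇑(v p.1 p.2)) := by
  have e : (fun x => ⇑(∑ a, zOp m a (v x a))) =
      fun x b => gPart (v x) b + cPart (v x) b + aPart (v x) b :=
    funext fun x => funext fun b => zOp_parts (v x) b
  rw [e]
  refine (lev_add₃ k _ _ _).trans (add_le_add (add_le_add ?_ ?_) ?_)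
  · rw [lev_eq, lev_eq, ← Real.sqrt_mul (Nat.cast_nonneg m), Fintype.sum_prod_type, mul_sum]
    refine Real.sqrt_le_sqrt (sum_le_sum fun x _ => (levSq_gPart (v x) k).trans ?_)
    refine mul_le_mul_of_nonneg_left ?_ (Nat.cast_nonneg m)
    simp only [Fintype.sum_sum_type]
    linarith [sum_nonneg fun (_ : Unit) (_ : _ ∈ univ) => levSq_nonneg k ⇑(v x (Sum.inl (Sum.inr ()))),
      sum_nonneg fun (g : Cube m) (_ : g ∈ univ) => levSq_nonneg k ⇑(v x (Sum.inr g))]
  · rcases k with _ | k
    · simp [lev_eq, levSq_cPart_zero]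
    rw [if_neg (by omega), Nat.add_sub_cancel, lev_eq, lev_eq, ← Real.sqrt_mul two_pos.le,
      Fintype.sum_prod_type, mul_sum]
    refine Real.sqrt_le_sqrt (sum_le_sum fun x _ => (levSq_cPart (v x) k).trans ?_)
    refine mul_le_mul_of_nonneg_left ?_ two_pos.le
    simp only [Fintype.sum_sum_type, Finset.univ_unique, Finset.sum_singleton]
    linarith [sum_nonneg fun (l : Fin m) (_ : l ∈ univ) => levSq_nonneg k ⇑(v x (Sum.inl (Sum.inl l)))]
  · rw [← sqrt_card_eq, lev_eq, lev_eq, ← Real.sqrt_mul (by positivity), Fintype.sum_prod_type,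
      mul_sum]
    refine Real.sqrt_le_sqrt (sum_le_sum fun x _ => (levSq_aPart (v x) k).trans ?_)
    refine mul_le_mul_of_nonneg_left ?_ (by positivity)
    simp only [Fintype.sum_sum_type, Finset.univ_unique, Finset.sum_singleton]
    linarith [sum_nonneg fun (l : Fin m) (_ : l ∈ univ) =>
      levSq_nonneg (k + 1) ⇑(v x (Sum.inl (Sum.inl l)))]

/-- `∑_{|J| = d} c J z_J Ω`. -/
noncomputable def combo (d : ℕ) (c : (Fin d → Idx m) → ℂ) : Space m :=
  ∑ J, c J • opWord (zOp m) (List.ofFn J) (omega m)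

theorem combo_succ (d : ℕ) (c : (Fin (d + 1) → Idx m) → ℂ) :
    combo (d + 1) c = ∑ a, zOp m a (combo d fun J => c (Fin.cons a J)) := by
  rw [combo, ← (Fin.consEquiv fun _ : Fin (d + 1) => Idx m).sum_comp, Fintype.sum_prod_type]
  simp only [Fin.consEquiv, Equiv.coe_fn_mk, List.ofFn_cons, combo, map_sum, map_smul, opWord,
    List.map_cons, List.prod_cons, mul_apply_eq_comp]

theorem lev_combo : ∀ (d : ℕ) {α : Type} [Fintype α] (c : α → (Fin d → Idx m) → ℂ),
    (∀ k, d < k → lev k (fun x => ⇑(combo d (c x))) = 0) ∧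
    ∑ k ∈ range (d + 1), theta m ^ k * lev k (fun x => ⇑(combo d (c x))) ≤
      momentBound m ^ d *
        ‖(WithLp.toLp 2 fun p : α × (Fin d → Idx m) => c p.1 p.2 : EuclideanSpace ℂ _)‖
  | 0, α, _, c => by
    have h0 : ∀ x (g : Cube m) (L : List (Colour m × Cube m)),
        (combo 0 (c x)) (g, L) = if g = 0 ∧ L = [] then c x Fin.elim0 else 0 := fun x g L => by
      rw [combo, Fintype.sum_subsingleton _ Fin.elim0]
      simp [opWord, omega, vac, ket_apply, Prod.ext_iff]
    refine ⟨fun k hk => ?_, le_of_eq ?_⟩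
    · obtain ⟨k, rfl⟩ := Nat.exists_eq_succ_of_ne_zero (by omega : k ≠ 0)
      simp [lev_eq, levSq, h0]
    · simp [lev_eq, levSq, h0, EuclideanSpace.norm_eq, Fintype.sum_prod_type, apply_ite (‖·‖ ^ 2)]
      congr
  | d + 1, α, _, c => by
    obtain ⟨ih0, ih⟩ := lev_combo d (fun (p : α × Idx m) J => c p.1 (Fin.cons p.2 J))
    set A := fun k => lev k fun p : α × Idx m => ⇑(combo d fun J => c p.1 (Fin.cons p.2 J))
      with hA
    have hstep : ∀ k, lev k (fun x => ⇑(combo (d + 1) (c x))) ≤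
        Real.sqrt m * A k + (if k = 0 then 0 else Real.sqrt 2 * A (k - 1)) +
          theta m * theta m * A (k + 1) := fun k => by
      simp only [combo_succ, hA]
      exact lev_step k fun x a => combo d fun J => c x (Fin.cons a J)
    have hA0 : ∀ k, d < k → A k = 0 := ih0
    refine ⟨fun k hk => le_antisymm ((hstep k).trans (le_of_eq ?_)) (lev_nonneg _ _), ?_⟩
    · rw [if_neg (by omega), hA0 k (by omega), hA0 (k - 1) (by omega), hA0 (k + 1) (by omega)]
      ring
    have hnorm : ‖(WithLp.toLp 2 fun p : (α × Idx m) × (Fin d → Idx m) =>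
          c p.1.1 (Fin.cons p.1.2 p.2) : EuclideanSpace ℂ _)‖ =
        ‖(WithLp.toLp 2 fun p : α × (Fin (d + 1) → Idx m) => c p.1 p.2 :
          EuclideanSpace ℂ _)‖ := by
      simp only [EuclideanSpace.norm_eq, Fintype.sum_prod_type]
      congr 1
      refine sum_congr rfl fun x _ => ?_
      rw [← (Fin.consEquiv fun _ : Fin (d + 1) => Idx m).sum_comp, Fintype.sum_prod_type]
      simp [Fin.consEquiv]
    rw [hnorm] at ih
    set T := ∑ k ∈ range (d + 1), theta m ^ k * A k with hT
    have hT0 : 0 ≤ T :=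
      sum_nonneg fun k _ => mul_nonneg (pow_nonneg theta_pos.le k) (lev_nonneg _ _)
    refine (sum_le_sum fun k _ => mul_le_mul_of_nonneg_left (hstep k)
      (pow_nonneg theta_pos.le k)).trans ?_
    simp only [mul_add, sum_add_distrib]
    have h1 : ∑ k ∈ range (d + 1 + 1), theta m ^ k * (Real.sqrt m * A k) = Real.sqrt m * T := by
      rw [sum_range_succ, hA0 (d + 1) (by omega), hT, mul_sum]
      simp only [mul_zero, add_zero]
      exact sum_congr rfl fun k _ => by ring
    have h2 : ∑ k ∈ range (d + 1 + 1),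
        theta m ^ k * (if k = 0 then 0 else Real.sqrt 2 * A (k - 1)) =
          Real.sqrt 2 * theta m * T := by
      rw [sum_range_succ', hT, mul_sum]
      simp only [Nat.add_one_ne_zero, if_false, Nat.add_sub_cancel, if_true, mul_zero, add_zero]
      exact sum_congr rfl fun k _ => by ring
    have h3 : ∑ k ∈ range (d + 1 + 1), theta m ^ k * (theta m * theta m * A (k + 1)) ≤
        theta m * T := by
      rw [sum_range_succ, hA0 (d + 1 + 1) (by omega), sum_range_succ, hA0 (d + 1) (by omega),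
        hT, sum_range_succ' _ d, mul_add, mul_sum]
      simp only [mul_zero, add_zero]
      refine le_add_of_le_of_nonneg (le_of_eq (sum_congr rfl fun k _ => by ring)) ?_
      exact mul_nonneg theta_pos.le (mul_nonneg (pow_nonneg theta_pos.le 0) (lev_nonneg _ _))
    have hs2 : Real.sqrt 2 ≤ 2 := Real.sqrt_le_iff.2 ⟨by norm_num, by norm_num⟩
    have hQ : momentBound m = Real.sqrt m + 3 * theta m := rfl
    rw [h1, h2]
    calc Real.sqrt m * T + Real.sqrt 2 * theta m * T +
          ∑ k ∈ range (d + 1 + 1), theta m ^ k * (theta m * theta m * A (k + 1))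
        ≤ momentBound m * T := by
          have hm2 := mul_le_mul_of_nonneg_right hs2 (mul_nonneg theta_pos.le hT0 : 0 ≤ theta m * T)
          rw [hQ, add_mul, mul_assoc 3, mul_assoc (Real.sqrt 2)]
          linarith
      _ ≤ _ := by
          rw [pow_succ', mul_assoc]
          exact mul_le_mul_of_nonneg_left ih (by rw [hQ]; exact add_nonneg (Real.sqrt_nonneg _) (mul_nonneg (by norm_num) theta_pos.le))

theorem combo_eq_zero_of_depth (d : ℕ) (c : (Fin d → Idx m) → ℂ) (g : Cube m)
    (L : List (Colour m × Cube m)) (h : d < L.length) : combo d c (g, L) = 0 := by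
  have h0 := (lev_combo d fun _ : Unit => c).1 L.length h
  rw [lev, norm_eq_zero] at h0
  have h1 := congrFun (congrArg WithLp.ofLp h0) ((), g, L.get)
  simpa using h1

end Moment

open Moment Finset in
/-- **Moment bound**, section 3d of the proof. -/
theorem momentBound_holds (m : ℕ) : MomentBound m := by
  classical
  intro d h hh
  set p := fun J : Fin d → Idx m => ⟪h, opWord (zOp m) (List.ofFn J) (omega m)⟫_ℂ with hp
  set T := Real.sqrt (∑ J, ‖p J‖ ^ 2) with hT
  set V := combo d fun J => (starRingEnd ℂ) (p J) with hV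
  let S : Type := Σ k : Fin (d + 1), Cube m × (Fin (k : ℕ) → Colour m × Cube m)
  set f : S → Basis (Cube m) (Colour m) := fun s => (s.2.1, List.ofFn s.2.2) with hf
  have hinj : Function.Injective f := by
    rintro ⟨⟨k, hk⟩, g, L⟩ ⟨⟨k', hk'⟩, g', L'⟩ e
    simp only [hf, Prod.mk.injEq] at e
    obtain rfl : k = k' := by simpa using congrArg List.length e.2
    obtain rfl := e.1
    rw [List.ofFn_inj.1 e.2]
  have h1 : ⟪h, V⟫_ℂ = (T ^ 2 : ℝ) := by
    rw [hT, Real.sq_sqrt (sum_nonneg fun J _ => sq_nonneg _), hV, combo, inner_sum,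
      Complex.ofReal_sum]
    refine sum_congr rfl fun J _ => ?_
    rw [inner_smul_right, Complex.ofReal_pow, ← Complex.conj_mul']
  have h2 : ⟪h, V⟫_ℂ = ∑ s : S, (starRingEnd ℂ) (h (f s)) * V (f s) := by
    rw [lp.inner_eq_tsum, tsum_eq_sum (s := univ.map ⟨f, hinj⟩), sum_map]
    · simp only [RCLike.inner_apply', Function.Embedding.coeFn_mk]
    · rintro ⟨g, L⟩ hb
      have : d < L.length := by
        by_contra hle
        exact hb (mem_map.2 ⟨⟨⟨L.length, by omega⟩, g, L.get⟩, mem_univ _, by simp [hf]⟩)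
      simp [hV, combo_eq_zero_of_depth d _ g L this]
  have h3 : Real.sqrt (∑ s : S, ‖h (f s)‖ ^ 2) ≤ 1 := by
    refine (Real.sqrt_le_sqrt ?_).trans (by rwa [Real.sqrt_sq (norm_nonneg h)] : Real.sqrt (‖h‖ ^ 2) ≤ 1)
    have := lp.sum_rpow_le_norm_rpow (p := 2) (by norm_num) h (univ.map ⟨f, hinj⟩)
    simpa [sum_map] using this
  have h4 : Real.sqrt (∑ s : S, ‖V (f s)‖ ^ 2) ≤ momentBound m ^ d * T := by
    obtain ⟨-, hl⟩ := lev_combo d fun _ : Unit => fun J => (starRingEnd ℂ) (p J)
    have e : ‖(WithLp.toLp 2 fun q : Unit × (Fin d → Idx m) => (starRingEnd ℂ) (p q.2) :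
        EuclideanSpace ℂ _)‖ = T := by
      simp [EuclideanSpace.norm_eq, hT, Fintype.sum_prod_type]
    rw [e] at hl
    refine le_trans ?_ hl
    have hth : 1 ≤ theta m :=
      Real.one_le_rpow (le_add_of_nonneg_left (by positivity)) (by norm_num)
    refine le_trans ?_ (sum_le_sum fun k _ =>
      le_mul_of_one_le_left (lev_nonneg _ _) (one_le_pow₀ hth))
    rw [Real.sqrt_le_iff]
    refine ⟨sum_nonneg fun k _ => lev_nonneg _ _, ?_⟩
    refine le_trans (le_of_eq ?_) (sum_sq_le_sq_sum_of_nonneg fun k _ => lev_nonneg _ _)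
    rw [Fintype.sum_sigma, ← Fin.sum_univ_eq_sum_range (n := d + 1)]
    refine sum_congr rfl fun k _ => ?_
    rw [lev_eq, Real.sq_sqrt (sum_nonneg fun x _ => levSq_nonneg _ _)]
    simp [levSq, hf, hV, Fintype.sum_prod_type]
  show T ≤ momentBound m ^ d
  rcases eq_or_lt_of_le (Real.sqrt_nonneg (∑ J, ‖p J‖ ^ 2)) with hT0 | hT0
  · rw [hT, ← hT0]
    exact pow_nonneg (add_nonneg (Real.sqrt_nonneg _) (mul_nonneg (by norm_num) theta_pos.le)) d
  have key : T ^ 2 ≤ momentBound m ^ d * T := by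
    calc T ^ 2 = ‖⟪h, V⟫_ℂ‖ := by rw [h1, Complex.norm_real, Real.norm_of_nonneg (sq_nonneg T)]
      _ ≤ ∑ s : S, ‖h (f s)‖ * ‖V (f s)‖ := by
          rw [h2]
          refine (norm_sum_le _ _).trans_eq ?_
          simp
      _ ≤ Real.sqrt (∑ s : S, ‖h (f s)‖ ^ 2) * Real.sqrt (∑ s : S, ‖V (f s)‖ ^ 2) :=
          Real.sum_mul_le_sqrt_mul_sqrt _ _ _
      _ ≤ _ := le_trans (mul_le_of_le_one_left (Real.sqrt_nonneg _) h3) h4
  nlinarith [key, hT0]

end Vale.Agent.P087
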