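import Vale.Agent.P087.ModelInterface

/-!
# P087, module C: one letter acting on coordinates, level by level (owner: helper21)
-/

namespace Vale.Agent.P087.Moment

open Finset

section Coord

variable {Γ C : Type} [AddCommGroup Γ] [DecidableEq Γ] [DecidableEq C]

theorem lam_apply (g h : Γ) (L : List (C × Γ)) (v : Fock Γ C) :
    (lam g v) (h, L) = v (g + h, L) := rfl

theorem cre_apply_nil (c : C) (g : Γ) (v : Fock Γ C) : (cre c v) (g, []) = 0 :=
  push_apply_of_not_mem _ _ fun y => by simp [pcons]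

theorem cre_apply_cons (c c' : C) (g g' : Γ) (L : List (C × Γ)) (v : Fock Γ C) :
    (cre c v) (g, (c', g') :: L) = if g = 0 ∧ c' = c then v (g', L) else 0 := by
  split_ifs with h
  · obtain ⟨rfl, rfl⟩ := h
    exact push_apply_image _ _ v (g', L)
  · exact push_apply_of_not_mem _ _ fun y e => h (by
      simp [pcons] at e; exact ⟨e.1.symm, e.2.1.1.symm⟩)

theorem ann_apply (c : C) (g : Γ) (L : List (C × Γ)) (v : Fock Γ C) :
    (ann c v) (g, L) = v (0, (c, g) :: L) := rfl

omit [AddCommGroup Γ] [DecidableEq Γ] [DecidableEq C] in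
theorem sum_apply' {ι : Type} (s : Finset ι) (f : ι → Fock Γ C) (b : Basis Γ C) :
    (∑ x ∈ s, f x : Fock Γ C) b = ∑ x ∈ s, f x b := by
  rw [lp.coeFn_sum]
  exact Finset.sum_apply b s fun x => (f x : Basis Γ C → ℂ)

variable [Fintype Γ] [Fintype C]

/-- The squared norm of the part of depth `k`. -/
noncomputable def levSq (k : ℕ) (v : Basis Γ C → ℂ) : ℝ :=
  ∑ g : Γ, ∑ L : Fin k → C × Γ, ‖v (g, List.ofFn L)‖ ^ 2

omit [AddCommGroup Γ] [DecidableEq Γ] [DecidableEq C] in
theorem levSq_nonneg (k : ℕ) (v : Basis Γ C → ℂ) : 0 ≤ levSq k v :=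
  sum_nonneg fun _ _ => sum_nonneg fun _ _ => sq_nonneg _

omit [DecidableEq Γ] [DecidableEq C] in
theorem levSq_shift (k : ℕ) (v : Basis Γ C → ℂ) (h : Γ) :
    levSq k (fun b => v (h + b.1, b.2)) = levSq k v :=
  Equiv.sum_comp (Equiv.addLeft h) fun g => ∑ L : Fin k → C × Γ, ‖v (g, List.ofFn L)‖ ^ 2

omit [AddCommGroup Γ] [DecidableEq Γ] [DecidableEq C] in
theorem sum_cons_le (k : ℕ) (v : Basis Γ C → ℂ) (h : Γ) (c : C) :
    ∑ g : Γ, ∑ L : Fin k → C × Γ, ‖v (h, (c, g) :: List.ofFn L)‖ ^ 2 ≤ levSq (k + 1) v := by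
  refine le_trans ?_ (single_le_sum (f := fun g => ∑ L : Fin (k + 1) → C × Γ,
    ‖v (g, List.ofFn L)‖ ^ 2) (fun g _ => sum_nonneg fun L _ => sq_nonneg _) (mem_univ h))
  show _ ≤ ∑ L : Fin (k + 1) → C × Γ, ‖v (h, List.ofFn L)‖ ^ 2
  rw [← (Fin.consEquiv fun _ : Fin (k + 1) => C × Γ).sum_comp, Fintype.sum_prod_type,
    Fintype.sum_prod_type]
  simp only [Fin.consEquiv, Equiv.coe_fn_mk, List.ofFn_cons]
  exact single_le_sum (f := fun c' => ∑ g : Γ, ∑ L : Fin k → C × Γ,
    ‖v (h, (c', g) :: List.ofFn L)‖ ^ 2)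
    (fun c' _ => sum_nonneg fun g _ => sum_nonneg fun L _ => sq_nonneg _) (mem_univ c)

end Coord

variable {m : ℕ}

/-- The part of `∑_a z_a v_a` that keeps the depth. -/
noncomputable def gPart (v : Idx m → Space m) (b : Basis (Cube m) (Colour m)) : ℂ :=
  ∑ l, v (Sum.inl (Sum.inl l)) (Pi.single l 1 + b.1, b.2)

/-- The part that raises the depth. -/
noncomputable def cPart (v : Idx m → Space m) : Basis (Cube m) (Colour m) → ℂ
  | (_, []) => 0
  | (g, (c, g') :: L) => if c = none then
      (if g = 0 then v (Sum.inl (Sum.inr ())) (g', L) else 0) + v (Sum.inr g) (g + g', L) else 0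

/-- The part that lowers the depth. -/
noncomputable def aPart (v : Idx m → Space m) (b : Basis (Cube m) (Colour m)) : ℂ :=
  v (Sum.inl (Sum.inr ())) (0, (none, b.1) :: b.2) +
    ∑ g, v (Sum.inr g) (g + 0, (none, g + b.1) :: b.2)

theorem zOp_parts (v : Idx m → Space m) (b : Basis (Cube m) (Colour m)) :
    (∑ a, zOp m a (v a)) b = gPart v b + cPart v b + aPart v b := by
  rw [sum_apply']
  obtain ⟨g, L⟩ := b
  rcases L with _ | ⟨⟨c, g'⟩, L⟩
  · simp [zOp, semi, gPart, cPart, aPart, Fintype.sum_sum_type, lam_apply,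
      cre_apply_nil, ann_apply, add_assoc]
  · have e : ∑ x : Cube m, (cre none (lam x (v (Sum.inr x)))) (x + g, (c, g') :: L) =
        if c = none then v (Sum.inr g) (g + g', L) else 0 := by
      rw [Fintype.sum_eq_single g]
      · simp [cre_apply_cons, lam_apply, ZModModule.add_self]
      · intro x hx
        rw [cre_apply_cons, if_neg]
        rintro ⟨h, -⟩
        exact hx (by rwa [add_eq_zero_iff_eq_neg, ZModModule.neg_eq_self] at h)
    simp only [zOp, semi, gPart, cPart, aPart, Fintype.sum_sum_type, lp.coeFn_add,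
      Pi.add_apply, add_apply, ContinuousLinearMap.comp_apply, lam_apply,
      ann_apply, map_add, sum_add_distrib, Finset.univ_unique, Finset.sum_singleton]
    rw [e, cre_apply_cons]
    split_ifs <;> simp_all <;> ring

theorem levSq_gPart (v : Idx m → Space m) (k : ℕ) :
    levSq k (gPart v) ≤ m * ∑ l, levSq k (v (Sum.inl (Sum.inl l))) := by
  calc levSq k (gPart v) ≤ ∑ g, ∑ L : Fin k → Colour m × Cube m,
        (m : ℝ) * ∑ l, ‖v (Sum.inl (Sum.inl l)) (Pi.single l 1 + g, List.ofFn L)‖ ^ 2 := by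
        refine sum_le_sum fun g _ => sum_le_sum fun L _ => ?_
        refine le_trans (pow_le_pow_left₀ (norm_nonneg _) (norm_sum_le _ _) 2) ?_
        simpa using sq_sum_le_card_mul_sum_sq (s := (univ : Finset (Fin m)))
          (f := fun l => ‖v (Sum.inl (Sum.inl l)) (Pi.single l 1 + g, List.ofFn L)‖)
    _ = _ := by
        simp only [← mul_sum]
        congr 1
        rw [sum_congr rfl fun g _ => sum_comm, sum_comm]
        exact sum_congr rfl fun l _ => levSq_shift k _ _

theorem levSq_cPart_zero (v : Idx m → Space m) : levSq 0 (cPart v) = 0 := by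
  simp [levSq, cPart]

theorem levSq_cPart (v : Idx m → Space m) (k : ℕ) :
    levSq (k + 1) (cPart v) ≤
      2 * (levSq k (v (Sum.inl (Sum.inr ()))) + ∑ g, levSq k (v (Sum.inr g))) := by
  calc levSq (k + 1) (cPart v)
      = ∑ g, ∑ g', ∑ L : Fin k → Colour m × Cube m,
          ‖(if g = 0 then v (Sum.inl (Sum.inr ())) (g', List.ofFn L) else 0) +
            v (Sum.inr g) (g + g', List.ofFn L)‖ ^ 2 := by
        refine sum_congr rfl fun g _ => ?_
        rw [← (Fin.consEquiv fun _ : Fin (k + 1) => Colour m × Cube m).sum_comp,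
          Fintype.sum_prod_type, Fintype.sum_prod_type, Fintype.sum_eq_single none]
        · simp [Fin.consEquiv, cPart]
        · intro c hc
          simp [Fin.consEquiv, cPart, hc]
    _ ≤ ∑ g, ∑ g', ∑ L : Fin k → Colour m × Cube m, 2 *
          ((if g = 0 then ‖v (Sum.inl (Sum.inr ())) (g', List.ofFn L)‖ ^ 2 else 0) +
            ‖v (Sum.inr g) (g + g', List.ofFn L)‖ ^ 2) := by
        refine sum_le_sum fun g _ => sum_le_sum fun g' _ => sum_le_sum fun L _ => ?_
        refine le_trans (pow_le_pow_left₀ (norm_nonneg _) (norm_add_le _ _) 2) ?_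
        split_ifs
        · exact add_sq_le
        · simp only [norm_zero, zero_add]
          nlinarith [sq_nonneg ‖v (Sum.inr g) (g + g', List.ofFn L)‖]
    _ = _ := by
        simp only [← mul_sum, sum_add_distrib]
        congr 2
        · rw [Fintype.sum_eq_single 0]
          · simp [levSq]
          · intro g hg
            simp [hg]
        · exact sum_congr rfl fun g _ => levSq_shift k _ _

theorem levSq_aPart (v : Idx m → Space m) (k : ℕ) :
    levSq k (aPart v) ≤ ((2 : ℝ) ^ m + 1) *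
      (levSq (k + 1) (v (Sum.inl (Sum.inr ()))) + ∑ g, levSq (k + 1) (v (Sum.inr g))) := by
  calc levSq k (aPart v) ≤ ∑ g0, ∑ L : Fin k → Colour m × Cube m, ((2 : ℝ) ^ m + 1) *
        (‖v (Sum.inl (Sum.inr ())) (0, (none, g0) :: List.ofFn L)‖ ^ 2 +
          ∑ g, ‖v (Sum.inr g) (g + 0, (none, g + g0) :: List.ofFn L)‖ ^ 2) := by
        refine sum_le_sum fun g0 _ => sum_le_sum fun L _ => ?_
        set u : Option (Cube m) → ℂ := fun o => o.elim
          (v (Sum.inl (Sum.inr ())) (0, (none, g0) :: List.ofFn L))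
          fun g => v (Sum.inr g) (g + 0, (none, g + g0) :: List.ofFn L) with hu
        have h := sq_sum_le_card_mul_sum_sq (s := (univ : Finset (Option (Cube m))))
          (f := fun o => ‖u o‖)
        have h2 : ‖aPart v (g0, List.ofFn L)‖ ≤ ∑ o, ‖u o‖ :=
          le_of_eq_of_le (by simp [aPart, hu, Fintype.sum_option]) (norm_sum_le univ u)
        refine le_trans (pow_le_pow_left₀ (norm_nonneg _) h2 2) (h.trans_eq ?_)
        simp [hu, Fintype.sum_option]
    _ ≤ _ := by
        simp only [← mul_sum, sum_add_distrib]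
        refine mul_le_mul_of_nonneg_left (add_le_add (sum_cons_le k _ _ _) ?_) (by positivity)
        rw [sum_congr rfl fun g0 _ => sum_comm, sum_comm]
        refine sum_le_sum fun g _ => le_trans (le_of_eq ?_) (sum_cons_le k (v (Sum.inr g)) (g + 0) none)
        exact Equiv.sum_comp (Equiv.addLeft g) fun g0 => ∑ L : Fin k → Colour m × Cube m,
          ‖v (Sum.inr g) (g + 0, (none, g0) :: List.ofFn L)‖ ^ 2

end Vale.Agent.P087.Moment
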