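import Vale.Agent.P087.SeriesInterface

/-!
# P087, module B: proof of `SeriesWitness` (owner: helper21)

`ξ` is read off letter by letter: with `v` the solution of `M v = c`, the part of `ξ` behind a first
letter `a` solves the same problem for the series `J ↦ v (a :: J)`.
-/

namespace Vale.Agent.P087

open Finset

namespace Series

variable {I : Type}

/-- The series `v` with `M v = c`. -/
noncomputable def solve (m c : List I → ℝ) : List I → ℝ
  | [] => c []
  | a :: J => c (a :: J) - ∑ p ∈ range (J.length + 1), m (a :: J.take p) * solve m c (J.drop p)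
termination_by J => J.length
decreasing_by
  simp only [List.length_drop, List.length_cons]
  omega

/-- The witness. -/
noncomputable def xi (m : List I → ℝ) : (List I → ℝ) → List I → ℝ
  | c, [] => c []
  | c, a :: A => xi m (fun J => solve m c (a :: J)) A

theorem solve_spec (m c : List I → ℝ) (hm : m [] = 1) (J : List I) :
    (∑ p ∈ range J.length, m (J.take p) * solve m c (J.drop p)) + m J * c [] = c J := by
  rcases J with _ | ⟨a, J⟩
  · simp [hm]
  rw [List.length_cons, sum_range_succ', List.take_zero, List.drop_zero, hm, one_mul]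
  conv_lhs => enter [1, 2]; rw [solve]
  rw [sum_range_succ, List.drop_length, List.take_length, solve]
  simp only [List.take_succ_cons, List.drop_succ_cons]
  ring

variable [DecidableEq I]

theorem xi_spec [Fintype I] (m : List I → ℝ) (hm : m [] = 1) : ∀ (D : ℕ) (c : List I → ℝ)
    (J : List I), J.length ≤ D →
    ∑ d ∈ range (D + 1), ∑ A : Fin d → I, xi m c (List.ofFn A) * gapCoeff m (List.ofFn A) J = c J
  | 0, c, J, hJ => by
    obtain rfl : J = [] := List.length_eq_zero_iff.1 (by omega)
    simp [xi, gapCoeff, hm]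
  | D + 1, c, J, hJ => by
    rw [sum_range_succ']
    refine Eq.trans ?_ (solve_spec m c hm J)
    congr 1
    · have e : ∀ d, ∑ A : Fin (d + 1) → I, xi m c (List.ofFn A) * gapCoeff m (List.ofFn A) J =
          ∑ p ∈ range J.length, ∑ a : I, if J[p]? = some a then m (J.take p) * ∑ A : Fin d → I,
            xi m (fun K => solve m c (a :: K)) (List.ofFn A) *
              gapCoeff m (List.ofFn A) (J.drop (p + 1)) else 0 := fun d => by
        rw [← (Fin.consEquiv fun _ => I).sum_comp, Fintype.sum_prod_type]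
        simp only [Fin.consEquiv, Equiv.coe_fn_mk, List.ofFn_cons, xi, gapCoeff, mul_sum]
        rw [Finset.sum_comm (s := range J.length)]
        refine sum_congr rfl fun a _ => ?_
        rw [Finset.sum_comm]
        refine sum_congr rfl fun p _ => ?_
        split_ifs with h
        · exact sum_congr rfl fun A _ => by ring
        · exact sum_eq_zero fun A _ => mul_zero _
      simp only [e]
      rw [Finset.sum_comm]
      refine sum_congr rfl fun p hp => ?_
      have hp' : p < J.length := mem_range.1 hp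
      rw [Finset.sum_comm, Fintype.sum_eq_single J[p]]
      · simp only [List.getElem?_eq_getElem hp', if_true, ← mul_sum]
        rw [xi_spec m hm D _ _ (by simp only [List.length_drop]; omega), List.getElem_cons_drop]
      · intro a ha
        refine sum_eq_zero fun d _ => if_neg ?_
        simp [List.getElem?_eq_getElem hp', Ne.symm ha]
    · simp [xi, gapCoeff, mul_comm]

/-- Euclidean norm on a finite type. -/
noncomputable def nrm {X : Type*} [Fintype X] (v : X → ℝ) : ℝ := Real.sqrt (∑ x, v x ^ 2)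

theorem nrm_eq {X : Type*} [Fintype X] (v : X → ℝ) :
    nrm v = ‖(WithLp.toLp 2 v : EuclideanSpace ℝ X)‖ := by
  simp [nrm, EuclideanSpace.norm_eq]

theorem nrm_sub_sum_le {X : Type*} [Fintype X] {ι : Type*} (v : X → ℝ) (s : Finset ι)
    (h : ι → X → ℝ) : nrm (fun x => v x - ∑ i ∈ s, h i x) ≤ nrm v + ∑ i ∈ s, nrm (h i) := by
  simp only [nrm_eq]
  rw [show (fun x => v x - ∑ i ∈ s, h i x) = v - ∑ i ∈ s, h i by ext x; simp, WithLp.toLp_sub,
    WithLp.toLp_sum]
  exact (norm_sub_le _ _).trans (add_le_add_right (norm_sum_le _ _) _)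

variable {α : Type*} [Fintype α] [Fintype I]

/-- Degree `d` norm of a family of series. -/
noncomputable def famNorm (c : α → List I → ℝ) (d : ℕ) : ℝ :=
  nrm fun x : α × (Fin d → I) => c x.1 (List.ofFn x.2)

omit [DecidableEq I] in
theorem famNorm_shift (v : α → List I → ℝ) (d : ℕ) :
    famNorm (fun (x : α × I) J => v x.1 (x.2 :: J)) d = famNorm v (d + 1) := by
  simp only [famNorm, nrm, Fintype.sum_prod_type]
  congr 1
  refine sum_congr rfl fun i _ => ?_
  rw [← (Fin.consEquiv fun _ : Fin (d + 1) => I).sum_comp, Fintype.sum_prod_type]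
  simp

omit [DecidableEq I] in
theorem nrm_split (f : List I → ℝ) (g : α → List I → ℝ) (d i : ℕ) (hi : i ≤ d) :
    nrm (fun x : α × (Fin d → I) =>
      f ((List.ofFn x.2).take i) * g x.1 ((List.ofFn x.2).drop i)) =
      degNorm f i * famNorm g (d - i) := by
  obtain ⟨e, rfl⟩ := Nat.exists_eq_add_of_le hi
  rw [Nat.add_sub_cancel_left, nrm, famNorm, nrm, degNorm,
    ← Real.sqrt_mul (sum_nonneg fun _ _ => sq_nonneg _)]
  congr 1
  simp only [Fintype.sum_prod_type, mul_sum]
  refine sum_congr rfl fun j _ => ?_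
  rw [← (Fin.appendEquiv i e).sum_comp, Fintype.sum_prod_type, sum_mul_sum_of_sq f (g j),
    Finset.sum_comm]
  simp only [sum_mul]
where
  sum_mul_sum_of_sq (f g : List I → ℝ) {i e : ℕ} :
      ∑ a : Fin i → I, ∑ b : Fin e → I,
        (f ((List.ofFn (Fin.appendEquiv i e (a, b))).take i) *
          g ((List.ofFn (Fin.appendEquiv i e (a, b))).drop i)) ^ 2 =
        ∑ a : Fin i → I, ∑ b : Fin e → I, f (List.ofFn a) ^ 2 * g (List.ofFn b) ^ 2 := by
    refine sum_congr rfl fun a _ => sum_congr rfl fun b _ => ?_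
    simp [Fin.appendEquiv, List.ofFn_fin_append, List.take_left' (List.length_ofFn (f := a)),
      List.drop_left' (List.length_ofFn (f := a)), mul_pow]

omit [DecidableEq I] in
theorem famNorm_solve_le (m : List I → ℝ) (c : α → List I → ℝ) : ∀ d : ℕ,
    famNorm (fun i => solve m (c i)) d ≤
      famNorm c d + ∑ i ∈ Icc 1 d, degNorm m i * famNorm (fun j => solve m (c j)) (d - i)
  | 0 => by simp [famNorm, solve]
  | d + 1 => by
    have e : ∀ x : α × (Fin (d + 1) → I), solve m (c x.1) (List.ofFn x.2) =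
        c x.1 (List.ofFn x.2) - ∑ p ∈ Icc 1 (d + 1),
          m ((List.ofFn x.2).take p) * solve m (c x.1) ((List.ofFn x.2).drop p) := fun x => by
      rw [List.ofFn_succ, solve, List.length_ofFn, ← Ico_add_one_right_eq_Icc,
        sum_Ico_eq_sum_range, show d + 1 + 1 - 1 = d + 1 by omega]
      congr 1
      exact sum_congr rfl fun p _ => by simp [Nat.add_comm 1 p]
    calc famNorm (fun i => solve m (c i)) (d + 1)
        ≤ famNorm c (d + 1) + ∑ p ∈ Icc 1 (d + 1), nrm (fun x : α × (Fin (d + 1) → I) =>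
            m ((List.ofFn x.2).take p) * solve m (c x.1) ((List.ofFn x.2).drop p)) := by
          unfold famNorm
          simp only [e]
          exact nrm_sub_sum_le _ _ _
      _ = _ := by
          congr 1
          exact sum_congr rfl fun p hp =>
            nrm_split m (fun j => solve m (c j)) (d + 1) p (mem_Icc.1 hp).2

omit [DecidableEq I] in
theorem solve_le {m : List I → ℝ} {r : ℝ} {D : ℕ} (hr : 0 ≤ r)
    (hM : ∑ d ∈ Icc 1 D, r ^ d * degNorm m d ≤ 1 / 4) (c : α → List I → ℝ) :
    ∑ d ∈ range (D + 1), r ^ d * famNorm (fun i => solve m (c i)) d ≤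
      4 / 3 * ∑ d ∈ range (D + 1), r ^ d * famNorm c d := by
  set v := fun d => famNorm (fun i => solve m (c i)) d with hv
  have hv0 : ∀ d, 0 ≤ r ^ d * v d := fun d => mul_nonneg (pow_nonneg hr d) (Real.sqrt_nonneg _)
  set T := ∑ d ∈ range (D + 1), r ^ d * v d with hT
  have h1 : T ≤ (∑ d ∈ range (D + 1), r ^ d * famNorm c d) +
      ∑ d ∈ range (D + 1), ∑ i ∈ Icc 1 d, r ^ i * degNorm m i * (r ^ (d - i) * v (d - i)) := by
    rw [← sum_add_distrib]
    refine sum_le_sum fun d _ => ?_
    refine (mul_le_mul_of_nonneg_left (famNorm_solve_le m c d) (pow_nonneg hr d)).trans_eq ?_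
    rw [mul_add, mul_sum]
    congr 1
    refine sum_congr rfl fun i hi => ?_
    rw [show r ^ d = r ^ i * r ^ (d - i) by rw [← pow_add, Nat.add_sub_of_le (mem_Icc.1 hi).2]]
    ring
  have h2 : (∑ d ∈ range (D + 1), ∑ i ∈ Icc 1 d,
      r ^ i * degNorm m i * (r ^ (d - i) * v (d - i))) ≤ 1 / 4 * T := by
    have hiff : ∀ d i, d ∈ range (D + 1) ∧ i ∈ Icc 1 d ↔ d ∈ Icc i D ∧ i ∈ Icc 1 D := fun d i => by
      simp only [mem_range, mem_Icc]
      omega
    rw [sum_comm' hiff]
    refine le_trans ?_ (mul_le_mul_of_nonneg_right hM (sum_nonneg fun d _ => hv0 d))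
    rw [sum_mul]
    refine sum_le_sum fun i hi => ?_
    rw [← mul_sum, ← Ico_add_one_right_eq_Icc, sum_Ico_eq_sum_range]
    refine mul_le_mul_of_nonneg_left ?_ (mul_nonneg (pow_nonneg hr i) (Real.sqrt_nonneg _))
    simp only [Nat.add_sub_cancel_left]
    exact sum_le_sum_of_subset_of_nonneg
      (range_subset_range.2 (by omega)) fun d _ _ => hv0 d
  linarith

omit [DecidableEq I] in
theorem xi_le {m : List I → ℝ} {ρ : ℝ} (hρ : 0 ≤ ρ) : ∀ (D : ℕ),
    (∑ d ∈ Icc 1 D, (2 * ρ) ^ d * degNorm m d ≤ 1 / 4) → ∀ {α : Type} [Fintype α]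
    (c : α → List I → ℝ), ∑ d ∈ range (D + 1), ρ ^ d * famNorm (fun i => xi m (c i)) d ≤
      4 / 3 * ∑ d ∈ range (D + 1), (2 * ρ) ^ d * famNorm c d
  | 0, _, α, _, c => by
    have h : famNorm (fun i => xi m (c i)) 0 = famNorm c 0 := by simp [famNorm, xi]
    have h0 : 0 ≤ famNorm c 0 := Real.sqrt_nonneg _
    simp only [sum_range_one, pow_zero, one_mul, h, zero_add]
    linarith
  | D + 1, hM, α, _, c => by
    set v := fun i => solve m (c i) with hv
    have hM' : ∑ d ∈ Icc 1 D, (2 * ρ) ^ d * degNorm m d ≤ 1 / 4 := le_trans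
      (sum_le_sum_of_subset_of_nonneg (Icc_subset_Icc le_rfl D.le_succ) fun d _ _ =>
        mul_nonneg (pow_nonneg (by linarith) d) (Real.sqrt_nonneg _)) hM
    have ih := xi_le hρ D hM' (fun (x : α × I) J => v x.1 (x.2 :: J))
    have e : ∀ d, famNorm (fun i => xi m (c i)) (d + 1) =
        famNorm (fun (x : α × I) => xi m fun J => v x.1 (x.2 :: J)) d := fun d => by
      rw [← famNorm_shift (fun i => xi m (c i)) d]
      rfl
    simp only [famNorm_shift v] at ih
    have hv' := solve_le (r := 2 * ρ) (by linarith) hM c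
    rw [sum_range_succ'] at hv'
    rw [sum_range_succ']
    simp only [e]
    have h0 : famNorm (fun i => xi m (c i)) 0 = famNorm c 0 := by simp [famNorm, xi]
    have h1 : famNorm v 0 = famNorm c 0 := by simp [hv, famNorm, solve]
    have hrec : ∑ d ∈ range (D + 1), ρ ^ (d + 1) *
        famNorm (fun (x : α × I) => xi m fun J => v x.1 (x.2 :: J)) d ≤
        2 / 3 * ∑ d ∈ range (D + 1), (2 * ρ) ^ (d + 1) * famNorm v (d + 1) := by
      simp only [pow_succ', mul_assoc, ← mul_sum]
      nlinarith [mul_le_mul_of_nonneg_left ih hρ]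
    have hle : famNorm c 0 ≤ ∑ d ∈ range (D + 2), (2 * ρ) ^ d * famNorm c d := by
      rw [sum_range_succ', pow_zero, one_mul]
      exact le_add_of_nonneg_left
        (sum_nonneg fun d _ => mul_nonneg (pow_nonneg (by linarith) _) (Real.sqrt_nonneg _))
    rw [h0, pow_zero, one_mul]
    rw [pow_zero, one_mul, h1, ← hv] at hv'
    have hc0 : 0 ≤ famNorm c 0 := Real.sqrt_nonneg _
    linarith

end Series

theorem seriesWitness : SeriesWitness := by
  intro I _ _ m c D ρ hρ hm hc hM hC
  refine ⟨Series.xi m c, fun J hJ => Series.xi_spec m hm D c J hJ, ?_⟩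
  have e : ∀ f d, Series.famNorm (fun _ : Unit => f) d = degNorm (I := I) f d := fun f d => by
    simp [Series.famNorm, Series.nrm, degNorm, Fintype.sum_prod_type]
  have h := Series.xi_le hρ.le D hM (fun _ : Unit => c)
  simp only [e] at h
  refine h.trans ?_
  have hc0 : degNorm c 0 = 0 := by simp [degNorm, hc]
  have hsplit : ∑ d ∈ range (D + 1), (2 * ρ) ^ d * degNorm c d =
      ∑ d ∈ Icc 1 D, (2 * ρ) ^ d * degNorm c d := by
    rw [sum_range_succ', hc0, mul_zero, add_zero, ← Ico_add_one_right_eq_Icc,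
      sum_Ico_eq_sum_range]
    simp [Nat.add_comm 1]
  rw [hsplit]
  linarith

end Vale.Agent.P087
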