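import Vale.Agent.P087.Assembly
import Vale.Agent.P087.ChiUpperModel
import Vale.Agent.P087.ModelFacts
import Vale.Agent.P087.Moment
import Vale.Agent.P087.Series
import Vale.Agent.P087.Coordinates
import Vale.Agent.P087.Gue.Norm
import Vale.Agent.P087.Gue.Moments

namespace Vale.Agent.P087

theorem counterexample_of_low (hlow : ⊥ < chi (law (omega 100) (xOp 100))) : Counterexample :=
  counterexample_of (modelFacts 100) (momentBound_holds 100) seriesWitness
    (chi_upper 100 (by norm_num) (modelFacts 100)) hlow

end Vale.Agent.P087
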