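import Mathlib

/-!
# P087, module B: inversion of the substitution `x_a ↦ M x_a`
-/

namespace Vale.Agent.P087

/-- Coefficient of `x^J` in `M x_{a₁} M x_{a₂} ⋯ x_{a_d} M`, where `A = [a₁,…,a_d]` and
`M = ∑_K m K x^K`. -/
noncomputable def gapCoeff {I : Type*} [DecidableEq I] (m : List I → ℝ) :
    List I → List I → ℝ
  | [], J => m J
  | a :: A, J => ∑ p ∈ Finset.range J.length,
      if J[p]? = some a then m (J.take p) * gapCoeff m A (J.drop (p + 1)) else 0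

/-- `(∑_{|J| = d} f J ^ 2)^{1/2}`. -/
noncomputable def degNorm {I : Type*} [Fintype I] (f : List I → ℝ) (d : ℕ) : ℝ :=
  Real.sqrt (∑ J : Fin d → I, f (List.ofFn J) ^ 2)

/-- Module B endpoint. -/
def SeriesWitness : Prop :=
  ∀ (I : Type) [Fintype I] [DecidableEq I] (m c : List I → ℝ) (D : ℕ) (ρ : ℝ), 0 < ρ →
    m [] = 1 → c [] = 0 →
    (∑ d ∈ Finset.Icc 1 D, (2 * ρ) ^ d * degNorm m d) ≤ 1 / 4 →
    (∑ d ∈ Finset.Icc 1 D, (2 * ρ) ^ d * degNorm c d) ≤ 1 / 4 →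
    ∃ ξ : List I → ℝ,
      (∀ J : List I, J.length ≤ D →
        ∑ d ∈ Finset.range (D + 1), ∑ A : Fin d → I,
          ξ (List.ofFn A) * gapCoeff m (List.ofFn A) J = c J) ∧
      ∑ d ∈ Finset.range (D + 1), ρ ^ d * degNorm ξ d ≤ 1 / 3

end Vale.Agent.P087
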