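import Vale.Agent.P087.ModelInterface
import Vale.Agent.P087.SeriesInterface

/-!
# P087: the witness bound (proof section 3a)
-/

namespace Vale.Agent.P087

open scoped InnerProductSpace
open ContinuousLinearMap

variable {m : ℕ}

/-- The time threshold `T = 100 Q²`. -/
noncomputable def threshold (m : ℕ) : ℝ := 100 * momentBound m ^ 2

theorem momentBound_pos (m : ℕ) : 0 < momentBound m := by
  unfold momentBound
  positivity

theorem threshold_pos (m : ℕ) : 0 < threshold m := by
  unfold threshold
  have := momentBound_pos m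
  positivity

theorem noiseVar_nonneg (m : ℕ) (j : Idx m) : 0 ≤ noiseVar m j := by
  unfold noiseVar smallVar
  rcases j with j | j <;> simp

/-- Real moments of `z`. -/
noncomputable def zMom (m : ℕ) (K : List (Idx m)) : ℝ := (law (omega m) (zOp m) K).re

theorem zMom_cast (hm : ModelFacts m) (K : List (Idx m)) :
    ((zMom m K : ℝ) : ℂ) = law (omega m) (zOp m) K := by
  apply Complex.ext <;> simp [zMom, hm.law_real K]

theorem opWord_cons_apply {ι H : Type*} [NormedAddCommGroup H] [InnerProductSpace ℂ H]
    (X : ι → H →L[ℂ] H) (a : ι) (w : List ι) (v : H) :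
    opWord X (a :: w) v = X a (opWord X w v) := by
  simp [opWord]

theorem opWord_nil_apply {ι H : Type*} [NormedAddCommGroup H] [InnerProductSpace ℂ H]
    (X : ι → H →L[ℂ] H) (v : H) : opWord X [] v = v := by
  simp [opWord]

theorem norm_omega (hm : ModelFacts m) : ‖omega m‖ = 1 := by
  obtain ⟨M, hM, -⟩ := hm.setting
  exact hM.1

theorem law_nil (hm : ModelFacts m) : law (omega m) (zOp m) [] = 1 := by
  simp [law, opWord_nil_apply, norm_omega hm]

theorem ann_mix_cre (hm : ModelFacts m) {t : ℝ} (ht : 0 ≤ t) (a b : Idx m) (K : List (Idx m))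
    (v : Space m) :
    (mixCre m t a).adjoint (opWord (zOp m) K (mixCre m t b v)) =
      (if a = b then law (omega m) (zOp m) K else 0) • v := by
  have := congrArg (fun T : Space m →L[ℂ] Space m => T v) (hm.concat t ht a b K)
  simpa only [ContinuousLinearMap.comp_apply, smul_apply, ContinuousLinearMap.id_apply] using this

/-- `⟪Ω, z_K L_b v⟫ = 0`. -/
theorem vac_zWord_cre (hm : ModelFacts m) {t : ℝ} (ht : 0 ≤ t) (b : Idx m) :
    ∀ (K L : List (Idx m)) (v : Space m),
      ⟪opWord (zOp m) L (omega m), opWord (zOp m) K (mixCre m t b v)⟫_ℂ = 0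
  | [], L, v => by
    rw [opWord_nil_apply, ← adjoint_inner_left, hm.concat_vac t ht b L, inner_zero_left]
  | a :: K, L, v => by
    rw [opWord_cons_apply, ← adjoint_inner_left, (hm.zOp_selfAdjoint a).adjoint_eq, ← opWord_cons_apply]
    exact vac_zWord_cre hm ht b K (a :: L) v

/-- `√s_j`, with `s_j = σ_j + t`. -/
noncomputable def rootVar (m : ℕ) (t : ℝ) (j : Idx m) : ℝ := Real.sqrt (noiseVar m j + t)

/-- The vectors `Ψ(J)`. -/
noncomputable def psi (m : ℕ) (t : ℝ) : List (Idx m) → Space m
  | [] => omega m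
  | a :: J => zOp m a (psi m t J) + ((rootVar m t a : ℝ) : ℂ) • mixCre m t a (psi m t J)

/-- The term of `Ψ(J)` whose first noise letter sits at position `p`. -/
noncomputable def psiTerm (m : ℕ) (t : ℝ) (J : List (Idx m)) (p : ℕ) : Space m :=
  match J[p]? with
  | some a => ((rootVar m t a : ℝ) : ℂ) •
      opWord (zOp m) (J.take p) (mixCre m t a (psi m t (J.drop (p + 1))))
  | none => 0

theorem psi_expand (m : ℕ) (t : ℝ) : ∀ J : List (Idx m),
    psi m t J = opWord (zOp m) J (omega m) + ∑ p ∈ Finset.range J.length, psiTerm m t J p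
  | [] => by simp [psi, opWord_nil_apply]
  | a :: J => by
    have h0 : psiTerm m t (a :: J) 0 = ((rootVar m t a : ℝ) : ℂ) • mixCre m t a (psi m t J) := by
      simp [psiTerm, opWord_nil_apply]
    have hp : ∀ p, psiTerm m t (a :: J) (p + 1) = zOp m a (psiTerm m t J p) := by
      intro p
      simp only [psiTerm, List.getElem?_cons_succ, List.take_succ_cons, List.drop_succ_cons]
      rcases h : J[p]? with _ | b
      · simp
      · simp only [opWord_cons_apply, map_smul]
    rw [List.length_cons, Finset.sum_range_succ', h0, psi, psi_expand m t J]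
    simp only [hp, map_add, map_sum, opWord_cons_apply]
    abel

/-- `Ψ(J)` tested against a noise adjoint. -/
theorem ann_psi (hm : ModelFacts m) {t : ℝ} (ht : 0 ≤ t) (a : Idx m) (J : List (Idx m)) :
    (mixCre m t a).adjoint (psi m t J) = ((rootVar m t a : ℝ) : ℂ) •
      ∑ p ∈ Finset.range J.length,
        if J[p]? = some a then ((zMom m (J.take p) : ℝ) : ℂ) • psi m t (J.drop (p + 1)) else 0 := by
  rw [psi_expand, map_add, hm.concat_vac t ht, zero_add, map_sum, Finset.smul_sum]
  refine Finset.sum_congr rfl fun p _ => ?_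
  rcases h : J[p]? with _ | b
  · simp [psiTerm, h]
  · rw [psiTerm, h]
    simp only [map_smul, ann_mix_cre hm ht, Option.some.injEq]
    by_cases hab : a = b
    · subst hab
      simp [zMom_cast hm]
    · simp [hab, Ne.symm hab]

/-- The span of the `Ψ(J)`, `|J| ≤ D`. -/
noncomputable def psiSpan (m : ℕ) (t : ℝ) (D : ℕ) : Submodule ℂ (Space m) :=
  Submodule.span ℂ (psi m t '' {J | J.length ≤ D})

theorem psi_mem (m : ℕ) (t : ℝ) {D : ℕ} {J : List (Idx m)} (h : J.length ≤ D) :
    psi m t J ∈ psiSpan m t D :=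
  Submodule.subset_span ⟨J, h, rfl⟩

theorem perturb_psi_mem (hm : ModelFacts m) {t : ℝ} (ht : 0 ≤ t) (a : Idx m) {D : ℕ}
    {J : List (Idx m)} (hJ : J.length ≤ D) :
    perturb (xOp m) (sOp m) t a (psi m t J) ∈ psiSpan m t (D + 1) := by
  have : perturb (xOp m) (sOp m) t a (psi m t J) =
      psi m t (a :: J) + ((rootVar m t a : ℝ) : ℂ) • (mixCre m t a).adjoint (psi m t J) := by
    rw [hm.perturb_eq t ht a]
    simp only [add_apply, smul_apply, psi, rootVar, smul_add]
    abel
  rw [this, ann_psi hm ht]
  refine Submodule.add_mem _ (psi_mem m t (by simp [hJ])) (Submodule.smul_mem _ _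
    (Submodule.smul_mem _ _ (Submodule.sum_mem _ fun p _ => ?_)))
  split_ifs
  · exact Submodule.smul_mem _ _ (psi_mem m t (by simp only [List.length_drop]; omega))
  · exact Submodule.zero_mem _

theorem word_mem_psiSpan (hm : ModelFacts m) {t : ℝ} (ht : 0 ≤ t) : ∀ w : List (Idx m),
    opWord (perturb (xOp m) (sOp m) t) w (omega m) ∈ psiSpan m t w.length
  | [] => by
    rw [opWord_nil_apply]
    exact psi_mem m t (J := []) le_rfl
  | a :: w => by
    rw [opWord_cons_apply]
    have hmap : psiSpan m t w.length ≤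
        (psiSpan m t (w.length + 1)).comap
          (perturb (xOp m) (sOp m) t a).toLinearMap := by
      rw [psiSpan, Submodule.span_le]
      rintro _ ⟨J, hJ, rfl⟩
      exact perturb_psi_mem hm ht a hJ
    exact hmap (word_mem_psiSpan hm ht w)

/-- `e_A = L_{a₁} ⋯ L_{a_d} Ω`. -/
noncomputable def eVec (m : ℕ) (t : ℝ) (A : List (Idx m)) : Space m :=
  opWord (mixCre m t) A (omega m)

/-- `∏_{a ∈ A} √s_a`. -/
noncomputable def rootProd (m : ℕ) (t : ℝ) (A : List (Idx m)) : ℝ := (A.map (rootVar m t)).prod

theorem inner_eVec_psi (hm : ModelFacts m) {t : ℝ} (ht : 0 ≤ t) :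
    ∀ A J : List (Idx m), ⟪eVec m t A, psi m t J⟫_ℂ =
      ((rootProd m t A * gapCoeff (zMom m) A J : ℝ) : ℂ)
  | [], J => by
    rw [eVec, opWord_nil_apply, psi_expand, inner_add_right, inner_sum, Finset.sum_eq_zero]
    · simp [rootProd, gapCoeff, zMom_cast hm, law]
    · intro p _
      rcases h : J[p]? with _ | b
      · simp [psiTerm, h]
      · simp only [psiTerm, h, inner_smul_right]
        have := vac_zWord_cre hm ht b (J.take p) [] (psi m t (J.drop (p + 1)))
        rw [opWord_nil_apply] at this
        rw [this, mul_zero]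
  | a :: A, J => by
    rw [eVec, opWord_cons_apply, ← adjoint_inner_right, ann_psi hm ht, inner_smul_right, inner_sum]
    simp only [apply_ite (fun x => ⟪opWord (mixCre m t) A (omega m), x⟫_ℂ), inner_smul_right,
      inner_zero_right]
    have ih : ∀ K, ⟪opWord (mixCre m t) A (omega m), psi m t K⟫_ℂ = _ := inner_eVec_psi hm ht A
    simp only [ih, gapCoeff, rootProd, List.map_cons, List.prod_cons]
    push_cast
    rw [Finset.mul_sum, Finset.mul_sum]
    refine Finset.sum_congr rfl fun p _ => ?_
    split_ifs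
    · push_cast
      ring
    · simp

theorem rootVar_pos {t : ℝ} (ht : 0 < t) (j : Idx m) : 0 < rootVar m t j :=
  Real.sqrt_pos.2 (by linarith [noiseVar_nonneg m j])

theorem eVec_orthonormal (hm : ModelFacts m) {t : ℝ} (ht : 0 ≤ t) :
    ∀ A B : List (Idx m), ⟪eVec m t A, eVec m t B⟫_ℂ = if A = B then 1 else 0
  | [], [] => by simp [eVec, opWord_nil_apply, norm_omega hm]
  | [], b :: B => by
    rw [eVec, eVec, opWord_nil_apply, opWord_cons_apply, ← adjoint_inner_left]
    have := hm.concat_vac t ht b []
    rw [opWord_nil_apply] at this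
    simp [this]
  | a :: A, [] => by
    rw [eVec, eVec, opWord_nil_apply, opWord_cons_apply, ← adjoint_inner_right]
    have := hm.concat_vac t ht a []
    rw [opWord_nil_apply] at this
    simp [this]
  | a :: A, b :: B => by
    rw [eVec, opWord_cons_apply, eVec, opWord_cons_apply, ← adjoint_inner_right]
    have := ann_mix_cre hm ht a b [] (opWord (mixCre m t) B (omega m))
    rw [opWord_nil_apply] at this
    rw [this, law_nil hm, inner_smul_right, ← eVec, ← eVec, eVec_orthonormal hm ht A B]
    by_cases hab : a = b <;> simp [hab]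

end Vale.Agent.P087
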